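import Mathlib
import Crest.Prelude.Def_BoxFlow

/-!
# S0170 core definitions (helper2)

Everything for S0170 is organised around *moves*: a move acts on a box region by the straight-line
velocity `V y = (α + s * y l) • e j` (with `j ≠ l`).  A list of moves is realised by one field.

Interfaces:
* `Geometry`: `∃ L : List Move, ...` (pure combinatorial geometry about `Trace`).
* `realize` (Flow + Effective): every list of moves is realised by a good field.
-/

open Crest.AnalysisR.BoxFlow

namespace Crest.Agent.Lib.BF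

/-! ### Towers of derivatives -/

/-- `f` is a derivative tower: `f (m+1)` is the derivative of `f m`, everywhere. -/
def IsTower (f : ℕ → ℝ → ℝ) : Prop := ∀ m y, HasDerivAt (f m) (f (m + 1) y) y

/-- The derivative tower of the smooth step `Real.smoothTransition`. -/
noncomputable def St (m : ℕ) : ℝ → ℝ := iteratedDeriv m Real.smoothTransition

/-- Scaled translate: the tower of `y ↦ f 0 ((y - a)/c)`. -/
noncomputable def scaleT (f : ℕ → ℝ → ℝ) (a c : ℚ) (m : ℕ) (y : ℝ) : ℝ :=
  ((c : ℝ)⁻¹) ^ m * f m ((y - a) / c)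

noncomputable def addT (f g : ℕ → ℝ → ℝ) (m : ℕ) (y : ℝ) : ℝ := f m y + g m y
noncomputable def subT (f g : ℕ → ℝ → ℝ) (m : ℕ) (y : ℝ) : ℝ := f m y - g m y
noncomputable def smulT (r : ℚ) (f : ℕ → ℝ → ℝ) (m : ℕ) (y : ℝ) : ℝ := (r : ℝ) * f m y
noncomputable def shiftT (f : ℕ → ℝ → ℝ) (m : ℕ) (y : ℝ) : ℝ := f (m + 1) y
/-- The tower of `y ↦ y * f 0 y`. -/
noncomputable def xmulT (f : ℕ → ℝ → ℝ) (m : ℕ) (y : ℝ) : ℝ := y * f m y + (m : ℝ) * f (m - 1) y
/-- The zero tower. -/
noncomputable def zeroT (_ : ℕ) (_ : ℝ) : ℝ := 0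

/-- Plateau tower: `1` on `[lo, hi]`, `0` outside `(lo - ε, hi + ε)`. -/
noncomputable def plateauT (lo hi ε : ℚ) : ℕ → ℝ → ℝ :=
  subT (scaleT St (lo - ε) ε) (scaleT St hi ε)

/-- Tower of `Q y = (α y + (s/2) y²) * p y` with `p` the plateau on `[lo, hi]`. -/
noncomputable def qT (α s lo hi ε : ℚ) : ℕ → ℝ → ℝ :=
  addT (smulT α (xmulT (plateauT lo hi ε))) (smulT (s / 2) (xmulT (xmulT (plateauT lo hi ε))))

/-- Tower of the time profile on the window `[a, b]`: its integral over `[a,b]` is `1`;
its primitive is `y ↦ St 0 ((y-a)/(b-a))`. -/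
noncomputable def timeT (a b : ℚ) : ℕ → ℝ → ℝ := shiftT (scaleT St a (b - a))

/-! ### Separated fields -/

/-- The field whose component `c` is the product of one-variable functions:
`F c 0 0 t * F c 1 0 (x 0) * F c 2 0 (x 1) * F c 3 0 (x 2)`. -/
noncomputable def SepField (F : Fin 3 → Fin 4 → ℕ → ℝ → ℝ) : Field :=
  fun p c => F c 0 0 p.1 * F c 1 0 (p.2 0) * F c 2 0 (p.2 1) * F c 3 0 (p.2 2)

/-! ### Moves -/

/-- The third index. -/
def third (j l : Fin 3) : Fin 3 :=
  if (0 : Fin 3) ≠ j ∧ (0 : Fin 3) ≠ l then 0 else if (1 : Fin 3) ≠ j ∧ (1 : Fin 3) ≠ l then 1 else 2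

/-- A move: on the region `lo ≤ y ≤ hi` the velocity is `(α + s * y l) • e j`, and the field vanishes
outside the region thickened by `ε`. -/
structure Move where
  j : Fin 3
  l : Fin 3
  hjl : j ≠ l
  α : ℚ
  s : ℚ
  lo : Fin 3 → ℚ
  hi : Fin 3 → ℚ
  ε : ℚ
  hε : 0 < ε
  hlohi : ∀ i, lo i ≤ hi i

namespace Move

/-- The velocity field on the inner region. -/
noncomputable def V (mv : Move) (y : Fin 3 → ℝ) : Fin 3 → ℝ :=
  Function.update 0 mv.j ((mv.α : ℝ) + (mv.s : ℝ) * y mv.l)

/-- `y` lies in the inner region. -/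
def Inner (mv : Move) (y : Fin 3 → ℝ) : Prop := ∀ i, (mv.lo i : ℝ) ≤ y i ∧ y i ≤ (mv.hi i : ℝ)

/-- `y` lies outside the outer region. -/
def Outer (mv : Move) (y : Fin 3 → ℝ) : Prop :=
  ∃ i, y i ≤ (mv.lo i : ℝ) - mv.ε ∨ (mv.hi i : ℝ) + mv.ε ≤ y i

/-- `y` is pushed by the move: the segment to `y + V y` stays in the inner region. -/
def Pushes (mv : Move) (y : Fin 3 → ℝ) : Prop :=
  ∀ σ : ℝ, 0 ≤ σ → σ ≤ 1 → mv.Inner (y + σ • mv.V y)

/-- One step of the action of a move: either the point is pushed or it is outside. -/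
def Step (mv : Move) (y y' : Fin 3 → ℝ) : Prop :=
  (mv.Pushes y ∧ y' = y + mv.V y) ∨ (mv.Outer y ∧ y' = y)

/-- The inverse move. -/
def inv (mv : Move) : Move := { mv with α := -mv.α, s := -mv.s }

/-- The factors of the field of the move on the time window `[a, b]`. -/
noncomputable def F (mv : Move) (a b : ℚ) : Fin 3 → Fin 4 → ℕ → ℝ → ℝ := fun c i =>
  if c = mv.j then
    if i = 0 then timeT a b
    else if i = mv.j.succ then plateauT (mv.lo mv.j) (mv.hi mv.j) mv.ε
    else if i = mv.l.succ then shiftT (qT mv.α mv.s (mv.lo mv.l) (mv.hi mv.l) mv.ε)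
    else plateauT (mv.lo (third mv.j mv.l)) (mv.hi (third mv.j mv.l)) mv.ε
  else if c = mv.l then
    if i = 0 then timeT a b
    else if i = mv.j.succ then smulT (-1) (shiftT (plateauT (mv.lo mv.j) (mv.hi mv.j) mv.ε))
    else if i = mv.l.succ then qT mv.α mv.s (mv.lo mv.l) (mv.hi mv.l) mv.ε
    else plateauT (mv.lo (third mv.j mv.l)) (mv.hi (third mv.j mv.l)) mv.ε
  else zeroT

/-- The field of the move on the time window `[a, b]`. -/
noncomputable def field (mv : Move) (a b : ℚ) : Field := SepField (mv.F a b)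

end Move

/-- The action of a list of moves on a point, as a relation. -/
inductive Trace : List Move → (Fin 3 → ℝ) → (Fin 3 → ℝ) → Prop
  | nil (y) : Trace [] y y
  | cons {mv L y y' y''} : mv.Step y y' → Trace L y' y'' → Trace (mv :: L) y y''

/-! ### The field of a list of moves -/

/-- The `k`-th time window boundary among `N` windows in `[1/4, 3/4]`:
window `k` is `[win N k, win N (k+1)]`. -/
def win (N k : ℕ) : ℚ := 1 / 4 + (k : ℚ) / (2 * (N : ℚ))

/-- Field of the moves of `L`, the first one using time window number `k` among `N`. -/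
noncomputable def listFieldAux (N : ℕ) : ℕ → List Move → Field
  | _, [] => fun _ => 0
  | k, mv :: L => fun p => mv.field (win N k) (win N (k + 1)) p + listFieldAux N (k + 1) L p

/-- The field realising the list of moves `L`. -/
noncomputable def listField (L : List Move) : Field := listFieldAux L.length 0 L

end Crest.Agent.Lib.BF
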