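import Crest.Agent.Lib.BF.RatComp

/-!
# Effective towers (helper2)

`ApproxT f`: a computable function approximates `f m q` at internal rationals.
`BoundT f`: a computable function bounds `f m` globally.
-/

open Crest.AnalysisR.BoxFlow

namespace Crest.Agent.Lib.BF

/-- Computable rational approximation of a tower at rational points. -/
def ApproxT (f : ℕ → ℝ → ℝ) : Prop :=
  ∃ A : ℕ × Qt × ℕ → Qt, Computable A ∧
    ∀ m q N, |f m ((q.val : ℚ) : ℝ) - (((A (m, q, N)).val : ℚ) : ℝ)| ≤ 1 / ((N : ℝ) + 1)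

/-- Computable global bounds of a tower. -/
def BoundT (f : ℕ → ℝ → ℝ) : Prop :=
  ∃ B : ℕ → ℕ, Computable B ∧ ∀ m y, |f m y| ≤ (B m : ℝ)

/-- A tower with bounded support. -/
def SuppT (f : ℕ → ℝ → ℝ) : Prop := ∃ D : ℕ, ∀ m y, (D : ℝ) ≤ |y| → f m y = 0

/-! ### Arithmetic helpers -/

/-- A natural upper bound for a rational absolute value. -/
noncomputable def natB (r : ℚ) : ℕ := ⌈|r|⌉₊ + 1

theorem natB_pos (r : ℚ) : 0 < natB r := Nat.succ_pos _

theorem abs_le_natB (r : ℚ) : |(r : ℝ)| ≤ (natB r : ℝ) := by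
  have h : |r| ≤ (⌈|r|⌉₊ : ℚ) := Nat.le_ceil _
  have h' : ((|r| : ℚ) : ℝ) ≤ ((⌈|r|⌉₊ : ℚ) : ℝ) := by exact_mod_cast h
  rw [natB]
  push_cast at h' ⊢
  linarith

/-- A natural upper bound for the absolute value of an internal rational. -/
def Qt.natB (q : Qt) : ℕ := q.2.1 + 1

theorem Qt.natB_pos (q : Qt) : 0 < q.natB := Nat.succ_pos _

theorem Qt.abs_val_le (q : Qt) : |((q.val : ℚ) : ℝ)| ≤ (q.natB : ℝ) := by
  have h : |q.val| ≤ (q.natB : ℚ) := by
    rw [Qt.val, abs_div]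
    have h1 : |((q.2.2 : ℚ) + 1)| = (q.2.2 : ℚ) + 1 := abs_of_pos (by positivity)
    have h2 : |(if q.1 = true then -(q.2.1 : ℚ) else (q.2.1 : ℚ))| = (q.2.1 : ℚ) := by
      split_ifs <;> simp
    rw [h1, h2, Qt.natB, div_le_iff₀ (by positivity)]
    push_cast
    nlinarith [Nat.cast_nonneg (α := ℚ) q.2.1, Nat.cast_nonneg (α := ℚ) q.2.2]
  have h' : ((|q.val| : ℚ) : ℝ) ≤ ((q.natB : ℚ) : ℝ) := by exact_mod_cast h
  push_cast at h' ⊢
  simpa using h'

theorem primrec_natB : Primrec Qt.natB := Primrec.succ.comp primrec_nm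

/-- Power of natural numbers is primitive recursive. -/
theorem primrec_natPow : Primrec₂ (fun (a m : ℕ) => a ^ m) := by
  have h : Primrec₂ (fun (a m : ℕ) =>
      Nat.rec (motive := fun _ => ℕ) 1 (fun _ ih => ih * a) m) :=
    Primrec.nat_rec' (f := fun p : ℕ × ℕ => p.2) (g := fun _ => 1)
      (h := fun p (s : ℕ × ℕ) => s.2 * p.1) Primrec.snd (Primrec.const 1)
      (Primrec.nat_mul.comp (Primrec.snd.comp Primrec.snd) (Primrec.fst.comp Primrec.fst)).to₂
  refine h.of_eq ?_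
  intro a m
  induction m with
  | zero => rfl
  | succ m ih => simp only [pow_succ, ← ih]

/-- Power of internal rationals. -/
def Qt.pow (q : Qt) (m : ℕ) : Qt := Nat.rec (Qt.ofNat 1) (fun _ ih => Qt.mul ih q) m

theorem Qt.val_pow (q : Qt) (m : ℕ) : (q.pow m).val = q.val ^ m := by
  induction m with
  | zero => simp [Qt.pow, Qt.val_ofNat]
  | succ m ih =>
    change (Qt.mul (q.pow m) q).val = _
    rw [Qt.val_mul, ih, pow_succ]

theorem primrec_pow : Primrec₂ Qt.pow :=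
  Primrec.nat_rec' (f := fun p : Qt × ℕ => p.2) (g := fun _ => Qt.ofNat 1)
      (h := fun p (s : ℕ × Qt) => Qt.mul s.2 p.1) Primrec.snd (Primrec.const _)
      (primrec_mul.comp (Primrec.snd.comp Primrec.snd) (Primrec.fst.comp Primrec.fst)).to₂

theorem err_add {x y x' y' : ℝ} {N : ℕ}
    (h : |x - y| ≤ 1 / (((2 * N + 1 : ℕ) : ℝ) + 1)) (h' : |x' - y'| ≤ 1 / (((2 * N + 1 : ℕ) : ℝ) + 1)) :
    |(x + x') - (y + y')| ≤ 1 / ((N : ℝ) + 1) := by
  have e : (1 : ℝ) / (((2 * N + 1 : ℕ) : ℝ) + 1) = (1 / ((N : ℝ) + 1)) / 2 := by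
    push_cast; field_simp; ring
  rw [e] at h h'
  rw [abs_le] at h h' ⊢
  constructor <;> linarith [h.1, h.2, h'.1, h'.2]

theorem err_sub {x y x' y' : ℝ} {N : ℕ}
    (h : |x - y| ≤ 1 / (((2 * N + 1 : ℕ) : ℝ) + 1)) (h' : |x' - y'| ≤ 1 / (((2 * N + 1 : ℕ) : ℝ) + 1)) :
    |(x - x') - (y - y')| ≤ 1 / ((N : ℝ) + 1) := by
  have e : (1 : ℝ) / (((2 * N + 1 : ℕ) : ℝ) + 1) = (1 / ((N : ℝ) + 1)) / 2 := by
    push_cast; field_simp; ring
  rw [e] at h h'
  rw [abs_le] at h h' ⊢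
  constructor <;> linarith [h.1, h.2, h'.1, h'.2]

theorem err_mul {r x y : ℝ} {P N N' : ℕ} (hr : |r| ≤ (P : ℝ)) (hP : 0 < P)
    (hN : (N + 1) * P ≤ N' + 1) (h : |x - y| ≤ 1 / ((N' : ℝ) + 1)) :
    |r * x - r * y| ≤ 1 / ((N : ℝ) + 1) := by
  rw [← mul_sub, abs_mul]
  have hP' : (0 : ℝ) < P := by exact_mod_cast hP
  have hN' : ((N : ℝ) + 1) * P ≤ (N' : ℝ) + 1 := by exact_mod_cast hN
  have hN1 : (0 : ℝ) < (N : ℝ) + 1 := by positivity
  have hN2 : (0 : ℝ) < (N' : ℝ) + 1 := by positivity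
  calc |r| * |x - y| ≤ P * (1 / ((N' : ℝ) + 1)) := by
        apply mul_le_mul hr h (abs_nonneg _) hP'.le
    _ ≤ 1 / ((N : ℝ) + 1) := by
        rw [mul_one_div, div_le_div_iff₀ hN2 hN1]
        nlinarith

/-! ### Closure of `ApproxT` -/

section Closure

variable {f g : ℕ → ℝ → ℝ}

private theorem cm : Computable (fun p : ℕ × Qt × ℕ => p.1) := Computable.fst
private theorem cq : Computable (fun p : ℕ × Qt × ℕ => p.2.1) := Computable.fst.comp Computable.snd
private theorem cN : Computable (fun p : ℕ × Qt × ℕ => p.2.2) := Computable.snd.comp Computable.snd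

private theorem c2N : Computable (fun p : ℕ × Qt × ℕ => 2 * p.2.2 + 1) :=
  Computable.succ.comp ((Primrec.nat_mul.to_comp).comp (Computable.const 2) cN)

theorem ApproxT.add (hf : ApproxT f) (hg : ApproxT g) : ApproxT (addT f g) := by
  obtain ⟨A, hA, hA'⟩ := hf
  obtain ⟨C, hC, hC'⟩ := hg
  refine ⟨fun p => Qt.add (A (p.1, p.2.1, 2 * p.2.2 + 1)) (C (p.1, p.2.1, 2 * p.2.2 + 1)), ?_, ?_⟩
  · exact primrec_add.to_comp.comp (hA.comp (cm.pair (cq.pair c2N))) (hC.comp (cm.pair (cq.pair c2N)))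
  · intro m q N
    simp only [Qt.val_add, addT]
    push_cast
    exact err_add (hA' m q _) (hC' m q _)

theorem ApproxT.sub (hf : ApproxT f) (hg : ApproxT g) : ApproxT (subT f g) := by
  obtain ⟨A, hA, hA'⟩ := hf
  obtain ⟨C, hC, hC'⟩ := hg
  refine ⟨fun p => Qt.sub (A (p.1, p.2.1, 2 * p.2.2 + 1)) (C (p.1, p.2.1, 2 * p.2.2 + 1)), ?_, ?_⟩
  · exact primrec_sub.to_comp.comp (hA.comp (cm.pair (cq.pair c2N))) (hC.comp (cm.pair (cq.pair c2N)))
  · intro m q N
    simp only [Qt.val_sub, subT]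
    push_cast
    exact err_sub (hA' m q _) (hC' m q _)

theorem ApproxT.smul (r : ℚ) (hf : ApproxT f) : ApproxT (smulT r f) := by
  obtain ⟨A, hA, hA'⟩ := hf
  refine ⟨fun p => Qt.mul (ofRat r) (A (p.1, p.2.1, (p.2.2 + 1) * natB r)), ?_, ?_⟩
  · refine primrec_mul.to_comp.comp (Computable.const _) (hA.comp (cm.pair (cq.pair ?_)))
    exact Primrec.nat_mul.to_comp.comp (Computable.succ.comp cN) (Computable.const _)
  · intro m q N
    simp only [Qt.val_mul, Qt.val_ofRat, smulT]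
    push_cast
    exact err_mul (abs_le_natB r) (natB_pos r) (Nat.le_succ _) (hA' m q _)

theorem ApproxT.shift (hf : ApproxT f) : ApproxT (shiftT f) := by
  obtain ⟨A, hA, hA'⟩ := hf
  refine ⟨fun p => A (p.1 + 1, p.2.1, p.2.2), ?_, ?_⟩
  · exact hA.comp ((Computable.succ.comp cm).pair (cq.pair cN))
  · intro m q N
    exact hA' (m + 1) q N

theorem ApproxT.zero : ApproxT zeroT := by
  refine ⟨fun _ => Qt.ofNat 0, Computable.const _, ?_⟩
  intro m q N
  simp only [zeroT, Qt.val_ofNat]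
  simp
  positivity

theorem ApproxT.scale (a c : ℚ) (hf : ApproxT f) : ApproxT (scaleT f a c) := by
  obtain ⟨A, hA, hA'⟩ := hf
  refine ⟨fun p => Qt.mul ((ofRat c⁻¹).pow p.1)
    (A (p.1, Qt.mul (Qt.sub p.2.1 (ofRat a)) (ofRat c⁻¹), (p.2.2 + 1) * (natB c⁻¹) ^ p.1)), ?_, ?_⟩
  · refine primrec_mul.to_comp.comp ?_ (hA.comp (cm.pair (Computable.pair ?_ ?_)))
    · exact primrec_pow.to_comp.comp (Computable.const _) cm
    · exact primrec_mul.to_comp.comp (primrec_sub.to_comp.comp cq (Computable.const _))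
        (Computable.const _)
    · exact Primrec.nat_mul.to_comp.comp (Computable.succ.comp cN)
        (primrec_natPow.to_comp.comp (Computable.const _) cm)
  · intro m q N
    simp only [Qt.val_mul, Qt.val_ofRat, Qt.val_pow, Qt.val_sub, scaleT]
    have e : ((q.val : ℝ) - (a : ℝ)) / (c : ℝ) =
        (((q.val - a) * c⁻¹ : ℚ) : ℝ) := by
      push_cast; rw [div_eq_mul_inv]
    rw [e]
    have hb := hA' m (Qt.mul (Qt.sub q (ofRat a)) (ofRat c⁻¹)) ((N + 1) * natB c⁻¹ ^ m)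
    simp only [Qt.val_mul, Qt.val_ofRat, Qt.val_sub] at hb
    have hP : |((c : ℝ)⁻¹) ^ m| ≤ ((natB c⁻¹ ^ m : ℕ) : ℝ) := by
      rw [abs_pow]
      push_cast
      apply pow_le_pow_left₀ (abs_nonneg _)
      have := abs_le_natB c⁻¹
      push_cast at this
      exact this
    have := err_mul (r := ((c : ℝ)⁻¹) ^ m) hP (pow_pos (natB_pos _) m) (Nat.le_succ _) hb
    push_cast at this ⊢
    exact this

theorem ApproxT.xmul (hf : ApproxT f) : ApproxT (xmulT f) := by
  obtain ⟨A, hA, hA'⟩ := hf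
  -- precision: `(N + 1) * (natB q + m + 1) * 2`
  let P : ℕ × Qt × ℕ → ℕ := fun p => (2 * p.2.2 + 1 + 1) * (p.2.1.natB + p.1)
  have hPc : Computable P := by
    refine Primrec.nat_mul.to_comp.comp (Computable.succ.comp c2N) ?_
    exact Primrec.nat_add.to_comp.comp (primrec_natB.to_comp.comp cq) cm
  refine ⟨fun p => Qt.add (Qt.mul p.2.1 (A (p.1, p.2.1, P p)))
    (Qt.mul (Qt.ofNat p.1) (A (p.1 - 1, p.2.1, P p))), ?_, ?_⟩
  · refine primrec_add.to_comp.comp (primrec_mul.to_comp.comp cq (hA.comp (cm.pair (cq.pair hPc))))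
      (primrec_mul.to_comp.comp (primrec_ofNat.to_comp.comp cm)
        (hA.comp (Computable.pair ?_ (cq.pair hPc))))
    exact Primrec.nat_sub.to_comp.comp cm (Computable.const 1)
  · intro m q N
    simp only [Qt.val_add, Qt.val_mul, Qt.val_ofNat, xmulT]
    push_cast
    refine err_add ?_ ?_
    · refine err_mul (P := q.natB + m) ?_ ?_ ?_ (hA' m q _)
      · have := q.abs_val_le
        push_cast
        have hm : (0 : ℝ) ≤ m := Nat.cast_nonneg m
        linarith
      · have := q.natB_pos; omega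
      · exact Nat.le_succ _
    · refine err_mul (P := q.natB + m) ?_ ?_ ?_ (hA' (m - 1) q _)
      · rw [abs_of_nonneg (Nat.cast_nonneg m)]
        push_cast
        have := q.natB_pos
        have h0 : (0 : ℝ) ≤ (q.natB : ℝ) := Nat.cast_nonneg _
        linarith
      · have := q.natB_pos; omega
      · exact Nat.le_succ _

/-! ### Closure of `BoundT` -/

theorem BoundT.add (hf : BoundT f) (hg : BoundT g) : BoundT (addT f g) := by
  obtain ⟨A, hA, hA'⟩ := hf
  obtain ⟨C, hC, hC'⟩ := hg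
  refine ⟨fun m => A m + C m, Primrec.nat_add.to_comp.comp hA hC, ?_⟩
  intro m y
  push_cast
  exact (abs_add_le _ _).trans (add_le_add (hA' m y) (hC' m y))

theorem BoundT.sub (hf : BoundT f) (hg : BoundT g) : BoundT (subT f g) := by
  obtain ⟨A, hA, hA'⟩ := hf
  obtain ⟨C, hC, hC'⟩ := hg
  refine ⟨fun m => A m + C m, Primrec.nat_add.to_comp.comp hA hC, ?_⟩
  intro m y
  push_cast
  exact (abs_sub _ _).trans (add_le_add (hA' m y) (hC' m y))

theorem BoundT.smul (r : ℚ) (hf : BoundT f) : BoundT (smulT r f) := by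
  obtain ⟨A, hA, hA'⟩ := hf
  refine ⟨fun m => natB r * A m, Primrec.nat_mul.to_comp.comp (Computable.const _) hA, ?_⟩
  intro m y
  push_cast
  rw [smulT, abs_mul]
  exact mul_le_mul (by simpa using abs_le_natB r) (hA' m y) (abs_nonneg _) (Nat.cast_nonneg _)

theorem BoundT.shift (hf : BoundT f) : BoundT (shiftT f) := by
  obtain ⟨A, hA, hA'⟩ := hf
  exact ⟨fun m => A (m + 1), hA.comp Computable.succ, fun m y => hA' (m + 1) y⟩

theorem BoundT.zero : BoundT zeroT :=
  ⟨fun _ => 0, Computable.const _, fun m y => by simp [zeroT]⟩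

theorem BoundT.scale (a c : ℚ) (hf : BoundT f) : BoundT (scaleT f a c) := by
  obtain ⟨A, hA, hA'⟩ := hf
  refine ⟨fun m => natB c⁻¹ ^ m * A m, Primrec.nat_mul.to_comp.comp
    (primrec_natPow.to_comp.comp (Computable.const _) Computable.id) hA, ?_⟩
  intro m y
  push_cast
  rw [scaleT, abs_mul, abs_pow]
  refine mul_le_mul ?_ (hA' m _) (abs_nonneg _) (by positivity)
  apply pow_le_pow_left₀ (abs_nonneg _)
  have := abs_le_natB c⁻¹
  push_cast at this
  exact this

theorem BoundT.xmul (hf : BoundT f) (hs : SuppT f) : BoundT (xmulT f) := by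
  obtain ⟨A, hA, hA'⟩ := hf
  obtain ⟨D, hD⟩ := hs
  refine ⟨fun m => D * A m + m * A (m - 1), ?_, ?_⟩
  · exact Primrec.nat_add.to_comp.comp (Primrec.nat_mul.to_comp.comp (Computable.const _) hA)
      (Primrec.nat_mul.to_comp.comp Computable.id
        (hA.comp (Primrec.nat_sub.to_comp.comp Computable.id (Computable.const 1))))
  · intro m y
    push_cast
    rw [xmulT]
    refine (abs_add_le _ _).trans (add_le_add ?_ ?_)
    · rw [abs_mul]
      by_cases hy : (D : ℝ) ≤ |y|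
      · rw [hD m y hy]
        simp only [abs_zero, mul_zero]
        have h0 : (0 : ℝ) ≤ A m := Nat.cast_nonneg _
        positivity
      · exact mul_le_mul (not_le.1 hy).le (hA' m y) (abs_nonneg _) (Nat.cast_nonneg _)
    · rw [abs_mul, abs_of_nonneg (Nat.cast_nonneg m)]
      exact mul_le_mul_of_nonneg_left (hA' _ y) (Nat.cast_nonneg m)

/-! ### Closure of `SuppT` -/

theorem SuppT.add (hf : SuppT f) (hg : SuppT g) : SuppT (addT f g) := by
  obtain ⟨D, hD⟩ := hf
  obtain ⟨D', hD'⟩ := hg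
  refine ⟨D + D', fun m y hy => ?_⟩
  push_cast at hy
  have h0 : (0 : ℝ) ≤ D := Nat.cast_nonneg _
  have h0' : (0 : ℝ) ≤ D' := Nat.cast_nonneg _
  rw [addT, hD m y (by linarith), hD' m y (by linarith), add_zero]

theorem SuppT.sub (hf : SuppT f) (hg : SuppT g) : SuppT (subT f g) := by
  obtain ⟨D, hD⟩ := hf
  obtain ⟨D', hD'⟩ := hg
  refine ⟨D + D', fun m y hy => ?_⟩
  push_cast at hy
  have h0 : (0 : ℝ) ≤ D := Nat.cast_nonneg _
  have h0' : (0 : ℝ) ≤ D' := Nat.cast_nonneg _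
  rw [subT, hD m y (by linarith), hD' m y (by linarith), sub_zero]

theorem SuppT.smul (r : ℚ) (hf : SuppT f) : SuppT (smulT r f) := by
  obtain ⟨D, hD⟩ := hf
  exact ⟨D, fun m y hy => by rw [smulT, hD m y hy, mul_zero]⟩

theorem SuppT.shift (hf : SuppT f) : SuppT (shiftT f) := by
  obtain ⟨D, hD⟩ := hf
  exact ⟨D, fun m y hy => hD (m + 1) y hy⟩

theorem SuppT.xmul (hf : SuppT f) : SuppT (xmulT f) := by
  obtain ⟨D, hD⟩ := hf
  refine ⟨D, fun m y hy => ?_⟩
  rw [xmulT, hD m y hy, hD (m - 1) y hy]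
  simp

end Closure

end Crest.Agent.Lib.BF
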