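import Crest.Agent.Lib.BF.StZero

/-!
# Effective fields (helper2)
-/

open Crest.AnalysisR.BoxFlow
open scoped ContDiff

namespace Crest.Agent.Lib.BF

/-! ### Functions into `Fin n → σ` -/

theorem computable_of_fin {α σ : Type*} [Primcodable α] [Primcodable σ] {n : ℕ} {f : Fin n → α → σ}
    (hf : ∀ i, Computable (f i)) : Computable (fun a i => f i a) := by
  refine (Primrec.vector_get'.to_comp.comp (Computable.vector_ofFn hf)).of_eq ?_
  intro a
  funext i
  simp

theorem computable_app {α σ : Type*} [Primcodable α] [Primcodable σ] {n : ℕ} {f : α → Fin n → σ}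
    (hf : Computable f) (j : Fin n) : Computable (fun a => f a j) :=
  Computable.fin_app.comp hf (Computable.const j)

/-- Counting occurrences is computable. -/
theorem computable_count (i : Fin 4) : Computable (fun ds : List (Fin 4) => ds.count i) := by
  have h1 : PrimrecPred (fun x : Fin 4 => x = i) := Primrec.eq.comp Primrec.id (Primrec.const i)
  have h2 := Primrec.listFilter h1
  refine (Primrec.list_length.comp h2).to_comp.of_eq ?_
  intro ds
  rw [List.count_eq_length_filter]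
  congr 1

/-- Rational addition is computable. -/
theorem computable_ratAdd : Computable₂ (fun a b : ℚ => a + b) := by
  refine (computable_val.comp (primrec_add.to_comp.comp
    (computable_ofRat.comp Computable.fst) (computable_ofRat.comp Computable.snd))).of_eq ?_
  rintro ⟨a, b⟩
  simp [Qt.val_add]

/-! ### Mixed derivatives of smooth fields -/

theorem contDiff_mixedDeriv (ds : List (Fin 4)) {U : Field} (hU : ContDiff ℝ ∞ U) :
    ContDiff ℝ ∞ (mixedDeriv ds U) := by
  induction ds with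
  | nil => exact hU
  | cons d ds ih =>
    have h1 : ContDiff ℝ ∞ (fderiv ℝ (mixedDeriv ds U)) :=
      ih.fderiv_right (m := ∞) (by simp)
    exact h1.clm_apply contDiff_const

theorem mixedDeriv_add (ds : List (Fin 4)) {U V : Field} (hU : ContDiff ℝ ∞ U)
    (hV : ContDiff ℝ ∞ V) :
    mixedDeriv ds (fun p => U p + V p) = fun p => mixedDeriv ds U p + mixedDeriv ds V p := by
  induction ds with
  | nil => rfl
  | cons d ds ih =>
    funext p
    simp only [mixedDeriv]
    rw [ih]
    have hdU : DifferentiableAt ℝ (mixedDeriv ds U) p :=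
      ((contDiff_mixedDeriv ds hU).differentiable (by simp)).differentiableAt
    have hdV : DifferentiableAt ℝ (mixedDeriv ds V) p :=
      ((contDiff_mixedDeriv ds hV).differentiable (by simp)).differentiableAt
    rw [fderiv_fun_add hdU hdV]
    rfl

theorem mixedDeriv_zero (ds : List (Fin 4)) : mixedDeriv ds (fun _ => 0) = fun _ => 0 := by
  induction ds with
  | nil => rfl
  | cons d ds ih =>
    funext p
    simp only [mixedDeriv]
    rw [ih]
    simp

theorem effective_zero : Effective (fun _ => 0) := by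
  refine ⟨fun _ _ => 0, fun _ => 0, Computable.const _, Computable.const _, ?_, ?_⟩
  · intro ds t q n j
    rw [mixedDeriv_zero]
    simp only [Pi.zero_apply, Rat.cast_zero, sub_zero, abs_zero]
    positivity
  · intro ds p j
    rw [mixedDeriv_zero]
    simp

theorem effective_add {U V : Field} (hU : ContDiff ℝ ∞ U) (hV : ContDiff ℝ ∞ V)
    (eU : Effective U) (eV : Effective V) : Effective (fun p => U p + V p) := by
  obtain ⟨E, B, hE, hB, hE', hB'⟩ := eU
  obtain ⟨E₂, B₂, hE₂, hB₂, hE₂', hB₂'⟩ := eV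
  refine ⟨fun x j => E (x.1, x.2.1, 2 * x.2.2 + 1) j + E₂ (x.1, x.2.1, 2 * x.2.2 + 1) j,
    fun ds => B ds + B₂ ds, ?_, Primrec.nat_add.to_comp.comp hB hB₂, ?_, ?_⟩
  · have hx : Computable (fun x : List (Fin 4) × (ℚ × (Fin 3 → ℚ)) × ℕ =>
        (x.1, x.2.1, 2 * x.2.2 + 1)) :=
      Computable.fst.pair ((Computable.fst.comp Computable.snd).pair
        (Computable.succ.comp (Primrec.nat_mul.to_comp.comp (Computable.const 2)
          (Computable.snd.comp Computable.snd))))
    have h : ∀ j : Fin 3, Computable (fun x : List (Fin 4) × (ℚ × (Fin 3 → ℚ)) × ℕ =>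
        E (x.1, x.2.1, 2 * x.2.2 + 1) j + E₂ (x.1, x.2.1, 2 * x.2.2 + 1) j) := by
      intro j
      have h1 := computable_app (hE.comp hx) j
      have h2 := computable_app (hE₂.comp hx) j
      exact computable_ratAdd.comp h1 h2
    exact computable_of_fin h
  · intro ds t q n j
    rw [mixedDeriv_add ds hU hV]
    simp only [Pi.add_apply]
    push_cast
    exact err_add (hE' ds t q _ j) (hE₂' ds t q _ j)
  · intro ds p j
    rw [mixedDeriv_add ds hU hV]
    simp only [Pi.add_apply]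
    push_cast
    exact (abs_add_le _ _).trans (add_le_add (hB' ds p j) (hB₂' ds p j))

/-! ### Products -/

theorem err_prod4 {x0 x1 x2 x3 y0 y1 y2 y3 δ M : ℝ}
    (h0 : |x0 - y0| ≤ δ) (h1 : |x1 - y1| ≤ δ) (h2 : |x2 - y2| ≤ δ) (h3 : |x3 - y3| ≤ δ)
    (hδ : δ ≤ 1)
    (b0 : |x0| + 1 ≤ M) (b1 : |x1| + 1 ≤ M) (b2 : |x2| + 1 ≤ M) (b3 : |x3| + 1 ≤ M) :
    |x0 * x1 * x2 * x3 - y0 * y1 * y2 * y3| ≤ 4 * M ^ 3 * δ := by
  have hM : 0 ≤ M := by linarith [abs_nonneg x0]
  have hδ0 : 0 ≤ δ := (abs_nonneg _).trans h0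
  have by0 : |y0| ≤ M := by
    have : |y0| ≤ |x0| + |x0 - y0| := by
      have := abs_sub_abs_le_abs_sub y0 x0
      rw [abs_sub_comm y0 x0] at this
      linarith
    linarith
  have by1 : |y1| ≤ M := by
    have : |y1| ≤ |x1| + |x1 - y1| := by
      have := abs_sub_abs_le_abs_sub y1 x1
      rw [abs_sub_comm y1 x1] at this
      linarith
    linarith
  have by2 : |y2| ≤ M := by
    have : |y2| ≤ |x2| + |x2 - y2| := by
      have := abs_sub_abs_le_abs_sub y2 x2
      rw [abs_sub_comm y2 x2] at this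
      linarith
    linarith
  have bx1 : |x1| ≤ M := by linarith
  have bx2 : |x2| ≤ M := by linarith
  have bx3 : |x3| ≤ M := by linarith
  have e : x0 * x1 * x2 * x3 - y0 * y1 * y2 * y3 =
      (x0 - y0) * x1 * x2 * x3 + y0 * (x1 - y1) * x2 * x3 + y0 * y1 * (x2 - y2) * x3 +
        y0 * y1 * y2 * (x3 - y3) := by ring
  rw [e]
  have t1 : |(x0 - y0) * x1 * x2 * x3| ≤ δ * M * M * M := by
    simp only [abs_mul]
    gcongr
  have t2 : |y0 * (x1 - y1) * x2 * x3| ≤ M * δ * M * M := by
    simp only [abs_mul]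
    gcongr
  have t3 : |y0 * y1 * (x2 - y2) * x3| ≤ M * M * δ * M := by
    simp only [abs_mul]
    gcongr
  have t4 : |y0 * y1 * y2 * (x3 - y3)| ≤ M * M * M * δ := by
    simp only [abs_mul]
    gcongr
  have t5 := abs_add_le ((x0 - y0) * x1 * x2 * x3 + y0 * (x1 - y1) * x2 * x3 + y0 * y1 * (x2 - y2) * x3)
    (y0 * y1 * y2 * (x3 - y3))
  have t6 := abs_add_le ((x0 - y0) * x1 * x2 * x3 + y0 * (x1 - y1) * x2 * x3) (y0 * y1 * (x2 - y2) * x3)
  have t7 := abs_add_le ((x0 - y0) * x1 * x2 * x3) (y0 * (x1 - y1) * x2 * x3)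
  nlinarith

/-- The input of an effective approximation. -/
abbrev EffIn : Type := List (Fin 4) × (ℚ × (Fin 3 → ℚ)) × ℕ

/-- The precision used in the four factors. -/
def prodPrec (M n : ℕ) : ℕ := 4 * M ^ 3 * (n + 1)

theorem primrec_prodPrec : Primrec₂ prodPrec :=
  Primrec.nat_mul.comp (Primrec.nat_mul.comp (Primrec.const 4)
    (primrec_natPow.comp Primrec.fst (Primrec.const 3))) (Primrec.succ.comp Primrec.snd)

/-- Approximation of the product of four factors. -/
noncomputable def prodApprox (A : Fin 4 → ℕ × Qt × ℕ → Qt) (B : Fin 4 → ℕ → ℕ) (x : EffIn) : Qt :=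
  Qt.mul (Qt.mul (Qt.mul
    (A 0 (x.1.count 0, ofRat x.2.1.1, prodPrec (B 0 (x.1.count 0) + B 1 (x.1.count 1) + B 2 (x.1.count 2) + B 3 (x.1.count 3) + 1) x.2.2))
    (A 1 (x.1.count 1, ofRat (x.2.1.2 0), prodPrec (B 0 (x.1.count 0) + B 1 (x.1.count 1) + B 2 (x.1.count 2) + B 3 (x.1.count 3) + 1) x.2.2)))
    (A 2 (x.1.count 2, ofRat (x.2.1.2 1), prodPrec (B 0 (x.1.count 0) + B 1 (x.1.count 1) + B 2 (x.1.count 2) + B 3 (x.1.count 3) + 1) x.2.2)))
    (A 3 (x.1.count 3, ofRat (x.2.1.2 2), prodPrec (B 0 (x.1.count 0) + B 1 (x.1.count 1) + B 2 (x.1.count 2) + B 3 (x.1.count 3) + 1) x.2.2))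

theorem computable_prodApprox {A : Fin 4 → ℕ × Qt × ℕ → Qt} {B : Fin 4 → ℕ → ℕ}
    (hA : ∀ i, Computable (A i)) (hB : ∀ i, Computable (B i)) :
    Computable (prodApprox A B) := by
  have hds : Computable (fun x : EffIn => x.1) := Computable.fst
  have hn : Computable (fun x : EffIn => x.2.2) := Computable.snd.comp Computable.snd
  have ht : Computable (fun x : EffIn => x.2.1.1) :=
    Computable.fst.comp (Computable.fst.comp Computable.snd)
  have hq : Computable (fun x : EffIn => x.2.1.2) :=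
    Computable.snd.comp (Computable.fst.comp Computable.snd)
  have hc : ∀ i : Fin 4, Computable (fun x : EffIn => x.1.count i) :=
    fun i => (computable_count i).comp hds
  have hbi : ∀ i : Fin 4, Computable (fun x : EffIn => B i (x.1.count i)) :=
    fun i => (hB i).comp (hc i)
  have hM : Computable (fun x : EffIn =>
      B 0 (x.1.count 0) + B 1 (x.1.count 1) + B 2 (x.1.count 2) + B 3 (x.1.count 3) + 1) := by
    refine Computable.succ.comp ?_
    refine Primrec.nat_add.to_comp.comp (Primrec.nat_add.to_comp.comp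
      (Primrec.nat_add.to_comp.comp (hbi 0) (hbi 1)) (hbi 2)) (hbi 3)
  have hP : Computable (fun x : EffIn =>
      prodPrec (B 0 (x.1.count 0) + B 1 (x.1.count 1) + B 2 (x.1.count 2) + B 3 (x.1.count 3) + 1)
        x.2.2) :=
    primrec_prodPrec.to_comp.comp hM hn
  have h0 := (hA 0).comp ((hc 0).pair ((computable_ofRat.comp ht).pair hP))
  have h1 := (hA 1).comp ((hc 1).pair ((computable_ofRat.comp (computable_app hq 0)).pair hP))
  have h2 := (hA 2).comp ((hc 2).pair ((computable_ofRat.comp (computable_app hq 1)).pair hP))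
  have h3 := (hA 3).comp ((hc 3).pair ((computable_ofRat.comp (computable_app hq 2)).pair hP))
  exact primrec_mul.to_comp.comp (primrec_mul.to_comp.comp (primrec_mul.to_comp.comp h0 h1) h2) h3

/-- Fields whose mixed derivatives are products of effective towers are effective. -/
theorem effective_of_formula (U : Field) (F : Fin 3 → Fin 4 → ℕ → ℝ → ℝ)
    (hA : ∀ c i, ApproxT (F c i)) (hB : ∀ c i, BoundT (F c i))
    (hU : ∀ ds p c, mixedDeriv ds U p c =
      F c 0 (ds.count 0) p.1 * F c 1 (ds.count 1) (p.2 0) * F c 2 (ds.count 2) (p.2 1) *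
        F c 3 (ds.count 3) (p.2 2)) :
    Effective U := by
  choose A hAc hA' using hA
  choose B hBc hB' using hB
  -- bound of a single component
  let Bc : Fin 3 → List (Fin 4) → ℕ := fun c ds =>
    B c 0 (ds.count 0) * B c 1 (ds.count 1) * B c 2 (ds.count 2) * B c 3 (ds.count 3)
  have hBcc : ∀ c, Computable (Bc c) := by
    intro c
    have hb : ∀ i : Fin 4, Computable (fun ds : List (Fin 4) => B c i (ds.count i)) :=
      fun i => (hBc c i).comp (computable_count i)
    exact Primrec.nat_mul.to_comp.comp (Primrec.nat_mul.to_comp.comp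
      (Primrec.nat_mul.to_comp.comp (hb 0) (hb 1)) (hb 2)) (hb 3)
  refine ⟨fun x c => (prodApprox (A c) (B c) x).val, fun ds => Bc 0 ds + Bc 1 ds + Bc 2 ds, ?_, ?_, ?_, ?_⟩
  · have h : ∀ c : Fin 3, Computable (fun x : EffIn => (prodApprox (A c) (B c) x).val) :=
      fun c => computable_val.comp (computable_prodApprox (hAc c) (hBc c))
    exact computable_of_fin h
  · exact Primrec.nat_add.to_comp.comp (Primrec.nat_add.to_comp.comp (hBcc 0) (hBcc 1)) (hBcc 2)
  · intro ds t q n c
    rw [hU]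
    set M : ℕ := B c 0 (ds.count 0) + B c 1 (ds.count 1) + B c 2 (ds.count 2) + B c 3 (ds.count 3) + 1
      with hM
    set N' := prodPrec M n with hN'
    have hq0 : ∀ i : Fin 3, ((q i : ℚ) : ℝ) = (((ofRat (q i)).val : ℚ) : ℝ) := by simp
    have e0 := hA' c 0 (ds.count 0) (ofRat t) N'
    have e1 := hA' c 1 (ds.count 1) (ofRat (q 0)) N'
    have e2 := hA' c 2 (ds.count 2) (ofRat (q 1)) N'
    have e3 := hA' c 3 (ds.count 3) (ofRat (q 2)) N'
    simp only [Qt.val_ofRat] at e0 e1 e2 e3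
    have hMr : (M : ℝ) = (B c 0 (ds.count 0) : ℝ) + (B c 1 (ds.count 1) : ℝ) + (B c 2 (ds.count 2) : ℝ)
        + (B c 3 (ds.count 3) : ℝ) + 1 := by
      rw [hM]; push_cast; ring
    have hb0 : (0 : ℝ) ≤ (B c 0 (ds.count 0) : ℝ) := Nat.cast_nonneg _
    have hb1 : (0 : ℝ) ≤ (B c 1 (ds.count 1) : ℝ) := Nat.cast_nonneg _
    have hb2 : (0 : ℝ) ≤ (B c 2 (ds.count 2) : ℝ) := Nat.cast_nonneg _
    have hb3 : (0 : ℝ) ≤ (B c 3 (ds.count 3) : ℝ) := Nat.cast_nonneg _
    have hδ : (1 : ℝ) / ((N' : ℝ) + 1) ≤ 1 := by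
      rw [div_le_one (by positivity)]
      have : (0 : ℝ) ≤ N' := Nat.cast_nonneg _
      linarith
    have key := err_prod4 (M := (M : ℝ)) e0 e1 e2 e3 hδ
      (by have := hB' c 0 (ds.count 0) (t : ℝ); linarith)
      (by have := hB' c 1 (ds.count 1) (q 0 : ℝ); linarith)
      (by have := hB' c 2 (ds.count 2) (q 1 : ℝ); linarith)
      (by have := hB' c 3 (ds.count 3) (q 2 : ℝ); linarith)
    have hM1 : (1 : ℝ) ≤ (M : ℝ) := by rw [hMr]; linarith
    have hfinal : 4 * (M : ℝ) ^ 3 * (1 / ((N' : ℝ) + 1)) ≤ 1 / ((n : ℝ) + 1) := by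
      have hNr : (N' : ℝ) = 4 * (M : ℝ) ^ 3 * ((n : ℝ) + 1) := by
        rw [hN', prodPrec]; push_cast; ring
      rw [mul_one_div, div_le_div_iff₀ (by positivity) (by positivity), hNr]
      nlinarith
    refine le_trans ?_ hfinal
    have ev : (((prodApprox (A c) (B c) (ds, (t, q), n)).val : ℚ) : ℝ) =
        (((A c 0 (ds.count 0, ofRat t, N')).val : ℚ) : ℝ) *
        (((A c 1 (ds.count 1, ofRat (q 0), N')).val : ℚ) : ℝ) *
        (((A c 2 (ds.count 2, ofRat (q 1), N')).val : ℚ) : ℝ) *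
        (((A c 3 (ds.count 3, ofRat (q 2), N')).val : ℚ) : ℝ) := by
      simp only [prodApprox, Qt.val_mul]
      push_cast
      rfl
    rw [ev]
    exact key
  · intro ds p c
    rw [hU]
    have hprod : ∀ c' : Fin 3, |F c' 0 (ds.count 0) p.1 * F c' 1 (ds.count 1) (p.2 0) *
        F c' 2 (ds.count 2) (p.2 1) * F c' 3 (ds.count 3) (p.2 2)| ≤ (Bc c' ds : ℝ) := by
      intro c'
      simp only [Bc, abs_mul]
      push_cast
      have h0 := hB' c' 0 (ds.count 0) p.1
      have h1 := hB' c' 1 (ds.count 1) (p.2 0)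
      have h2 := hB' c' 2 (ds.count 2) (p.2 1)
      have h3 := hB' c' 3 (ds.count 3) (p.2 2)
      gcongr
    refine (hprod c).trans ?_
    push_cast
    have n0 : (0 : ℝ) ≤ (Bc 0 ds : ℝ) := Nat.cast_nonneg _
    have n1 : (0 : ℝ) ≤ (Bc 1 ds : ℝ) := Nat.cast_nonneg _
    have n2 : (0 : ℝ) ≤ (Bc 2 ds : ℝ) := Nat.cast_nonneg _
    fin_cases c <;> simp <;> linarith

end Crest.Agent.Lib.BF
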