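import Crest.Agent.Lib.BF.Towers
import Crest.Agent.Lib.SmoothFlow

/-!
# S0170, Task C: the flow of the field of a list of moves (helper17)

The facts about a single move are taken from a record `MoveFacts` (filled in by `Towers.lean`),
so that this file only uses ODE theory.
-/

open Crest.AnalysisR.BoxFlow Set
open scoped NNReal ContDiff

set_option autoImplicit false

namespace Crest.Agent.Lib.BF.FlowC

/-- Three-space. -/
abbrev E3 := Fin 3 → ℝ

/-- The facts about a single move used by this file. -/
structure MoveFacts : Prop where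
  smooth : ∀ (mv : Move) (a b : ℚ), a < b → ContDiff ℝ ∞ (mv.field a b)
  compact : ∀ (mv : Move) (a b : ℚ), a < b → HasCompactSupport (mv.field a b)
  zero : ∀ (mv : Move) (a b : ℚ), a < b → ∀ p : ℝ × E3,
    (p.1 ≤ (a : ℝ) ∨ (b : ℝ) ≤ p.1) → mv.field a b p = 0
  div : ∀ (mv : Move) (a b : ℚ), a < b → ∀ p : ℝ × E3, spaceDiv (mv.field a b) p = 0
  inner : ∀ (mv : Move) (a b : ℚ), a < b → ∀ (t : ℝ) (y : E3), mv.Inner y →
    mv.field a b (t, y) = timeT a b 0 t • mv.V y
  outer : ∀ (mv : Move) (a b : ℚ), a < b → ∀ (t : ℝ) (y : E3), mv.Outer y →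
    mv.field a b (t, y) = 0
  prim : ∀ (a b : ℚ), a < b → ∀ t : ℝ,
    HasDerivAt (fun t : ℝ => St 0 ((t - a) / (b - a))) (timeT a b 0 t) t
  St_zero : St 0 0 = 0
  St_one : St 0 1 = 1
  St_mem : ∀ x, 0 ≤ St 0 x ∧ St 0 x ≤ 1

/-! ### Global flows of time-dependent fields -/

/-- A bounded Lipschitz time-dependent field has a flow. -/
theorem exists_flow {U : Field} {K M : ℝ≥0} (hK : LipschitzWith K U) (hM : ∀ p, ‖U p‖ ≤ M) :
    ∃ Φ, IsFlow U Φ := by
  let X : ℝ × E3 → ℝ × E3 := fun p => (1, U p)
  have hXK : LipschitzWith K X := by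
    refine LipschitzWith.of_dist_le_mul fun p q => ?_
    have h := hK.dist_le_mul p q
    have h0 : 0 ≤ (K : ℝ) * dist p q := by positivity
    show max (dist (1 : ℝ) 1) (dist (U p) (U q)) ≤ (K : ℝ) * dist p q
    rw [dist_self]
    exact max_le h0 h
  have hXM : ∀ p, ‖X p‖ ≤ ((max 1 M : ℝ≥0) : ℝ) := by
    intro p
    simp only [X, Prod.norm_def, norm_one, NNReal.coe_max, NNReal.coe_one]
    exact max_le_max le_rfl (hM p)
  have hfl := fun (t : ℝ) (x : ℝ × E3) => SmoothFlow.hasDerivAt_flow hXK hXM t x
  have hfst : ∀ (t : ℝ) (x : E3), (SmoothFlow.flow X t (0, x)).1 = t := by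
    intro t x
    have h1 : ∀ u : ℝ, HasDerivAt (fun u => (SmoothFlow.flow X u (0, x)).1 - u) 0 u := by
      intro u
      have h0 : HasDerivAt (fun u => (SmoothFlow.flow X u (0, x)).1) 1 u :=
        (ContinuousLinearMap.fst ℝ ℝ E3).hasFDerivAt.comp_hasDerivAt u (hfl u (0, x))
      have h2 := h0.fun_sub (hasDerivAt_id' u)
      simpa using h2
    have h3 := is_const_of_deriv_eq_zero (f := fun u => (SmoothFlow.flow X u (0, x)).1 - u)
      (fun u => (h1 u).differentiableAt) (fun u => (h1 u).deriv) t 0
    simp only [SmoothFlow.flow_zero hXK hXM, sub_zero] at h3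
    linarith
  refine ⟨fun t x => (SmoothFlow.flow X t (0, x)).2, ?_, ?_⟩
  · intro x
    simp [SmoothFlow.flow_zero hXK hXM]
  · intro t x
    have h2 := (ContinuousLinearMap.snd ℝ ℝ E3).hasFDerivAt.comp_hasDerivAt t (hfl t (0, x))
    have e : (SmoothFlow.flow X t (0, x)) = (t, (SmoothFlow.flow X t (0, x)).2) := by
      apply Prod.ext
      · exact hfst t x
      · rfl
    have h3 : HasDerivAt (fun s => (SmoothFlow.flow X s (0, x)).2)
        (X (SmoothFlow.flow X t (0, x))).2 t := h2
    rw [e] at h3
    simpa [X] using h3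

/-- Uniqueness on a window. -/
theorem ode_window {U : Field} {K : ℝ≥0} (hK : LipschitzWith K U) {a b : ℝ} (hab : a ≤ b)
    {γ c : ℝ → E3} (hγ : ∀ t ∈ Icc a b, HasDerivAt γ (U (t, γ t)) t)
    (hc : ∀ t ∈ Icc a b, HasDerivAt c (U (t, c t)) t) (h0 : c a = γ a) : c b = γ b := by
  have hL : ∀ t : ℝ, LipschitzWith K (fun x : E3 => U (t, x)) := by
    intro t
    refine LipschitzWith.of_dist_le_mul fun x y => ?_
    have := hK.dist_le_mul (t, x) (t, y)
    simpa [Prod.dist_eq] using this
  have := ODE_solution_unique_of_mem_Icc_right (K := K) (v := fun t x => U (t, x))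
    (s := fun _ => univ) (f := c) (g := γ) (a := a) (b := b)
    (fun t _ => (hL t).lipschitzOnWith)
    (fun t ht => (hc t ht).continuousAt.continuousWithinAt)
    (fun t ht => (hc t ⟨ht.1, ht.2.le⟩).hasDerivWithinAt)
    (fun _ _ => mem_univ _)
    (fun t ht => (hγ t ht).continuousAt.continuousWithinAt)
    (fun t ht => (hγ t ⟨ht.1, ht.2.le⟩).hasDerivWithinAt)
    (fun _ _ => mem_univ _) h0
  exact this ⟨hab, le_rfl⟩

/-! ### Windows -/

theorem win_lt {N : ℕ} (hN : 0 < N) (k : ℕ) : win N k < win N (k + 1) := by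
  have hN' : (0 : ℚ) < N := by exact_mod_cast hN
  unfold win
  push_cast
  rw [add_lt_add_iff_left]
  apply div_lt_div_of_pos_right (by linarith) (by positivity)

theorem win_mono {N : ℕ} {k l : ℕ} (hkl : k ≤ l) : win N k ≤ win N l := by
  unfold win
  have hk : (k : ℚ) ≤ l := by exact_mod_cast hkl
  have : (k : ℚ) / (2 * (N : ℚ)) ≤ (l : ℚ) / (2 * (N : ℚ)) :=
    div_le_div_of_nonneg_right hk (by positivity)
  linarith

theorem win_zero (N : ℕ) : win N 0 = 1 / 4 := by simp [win]

theorem win_self_le (N : ℕ) : win N N ≤ 3 / 4 := by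
  unfold win
  rcases Nat.eq_zero_or_pos N with h | h
  · subst h
    norm_num
  · have hN' : (0 : ℚ) < N := by exact_mod_cast h
    have : (N : ℚ) / (2 * (N : ℚ)) = 1 / 2 := by field_simp
    rw [this]
    norm_num

variable (T : MoveFacts)

include T

theorem aux_contDiff (N : ℕ) (L : List Move) (k : ℕ) (hN : L ≠ [] → 0 < N) :
    ContDiff ℝ ∞ (listFieldAux N k L) := by
  induction L generalizing k with
  | nil => exact contDiff_const
  | cons mv L ih =>
    have hN0 := hN (List.cons_ne_nil _ _)
    exact (T.smooth mv _ _ (win_lt hN0 k)).add (ih (k + 1) fun _ => hN0)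

theorem aux_compact (N : ℕ) (L : List Move) (k : ℕ) (hN : L ≠ [] → 0 < N) :
    HasCompactSupport (listFieldAux N k L) := by
  induction L generalizing k with
  | nil => exact HasCompactSupport.zero
  | cons mv L ih =>
    have hN0 := hN (List.cons_ne_nil _ _)
    exact (T.compact mv _ _ (win_lt hN0 k)).add (ih (k + 1) fun _ => hN0)

theorem aux_zero (N : ℕ) (L : List Move) (k : ℕ) (hN : L ≠ [] → 0 < N) (p : ℝ × E3)
    (hp : p.1 ≤ (win N k : ℝ) ∨ (win N (k + L.length) : ℝ) ≤ p.1) :
    listFieldAux N k L p = 0 := by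
  induction L generalizing k with
  | nil => rfl
  | cons mv L ih =>
    have hN0 := hN (List.cons_ne_nil _ _)
    have hlt : (win N k : ℝ) < win N (k + 1) := by exact_mod_cast win_lt hN0 k
    have hm : (win N (k + 1) : ℝ) ≤ win N (k + (L.length + 1)) := by
      exact_mod_cast win_mono (by omega)
    have e : k + (mv :: L).length = k + 1 + L.length := by simp; omega
    rw [e] at hp
    show mv.field _ _ p + listFieldAux N (k + 1) L p = 0
    rw [T.zero mv _ _ (win_lt hN0 k) p ?_, ih (k + 1) (fun _ => hN0) ?_, add_zero]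
    · rcases hp with h | h
      · left; linarith
      · right; exact h
    · rcases hp with h | h
      · left; exact h
      · right
        have h2 : (win N (k + 1) : ℝ) ≤ win N (k + 1 + L.length) := by
          exact_mod_cast win_mono (by omega)
        linarith

theorem aux_div (N : ℕ) (L : List Move) (k : ℕ) (hN : L ≠ [] → 0 < N) (p : ℝ × E3) :
    spaceDiv (listFieldAux N k L) p = 0 := by
  induction L generalizing k with
  | nil => simp [spaceDiv, listFieldAux]
  | cons mv L ih =>
    have hN0 := hN (List.cons_ne_nil _ _)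
    have h1 : DifferentiableAt ℝ (mv.field (win N k) (win N (k + 1))) p :=
      ((T.smooth mv _ _ (win_lt hN0 k)).differentiable (by simp)) p
    have h2 : DifferentiableAt ℝ (listFieldAux N (k + 1) L) p :=
      ((aux_contDiff T N L (k + 1) fun _ => hN0).differentiable (by simp)) p
    have e : fderiv ℝ (listFieldAux N k (mv :: L)) p =
        fderiv ℝ (mv.field (win N k) (win N (k + 1))) p + fderiv ℝ (listFieldAux N (k + 1) L) p :=
      fderiv_fun_add h1 h2
    have h3 := T.div mv _ _ (win_lt hN0 k) p
    have h4 := ih (k + 1) (fun _ => hN0)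
    unfold spaceDiv at h3 h4 ⊢
    rw [e]
    simp only [add_apply, Pi.add_apply, Finset.sum_add_distrib, h3, h4,
      add_zero]

/-! ### A single window -/

/-- The action of one move in its time window. -/
theorem step_window {U : Field} {K : ℝ≥0} (hK : LipschitzWith K U) {mv : Move} {a b : ℚ}
    (hab : a < b) (hU : ∀ t ∈ Icc (a : ℝ) b, ∀ x, U (t, x) = mv.field a b (t, x))
    {γ : ℝ → E3} (hγ : ∀ t, HasDerivAt γ (U (t, γ t)) t) {y y' : E3} (hy : γ a = y)
    (hs : mv.Step y y') : γ b = y' := by
  have hab' : (a : ℝ) < b := by exact_mod_cast hab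
  have hba : (0 : ℝ) < (b : ℝ) - a := by linarith
  rcases hs with ⟨hp, rfl⟩ | ⟨ho, h⟩
  · -- the point is pushed
    let c : ℝ → E3 := fun t => y + St 0 ((t - a) / (b - a)) • mv.V y
    have hV : ∀ t : ℝ, mv.V (c t) = mv.V y := by
      intro t
      have : c t mv.l = y mv.l := by
        have h1 : mv.V y mv.l = 0 := by
          simp [Move.V, Function.update_of_ne mv.hjl.symm]
        simp [c, h1]
      simp [Move.V, this]
    have hc : ∀ t ∈ Icc (a : ℝ) b, HasDerivAt c (U (t, c t)) t := by
      intro t ht
      rw [hU t ht]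
      have hin : mv.Inner (c t) := hp _ (T.St_mem _).1 (T.St_mem _).2
      rw [T.inner mv a b hab t _ hin, hV]
      exact ((T.prim a b hab t).smul_const (mv.V y)).const_add y
    have hca : c a = y := by
      simp [c, T.St_zero]
    have hcb : c b = y + mv.V y := by
      simp [c, div_self hba.ne', T.St_one]
    rw [← hcb]
    exact (ode_window hK hab'.le (fun t _ => hγ t) hc (by rw [hca, hy])).symm
  · -- the point is outside
    rw [h]
    have hc : ∀ t ∈ Icc (a : ℝ) b, HasDerivAt (fun _ : ℝ => y) (U (t, y)) t := by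
      intro t ht
      rw [hU t ht, T.outer mv a b hab t y ho]
      exact hasDerivAt_const t y
    exact (ode_window hK hab'.le (fun t _ => hγ t) hc hy.symm).symm

/-- The action of a list of moves. -/
theorem trace_window {U : Field} {K : ℝ≥0} (hK : LipschitzWith K U) (N : ℕ) (L : List Move)
    (hN : L ≠ [] → 0 < N) (k : ℕ)
    (hU : ∀ t ∈ Icc (win N k : ℝ) (win N (k + L.length)), ∀ x,
      U (t, x) = listFieldAux N k L (t, x))
    {γ : ℝ → E3} (hγ : ∀ t, HasDerivAt γ (U (t, γ t)) t) {y y' : E3}
    (hy : γ (win N k) = y) (hs : Trace L y y') : γ (win N (k + L.length)) = y' := by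
  induction L generalizing k y with
  | nil =>
    cases hs
    simpa using hy
  | cons mv L ih =>
    cases hs with
    | cons h1 h2 =>
      rename_i y1
      have hN0 := hN (List.cons_ne_nil _ _)
      have hm1 : (win N (k + 1) : ℝ) ≤ win N (k + (L.length + 1)) := by
        exact_mod_cast win_mono (by omega)
      have hm0 : (win N k : ℝ) ≤ win N (k + 1) := by exact_mod_cast win_mono (by omega)
      have e : k + (mv :: L).length = k + 1 + L.length := by simp; omega
      have hstep : γ (win N (k + 1)) = y1 := by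
        refine step_window T hK (win_lt hN0 k) ?_ hγ hy h1
        intro t ht x
        rw [hU t ⟨ht.1, ht.2.trans hm1⟩ x]
        show mv.field _ _ _ + listFieldAux N (k + 1) L (t, x) = _
        rw [aux_zero T N L (k + 1) (fun _ => hN0) (t, x) (Or.inl ht.2), add_zero]
      rw [e]
      refine ih (fun _ => hN0) (k + 1) ?_ hstep h2
      intro t ht x
      rw [e] at hU
      rw [hU t ⟨hm0.trans ht.1, ht.2⟩ x]
      show mv.field _ _ _ + _ = _
      rw [T.zero mv _ _ (win_lt hN0 k) (t, x) (Or.inr ht.1), zero_add]

/-! ### Main statements -/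

theorem listField_contDiff (L : List Move) : ContDiff ℝ ∞ (listField L) :=
  aux_contDiff T _ L 0 fun h => List.length_pos_iff.mpr h

theorem listField_compact (L : List Move) : HasCompactSupport (listField L) :=
  aux_compact T _ L 0 fun h => List.length_pos_iff.mpr h

theorem listField_div (L : List Move) (p : ℝ × E3) : spaceDiv (listField L) p = 0 :=
  aux_div T _ L 0 (fun h => List.length_pos_iff.mpr h) p

theorem listField_zero_aux (L : List Move) (p : ℝ × E3)
    (hp : p.1 ≤ 1 / 4 ∨ 3 / 4 ≤ p.1 ∧ (win L.length L.length : ℝ) ≤ p.1) : listField L p = 0 := by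
  refine aux_zero T _ L 0 (fun h => List.length_pos_iff.mpr h) p ?_
  rcases hp with h | h
  · left
    rw [win_zero]
    push_cast
    exact h
  · right
    simpa using h.2

theorem listField_zero (L : List Move) (p : ℝ × E3) (hp : p.1 ∉ Icc (1 / 4 : ℝ) (3 / 4)) :
    listField L p = 0 := by
  have h34 : (win L.length L.length : ℝ) ≤ 3 / 4 := by
    have := win_self_le L.length
    have h2 : ((win L.length L.length : ℚ) : ℝ) ≤ ((3 / 4 : ℚ) : ℝ) := by exact_mod_cast this
    simpa using h2
  refine listField_zero_aux T L p ?_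
  by_contra hcon
  push Not at hcon
  apply hp
  constructor
  · exact hcon.1.le
  · by_contra h3
    push Not at h3
    have := hcon.2 h3.le
    linarith

theorem flow_of_list (L : List Move) :
    ∃ Φ, IsFlow (listField L) Φ ∧ ∀ y y', Trace L y y' → Φ 1 y = y' := by
  have hsm := listField_contDiff T L
  have hcs := listField_compact T L
  obtain ⟨K, hK⟩ := SmoothFlow.exists_lip hsm hcs
  obtain ⟨M, hM⟩ := SmoothFlow.exists_bdd hsm hcs
  obtain ⟨Φ, hΦ⟩ := exists_flow hK hM
  refine ⟨Φ, hΦ, fun y y' hs => ?_⟩
  set N := L.length with hN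
  have hγ : ∀ t, HasDerivAt (fun s => Φ s y) (listField L (t, Φ t y)) t := fun t => hΦ.2 t y
  have h34 : (win N N : ℝ) ≤ 3 / 4 := by
    have := win_self_le N
    have h2 : ((win N N : ℚ) : ℝ) ≤ ((3 / 4 : ℚ) : ℝ) := by exact_mod_cast this
    simpa using h2
  -- time before the first window
  have h14 : Φ (win N 0) y = y := by
    rw [win_zero]
    have hc : ∀ t ∈ Icc (0 : ℝ) (1 / 4), HasDerivAt (fun _ : ℝ => y) (listField L (t, y)) t := by
      intro t ht
      rw [listField_zero_aux T L (t, y) (Or.inl ht.2)]
      exact hasDerivAt_const t y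
    have := ode_window hK (by norm_num : (0 : ℝ) ≤ 1 / 4) (fun t _ => hγ t) hc (hΦ.1 y).symm
    push_cast
    exact this.symm
  -- the windows
  have hmid : Φ (win N N) y = y' := by
    have := trace_window T hK N L (fun h => List.length_pos_iff.mpr h) 0 (fun _ _ _ => rfl)
      hγ h14 hs
    simpa [hN] using this
  -- time after the last window
  have hc : ∀ t ∈ Icc (win N N : ℝ) 1, HasDerivAt (fun _ : ℝ => y') (listField L (t, y')) t := by
    intro t ht
    have : listField L (t, y') = 0 := aux_zero T _ L 0 (fun h => List.length_pos_iff.mpr h) _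
      (Or.inr (by simpa using ht.1))
    rw [this]
    exact hasDerivAt_const t y'
  have := ode_window hK (by linarith : (win N N : ℝ) ≤ 1) (fun t _ => hγ t) hc hmid.symm
  exact this.symm

omit T in
/-- The facts from `Towers.lean`. -/
theorem moveFacts : MoveFacts where
  smooth := fun mv a b _ => mv.contDiff_field a b
  compact := fun mv a b hab => mv.hasCompactSupport_field hab
  zero := fun mv a b hab p hp => mv.field_eq_zero_of_time hab hp _
  div := fun mv a b _ p => mv.spaceDiv_field a b p
  inner := fun mv a b _ t y hy => mv.field_eq_of_inner a b t hy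
  outer := fun mv a b _ t y hy => mv.field_eq_zero_of_outer a b t hy
  prim := fun a b _ t => by
    have := timeT_primitive a b t
    push_cast at this
    exact this
  St_zero := St_zero_zero
  St_one := St_zero_one
  St_mem := fun x => by
    have e : St 0 x = Real.smoothTransition x := by simp [St]
    rw [e]
    exact ⟨Real.smoothTransition.nonneg x, Real.smoothTransition.le_one x⟩

end Crest.Agent.Lib.BF.FlowC

namespace Crest.Agent.Lib.BF

open Crest.AnalysisR.BoxFlow Set
open scoped ContDiff

/-- The field of a list of moves is smooth. -/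
theorem contDiff_listField (L : List Move) : ContDiff ℝ ∞ (listField L) :=
  FlowC.listField_contDiff FlowC.moveFacts L

/-- The field of a list of moves has compact support. -/
theorem hasCompactSupport_listField (L : List Move) : HasCompactSupport (listField L) :=
  FlowC.listField_compact FlowC.moveFacts L

/-- The field of a list of moves is divergence free. -/
theorem spaceDiv_listField (L : List Move) (p : ℝ × (Fin 3 → ℝ)) : spaceDiv (listField L) p = 0 :=
  FlowC.listField_div FlowC.moveFacts L p

/-- The field of a list of moves vanishes outside the time window. -/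
theorem listField_eq_zero (L : List Move) (p : ℝ × (Fin 3 → ℝ))
    (hp : p.1 ∉ Icc (1 / 4 : ℝ) (3 / 4)) : listField L p = 0 :=
  FlowC.listField_zero FlowC.moveFacts L p hp

/-- The flow of the field of a list of moves. -/
theorem flow_of_list (L : List Move) :
    ∃ Φ, IsFlow (listField L) Φ ∧ ∀ y y', Trace L y y' → Φ 1 y = y' :=
  FlowC.flow_of_list FlowC.moveFacts L

end Crest.Agent.Lib.BF
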