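import Mathlib
import Crest.Agent.Lib.BF.Core

/-!
# Explicit bounds for the derivatives of the smooth step (helper19)

* `T m = 1000^(m+1) * (m!)^3` bounds `|St m x|` for all `x`.
* Finite differences: `St m q` is approximated by `H^m * Δ_[1/H]^[m] (St 0) q`.
-/

open Filter Topology

namespace Crest.Agent.Lib.BF.StepB

/-- The auxiliary functions `x⁻ⁱ exp(-1/x)`. -/
noncomputable def A (i : ℕ) (x : ℝ) : ℝ := (x⁻¹) ^ i * Real.exp (-x⁻¹)

lemma A_hasDerivAt (i : ℕ) {x : ℝ} (hx : 0 < x) :
    HasDerivAt (A i) (-(i : ℝ) * A (i + 1) x + A (i + 2) x) x := by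
  have hx0 : x ≠ 0 := hx.ne'
  have h1 : HasDerivAt (fun y : ℝ => y⁻¹) (-(x ^ 2)⁻¹) x := hasDerivAt_inv hx0
  have h2 : HasDerivAt (fun y : ℝ => (y⁻¹) ^ i) ((i : ℝ) * (x⁻¹) ^ (i - 1) * (-(x ^ 2)⁻¹)) x :=
    h1.pow i
  have h3 : HasDerivAt (fun y : ℝ => Real.exp (-y⁻¹)) (Real.exp (-x⁻¹) * (-(-(x ^ 2)⁻¹))) x :=
    h1.neg.exp
  have h4 := h2.mul h3
  refine h4.congr_deriv ?_
  unfold A
  have hu : (x ^ 2)⁻¹ = (x⁻¹) ^ 2 := (inv_pow x 2).symm
  rw [hu]
  rcases Nat.eq_zero_or_pos i with rfl | hi
  · simp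
    ring
  · obtain ⟨j, rfl⟩ : ∃ j, i = j + 1 := ⟨i - 1, by omega⟩
    simp only [Nat.add_sub_cancel]
    push_cast
    ring

lemma A_contDiffAt (i : ℕ) {x : ℝ} (hx : 0 < x) (n : WithTop ℕ∞) : ContDiffAt ℝ n (A i) x := by
  have h1 : ContDiffAt ℝ n (fun y : ℝ => y⁻¹) x := contDiffAt_inv ℝ hx.ne'
  exact (h1.pow i).mul (h1.neg.exp)

lemma A_bound (i : ℕ) {x : ℝ} (hx : 0 < x) : |A i x| ≤ (i.factorial : ℝ) := by
  have hu : 0 < x⁻¹ := inv_pos.mpr hx
  have h := Real.pow_div_factorial_le_exp (x⁻¹) hu.le i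
  have hf : (0 : ℝ) < i.factorial := by exact_mod_cast i.factorial_pos
  unfold A
  rw [abs_of_nonneg (by positivity)]
  have he : Real.exp (-x⁻¹) = (Real.exp (x⁻¹))⁻¹ := Real.exp_neg _
  rw [he, ← div_eq_mul_inv, div_le_iff₀ (Real.exp_pos _)]
  rw [div_le_iff₀ hf] at h
  linarith [mul_comm (i.factorial : ℝ) (Real.exp x⁻¹)]

/-- The double-index bound. -/
lemma A_iter (m : ℕ) : ∀ (i : ℕ) {x : ℝ}, 0 < x →
    |iteratedDeriv m (A i) x| ≤ 2 ^ m * ((i + 2 * m).factorial : ℝ) := by
  induction m with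
  | zero =>
    intro i x hx
    simpa using A_bound i hx
  | succ m ih =>
    intro i x hx
    have hev : deriv (A i) =ᶠ[𝓝 x] fun y => -(i : ℝ) * A (i + 1) y + A (i + 2) y := by
      filter_upwards [Ioi_mem_nhds hx] with y hy
      exact (A_hasDerivAt i hy).deriv
    rw [iteratedDeriv_succ']
    rw [(hev.iteratedDeriv m).eq_of_nhds]
    have h1 : ContDiffAt ℝ m (A (i + 1)) x := A_contDiffAt _ hx _
    have h2 : ContDiffAt ℝ m (A (i + 2)) x := A_contDiffAt _ hx _
    rw [iteratedDeriv_fun_add (h1.const_smul (-(i : ℝ)) |>.congr_of_eventuallyEq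
      (Eventually.of_forall fun y => by simp [smul_eq_mul])) h2]
    rw [iteratedDeriv_const_mul _ h1]
    have b1 := ih (i + 1) hx
    have b2 := ih (i + 2) hx
    have hi : ((i : ℝ)) * ((i + 1 + 2 * m).factorial : ℝ) ≤ ((i + 2 * (m + 1)).factorial : ℝ) := by
      have : i * (i + 1 + 2 * m).factorial ≤ (i + 2 * (m + 1)).factorial := by
        have e : i + 2 * (m + 1) = (i + 1 + 2 * m) + 1 := by ring
        rw [e, Nat.factorial_succ]
        exact Nat.mul_le_mul_right _ (by omega)
      exact_mod_cast this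
    have e2 : i + 2 + 2 * m = i + 2 * (m + 1) := by ring
    rw [e2] at b2
    have hpos : (0 : ℝ) ≤ 2 ^ m := by positivity
    calc |-(i : ℝ) * iteratedDeriv m (A (i + 1)) x + iteratedDeriv m (A (i + 2)) x|
        ≤ (i : ℝ) * |iteratedDeriv m (A (i + 1)) x| + |iteratedDeriv m (A (i + 2)) x| := by
          refine (abs_add_le _ _).trans ?_
          rw [abs_mul, abs_neg, abs_of_nonneg (Nat.cast_nonneg i)]
      _ ≤ (i : ℝ) * (2 ^ m * ((i + 1 + 2 * m).factorial : ℝ)) +
            2 ^ m * ((i + 2 * (m + 1)).factorial : ℝ) := by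
          gcongr
      _ ≤ 2 ^ (m + 1) * ((i + 2 * (m + 1)).factorial : ℝ) := by
          have := mul_le_mul_of_nonneg_left hi hpos
          rw [pow_succ]
          nlinarith

/-! ### Bounds for `expNegInvGlue` -/

lemma g_continuous_iter (m : ℕ) : Continuous (iteratedDeriv m expNegInvGlue) :=
  (expNegInvGlue.contDiff (n := (m : ℕ∞))).continuous_iteratedDeriv m (by simp)

lemma g_iter_bound (m : ℕ) (x : ℝ) :
    |iteratedDeriv m expNegInvGlue x| ≤ 2 ^ m * ((2 * m).factorial : ℝ) := by
  have hC : (0 : ℝ) ≤ 2 ^ m * ((2 * m).factorial : ℝ) := by positivity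
  have key : ∀ y : ℝ, y ≠ 0 → |iteratedDeriv m expNegInvGlue y| ≤ 2 ^ m * ((2 * m).factorial : ℝ) := by
    intro y hy
    rcases lt_or_gt_of_ne hy with hy | hy
    · have hev : expNegInvGlue =ᶠ[𝓝 y] fun _ => (0 : ℝ) := by
        filter_upwards [Iio_mem_nhds hy] with z hz
        exact expNegInvGlue.zero_of_nonpos (le_of_lt hz)
      rw [hev.iteratedDeriv_eq m]
      simp only [iteratedDeriv_const]
      split_ifs <;> simpa using hC
    · have hev : expNegInvGlue =ᶠ[𝓝 y] A 0 := by
        filter_upwards [Ioi_mem_nhds hy] with z hz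
        have hz' : 0 < z := hz
        simp [A, expNegInvGlue, not_le.2 hz']
      rw [hev.iteratedDeriv_eq m]
      simpa using A_iter m 0 hy
  have hclosed : IsClosed {y : ℝ | |iteratedDeriv m expNegInvGlue y| ≤ 2 ^ m * ((2 * m).factorial : ℝ)} :=
    isClosed_le (g_continuous_iter m).abs continuous_const
  have hdense : Dense ({0}ᶜ : Set ℝ) := dense_compl_singleton 0
  have hsub : ({0}ᶜ : Set ℝ) ⊆ {y : ℝ | |iteratedDeriv m expNegInvGlue y| ≤ 2 ^ m * ((2 * m).factorial : ℝ)} :=
    fun y hy => key y hy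
  have := hclosed.closure_subset_iff.mpr hsub (hdense x)
  exact this

/-- Central binomial estimate. -/
lemma two_mul_factorial_le (m : ℕ) : (2 * m).factorial ≤ 4 ^ m * (m.factorial) ^ 2 := by
  have h1 : (2 * m).choose m * m.factorial * (2 * m - m).factorial = (2 * m).factorial :=
    Nat.choose_mul_factorial_mul_factorial (by omega)
  have h2 : 2 * m - m = m := by omega
  rw [h2] at h1
  have h3 : (2 * m).choose m ≤ 4 ^ m := by
    have := Nat.choose_le_two_pow (2 * m) m
    calc (2 * m).choose m ≤ 2 ^ (2 * m) := this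
      _ = 4 ^ m := by rw [pow_mul]; norm_num
  calc (2 * m).factorial = (2 * m).choose m * (m.factorial) ^ 2 := by rw [← h1]; ring
    _ ≤ 4 ^ m * (m.factorial) ^ 2 := Nat.mul_le_mul_right _ h3

/-- The bound for the derivatives of `expNegInvGlue` in the form used below. -/
noncomputable def G (m : ℕ) : ℝ := 8 ^ m * (m.factorial : ℝ) ^ 2

lemma g_iter_bound' (m : ℕ) (x : ℝ) : |iteratedDeriv m expNegInvGlue x| ≤ G m := by
  refine (g_iter_bound m x).trans ?_
  have h : ((2 * m).factorial : ℝ) ≤ 4 ^ m * (m.factorial : ℝ) ^ 2 := by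
    exact_mod_cast two_mul_factorial_le m
  unfold G
  have h8 : (8 : ℝ) ^ m = 2 ^ m * 4 ^ m := by
    rw [← mul_pow]; norm_num
  rw [h8, mul_assoc]
  exact mul_le_mul_of_nonneg_left h (by positivity)

/-! ### The denominator `h` -/

/-- The denominator of `Real.smoothTransition`. -/
noncomputable def den (x : ℝ) : ℝ := expNegInvGlue x + expNegInvGlue (1 - x)

lemma g_smooth (n : ℕ∞) : ContDiff ℝ n expNegInvGlue := expNegInvGlue.contDiff

lemma g1_smooth (n : ℕ∞) : ContDiff ℝ n (fun x : ℝ => expNegInvGlue (1 - x)) :=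
  (g_smooth n).comp (contDiff_const.sub contDiff_id)

lemma den_smooth (n : ℕ∞) : ContDiff ℝ n den := (g_smooth n).add (g1_smooth n)

lemma den_iter_bound (m : ℕ) (x : ℝ) : |iteratedDeriv m den x| ≤ 2 * G m := by
  have h1 : ContDiffAt ℝ m expNegInvGlue x := (g_smooth m).contDiffAt
  have h2 : ContDiffAt ℝ m (fun x : ℝ => expNegInvGlue (1 - x)) x := (g1_smooth m).contDiffAt
  have e : iteratedDeriv m den x = iteratedDeriv m expNegInvGlue x +
      iteratedDeriv m (fun x : ℝ => expNegInvGlue (1 - x)) x := by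
    have := iteratedDeriv_fun_add h1 h2
    exact this
  rw [e]
  have e2 : iteratedDeriv m (fun x : ℝ => expNegInvGlue (1 - x)) x =
      (-1 : ℝ) ^ m • iteratedDeriv m expNegInvGlue (1 - x) := by
    have := congrFun (iteratedDeriv_comp_const_sub m expNegInvGlue (1 : ℝ)) x
    exact this
  rw [e2]
  refine (abs_add_le _ _).trans ?_
  rw [abs_smul]
  simp only [abs_neg, abs_one, one_pow, one_mul, abs_pow, Real.norm_eq_abs, one_smul]
  have a1 := g_iter_bound' m x
  have a2 := g_iter_bound' m (1 - x)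
  linarith

lemma den_lower {x : ℝ} (h0 : 0 ≤ x) (h1 : x ≤ 1) : (1 / 8 : ℝ) ≤ den x := by
  have hbase : (1 / 8 : ℝ) ≤ expNegInvGlue (1 / 2) := by
    have : expNegInvGlue (1 / 2) = Real.exp (-2) := by
      simp [expNegInvGlue]
    rw [this, Real.exp_neg, one_div]
    have h2 : Real.exp 2 ≤ 8 := by
      have : Real.exp 2 = Real.exp 1 * Real.exp 1 := by
        rw [← Real.exp_add]; norm_num
      rw [this]
      have := Real.exp_one_lt_d9
      have h0 := Real.exp_pos 1
      nlinarith
    exact inv_anti₀ (Real.exp_pos _) h2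
  unfold den
  rcases le_total (1 / 2) x with h | h
  · have := expNegInvGlue.monotone h
    have := expNegInvGlue.nonneg (1 - x)
    linarith
  · have := expNegInvGlue.monotone (show (1 / 2 : ℝ) ≤ 1 - x by linarith)
    have := expNegInvGlue.nonneg x
    linarith

lemma den_pos (x : ℝ) : 0 < den x := Real.smoothTransition.pos_denom x

lemma step_mul_den (x : ℝ) : Real.smoothTransition x * den x = expNegInvGlue x := by
  have := den_pos x
  unfold Real.smoothTransition
  unfold den at this ⊢
  field_simp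

/-! ### The bound for the step -/

/-- The closed form bound. -/
def T (m : ℕ) : ℕ := 1000 ^ (m + 1) * (m.factorial) ^ 3

lemma geom_sum_bound (m : ℕ) :
    ∑ i ∈ Finset.range m, (1000 : ℝ) ^ (i + 1) * 8 ^ (m - i) ≤ 1000 ^ (m + 1) / 64 := by
  induction m with
  | zero => simp; norm_num
  | succ m ih =>
    rw [Finset.sum_range_succ]
    have e : ∀ i ∈ Finset.range m, (1000 : ℝ) ^ (i + 1) * 8 ^ (m + 1 - i) =
        8 * ((1000 : ℝ) ^ (i + 1) * 8 ^ (m - i)) := by
      intro i hi
      have : m + 1 - i = (m - i) + 1 := by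
        have := Finset.mem_range.mp hi
        omega
      rw [this, pow_succ]
      ring
    rw [Finset.sum_congr rfl e, ← Finset.mul_sum]
    have : m + 1 - m = 1 := by omega
    rw [this, pow_one]
    have hp : (0 : ℝ) < 1000 ^ (m + 1) := by positivity
    have : (1000 : ℝ) ^ (m + 1 + 1) = 1000 * 1000 ^ (m + 1) := by ring
    rw [this]
    nlinarith

/-- Combinatorial estimate for the Leibniz terms. -/
lemma term_bound (m i : ℕ) (hi : i ≤ m) :
    (m.choose i : ℝ) * (i.factorial : ℝ) ^ 3 * ((m - i).factorial : ℝ) ^ 2 ≤ (m.factorial : ℝ) ^ 3 := by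
  have h1 : m.choose i * i.factorial * (m - i).factorial = m.factorial :=
    Nat.choose_mul_factorial_mul_factorial hi
  have h1' : (m.choose i : ℝ) * (i.factorial : ℝ) * ((m - i).factorial : ℝ) = (m.factorial : ℝ) := by
    exact_mod_cast h1
  have h2 : (i.factorial : ℝ) ≤ (m.factorial : ℝ) := by
    exact_mod_cast Nat.factorial_le hi
  have h3 : (i.factorial : ℝ) * ((m - i).factorial : ℝ) ≤ (m.factorial : ℝ) := by
    have hc : (1 : ℝ) ≤ (m.choose i : ℝ) := by
      exact_mod_cast Nat.choose_pos hi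
    have hp : (0 : ℝ) ≤ (i.factorial : ℝ) * ((m - i).factorial : ℝ) := by positivity
    rw [← h1', mul_assoc]
    nlinarith
  have hi0 : (0 : ℝ) ≤ (i.factorial : ℝ) := by positivity
  have hj0 : (0 : ℝ) ≤ ((m - i).factorial : ℝ) := by positivity
  calc (m.choose i : ℝ) * (i.factorial : ℝ) ^ 3 * ((m - i).factorial : ℝ) ^ 2
      = ((m.choose i : ℝ) * (i.factorial : ℝ) * ((m - i).factorial : ℝ)) * (i.factorial : ℝ) *
          ((i.factorial : ℝ) * ((m - i).factorial : ℝ)) := by ring
    _ ≤ (m.factorial : ℝ) * (m.factorial : ℝ) * (m.factorial : ℝ) := by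
        rw [h1']
        gcongr
    _ = (m.factorial : ℝ) ^ 3 := by ring

lemma step_smooth (n : ℕ∞) : ContDiff ℝ n Real.smoothTransition := Real.smoothTransition.contDiff

lemma step_iter_bound_Icc (m : ℕ) : ∀ {x : ℝ}, 0 ≤ x → x ≤ 1 →
    |iteratedDeriv m Real.smoothTransition x| ≤ (T m : ℝ) := by
  induction m using Nat.strong_induction_on with
  | _ m ih =>
    intro x h0 h1
    have hF : (1 : ℝ) ≤ (m.factorial : ℝ) := by exact_mod_cast Nat.factorial_pos m
    have hs : ContDiffAt ℝ m Real.smoothTransition x := (step_smooth m).contDiffAt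
    have hd : ContDiffAt ℝ m den x := (den_smooth m).contDiffAt
    have hL := iteratedDeriv_mul hs hd
    have hprod : (Real.smoothTransition * den) = expNegInvGlue := funext step_mul_den
    rw [hprod, Finset.sum_range_succ] at hL
    simp only [Nat.choose_self, Nat.cast_one, one_mul, Nat.sub_self, iteratedDeriv_zero] at hL
    -- isolate
    have hiso : iteratedDeriv m Real.smoothTransition x * den x = iteratedDeriv m expNegInvGlue x -
        ∑ i ∈ Finset.range m, (m.choose i : ℝ) * iteratedDeriv i Real.smoothTransition x *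
          iteratedDeriv (m - i) den x := by
      linarith
    have hsum : |∑ i ∈ Finset.range m, (m.choose i : ℝ) * iteratedDeriv i Real.smoothTransition x *
          iteratedDeriv (m - i) den x| ≤
        ∑ i ∈ Finset.range m, 2 * (m.factorial : ℝ) ^ 3 * ((1000 : ℝ) ^ (i + 1) * 8 ^ (m - i)) := by
      refine (Finset.abs_sum_le_sum_abs _ _).trans (Finset.sum_le_sum ?_)
      intro i hi
      have hi' := Finset.mem_range.mp hi
      have b1 := ih i hi' h0 h1
      have b2 := den_iter_bound (m - i) x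
      have b3 := term_bound m i hi'.le
      rw [abs_mul, abs_mul, abs_of_nonneg (Nat.cast_nonneg (m.choose i))]
      have hT : (T i : ℝ) = 1000 ^ (i + 1) * (i.factorial : ℝ) ^ 3 := by
        unfold T; push_cast; ring
      rw [hT] at b1
      unfold G at b2
      have hc : (0 : ℝ) ≤ (m.choose i : ℝ) := Nat.cast_nonneg _
      calc (m.choose i : ℝ) * |iteratedDeriv i Real.smoothTransition x| * |iteratedDeriv (m - i) den x|
          ≤ (m.choose i : ℝ) * (1000 ^ (i + 1) * (i.factorial : ℝ) ^ 3) *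
              (2 * (8 ^ (m - i) * ((m - i).factorial : ℝ) ^ 2)) := by
            gcongr
        _ = 2 * ((m.choose i : ℝ) * (i.factorial : ℝ) ^ 3 * ((m - i).factorial : ℝ) ^ 2) *
              ((1000 : ℝ) ^ (i + 1) * 8 ^ (m - i)) := by ring
        _ ≤ 2 * (m.factorial : ℝ) ^ 3 * ((1000 : ℝ) ^ (i + 1) * 8 ^ (m - i)) := by
            gcongr
    rw [← Finset.mul_sum] at hsum
    have hgeo := geom_sum_bound m
    have hF3 : (0 : ℝ) ≤ (m.factorial : ℝ) ^ 3 := by positivity
    have hsum' : |∑ i ∈ Finset.range m, (m.choose i : ℝ) * iteratedDeriv i Real.smoothTransition x *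
          iteratedDeriv (m - i) den x| ≤ 2 * (m.factorial : ℝ) ^ 3 * (1000 ^ (m + 1) / 64) :=
      hsum.trans (by gcongr)
    have hgm := g_iter_bound' m x
    have hlow := den_lower h0 h1
    have hT : (T m : ℝ) = 1000 ^ (m + 1) * (m.factorial : ℝ) ^ 3 := by
      unfold T; push_cast; ring
    rw [hT]
    -- G m estimate
    have hG : G m * 8 ≤ (1000 ^ (m + 1) / 8) * (m.factorial : ℝ) ^ 3 := by
      unfold G
      have h8 : (8 : ℝ) ^ m * 64 ≤ 1000 ^ (m + 1) := by
        have : (8 : ℝ) ^ m ≤ 1000 ^ m := pow_le_pow_left₀ (by norm_num) (by norm_num) m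
        have hp : (0 : ℝ) < 1000 ^ m := by positivity
        rw [pow_succ]
        nlinarith
      have hF2 : (m.factorial : ℝ) ^ 2 ≤ (m.factorial : ℝ) ^ 3 := by
        have : (0 : ℝ) ≤ (m.factorial : ℝ) ^ 2 := by positivity
        rw [pow_succ (m.factorial : ℝ) 2]
        nlinarith
      have hF2' : (0 : ℝ) ≤ (m.factorial : ℝ) ^ 2 := by positivity
      calc (8 : ℝ) ^ m * (m.factorial : ℝ) ^ 2 * 8 = ((8 : ℝ) ^ m * 64) / 8 * (m.factorial : ℝ) ^ 2 := by ring
        _ ≤ (1000 ^ (m + 1) / 8) * (m.factorial : ℝ) ^ 2 := by gcongr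
        _ ≤ (1000 ^ (m + 1) / 8) * (m.factorial : ℝ) ^ 3 := by gcongr
    have habs : |iteratedDeriv m Real.smoothTransition x| * den x ≤
        G m + 2 * (m.factorial : ℝ) ^ 3 * (1000 ^ (m + 1) / 64) := by
      have hdpos := den_pos x
      calc |iteratedDeriv m Real.smoothTransition x| * den x
          = |iteratedDeriv m Real.smoothTransition x * den x| := by
            rw [abs_mul, abs_of_pos hdpos]
        _ = |iteratedDeriv m expNegInvGlue x -
            ∑ i ∈ Finset.range m, (m.choose i : ℝ) * iteratedDeriv i Real.smoothTransition x *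
              iteratedDeriv (m - i) den x| := by rw [hiso]
        _ ≤ _ := (abs_sub _ _).trans (add_le_add hgm hsum')
    have hnn : 0 ≤ |iteratedDeriv m Real.smoothTransition x| := abs_nonneg _
    have h18 : |iteratedDeriv m Real.smoothTransition x| * (1 / 8) ≤
        |iteratedDeriv m Real.smoothTransition x| * den x := by gcongr
    have hP : (0 : ℝ) ≤ 1000 ^ (m + 1) * (m.factorial : ℝ) ^ 3 := by positivity
    nlinarith

/-- The global bound for all derivatives of the smooth step. -/
theorem step_iter_bound (m : ℕ) (x : ℝ) : |iteratedDeriv m Real.smoothTransition x| ≤ (T m : ℝ) := by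
  have hT1 : (1 : ℝ) ≤ (T m : ℝ) := by
    have : 1 ≤ T m := by
      unfold T
      exact Nat.succ_le_of_lt (by positivity)
    exact_mod_cast this
  rcases lt_or_ge x 0 with hx | hx
  · have hev : Real.smoothTransition =ᶠ[𝓝 x] fun _ => (0 : ℝ) := by
      filter_upwards [Iio_mem_nhds hx] with z hz
      exact Real.smoothTransition.zero_of_nonpos (le_of_lt hz)
    rw [hev.iteratedDeriv_eq m]
    simp only [iteratedDeriv_const]
    split_ifs <;> simpa using (zero_le_one.trans hT1)
  · rcases le_or_gt x 1 with hx1 | hx1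
    · exact step_iter_bound_Icc m hx hx1
    · have hev : Real.smoothTransition =ᶠ[𝓝 x] fun _ => (1 : ℝ) := by
        filter_upwards [Ioi_mem_nhds hx1] with z hz
        exact Real.smoothTransition.one_of_one_le (le_of_lt hz)
      rw [hev.iteratedDeriv_eq m]
      simp only [iteratedDeriv_const]
      split_ifs
      · simpa using hT1
      · simpa using (zero_le_one.trans hT1)


/-! ### Finite differences -/

/-- The derivative towers of the smooth step. -/
theorem St_isTower : IsTower St := by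
  intro m y
  have h : ContDiff ℝ (m + 1 : ℕ) Real.smoothTransition := step_smooth ((m + 1 : ℕ) : ℕ∞)
  have hd : Differentiable ℝ (iteratedDeriv m Real.smoothTransition) :=
    h.differentiable_iteratedDeriv m (by exact_mod_cast Nat.lt_succ_self m)
  have := (hd y).hasDerivAt
  unfold St
  rw [iteratedDeriv_succ]
  exact this

theorem St_bound (m : ℕ) (x : ℝ) : |St m x| ≤ (T m : ℝ) := step_iter_bound m x

/-- Mean value estimate for towers. -/
lemma tower_mvt {f : ℕ → ℝ → ℝ} (hf : IsTower f) {B : ℕ → ℝ} (hB : ∀ m y, |f m y| ≤ B m)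
    (k : ℕ) (x y : ℝ) : |f k y - f k x| ≤ B (k + 1) * |y - x| := by
  have := Convex.norm_image_sub_le_of_norm_hasDerivWithin_le (f := f k) (f' := f (k + 1))
    (s := Set.univ) (C := B (k + 1)) (x := x) (y := y)
    (fun z _ => (hf k z).hasDerivWithinAt) (fun z _ => by simpa using hB (k + 1) z)
    convex_univ (Set.mem_univ _) (Set.mem_univ _)
  simpa [Real.norm_eq_abs] using this

/-- Finite difference approximation of the derivatives of a tower with bounded derivatives. -/
theorem fd_bound (m : ℕ) : ∀ (f : ℕ → ℝ → ℝ), IsTower f → ∀ (B : ℕ → ℝ), (∀ k y, |f k y| ≤ B k) →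
    ∀ (H : ℝ), 0 < H → ∀ x : ℝ,
      |f m x - H ^ m * ((fwdDiff (1 / H))^[m] (f 0)) x| ≤ (m : ℝ) / H * B (m + 1) := by
  induction m with
  | zero =>
    intro f hf B hB H hH x
    simp
  | succ m ih =>
    intro f hf B hB H hH x
    set h : ℝ := 1 / H with hh
    have hhpos : 0 < h := by positivity
    -- the difference tower
    let f' : ℕ → ℝ → ℝ := fun k y => H * (f k (y + h) - f k y)
    have hf' : IsTower f' := by
      intro k y
      have h1 : HasDerivAt (fun y => f k (y + h)) (f (k + 1) (y + h)) y := by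
        have := (hf k (y + h)).comp_add_const y h
        simpa using this
      exact (h1.sub (hf k y)).const_mul H
    have hMVT : ∀ k y, ∃ c, y ≤ c ∧ c ≤ y + h ∧ f' k y = f (k + 1) c := by
      intro k y
      obtain ⟨c, hc, hc'⟩ := exists_hasDerivAt_eq_slope (f k) (f (k + 1)) (show y < y + h by linarith)
        ((fun z _ => (hf k z).continuousAt.continuousWithinAt) :
          ContinuousOn (f k) (Set.Icc y (y + h)))
        (fun z _ => hf k z)
      refine ⟨c, hc.1.le, hc.2.le, ?_⟩
      rw [hc']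
      simp only [f']
      have : y + h - y = h := by ring
      rw [this, hh]
      field_simp
    have hB' : ∀ k y, |f' k y| ≤ B (k + 1) := by
      intro k y
      obtain ⟨c, -, -, hc⟩ := hMVT k y
      rw [hc]
      exact hB _ _
    have hIH := ih f' hf' (fun k => B (k + 1)) hB' H hH x
    -- comparison of f (m+1) and f' m
    have hcomp : |f (m + 1) x - f' m x| ≤ (1 / H) * B (m + 2) := by
      obtain ⟨c, hc1, hc2, hc⟩ := hMVT m x
      rw [hc]
      have := tower_mvt hf hB (m + 1) c x
      have hB0 : 0 ≤ B (m + 2) := (abs_nonneg _).trans (hB (m + 2) x)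
      have hd : |x - c| ≤ 1 / H := by
        rw [abs_le]; constructor <;> linarith
      calc |f (m + 1) x - f (m + 1) c| ≤ B (m + 1 + 1) * |x - c| := this
        _ ≤ B (m + 2) * (1 / H) := by gcongr
        _ = (1 / H) * B (m + 2) := by ring
    -- the iterate identity
    have hit : H ^ (m + 1) * ((fwdDiff h)^[m + 1] (f 0)) x = H ^ m * ((fwdDiff h)^[m] (f' 0)) x := by
      have e : f' 0 = H • (fwdDiff h (f 0)) := by
        funext y
        simp [f', fwdDiff]
      rw [Function.iterate_succ_apply, e, fwdDiff_iter_const_smul]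
      simp only [Pi.smul_apply, smul_eq_mul]
      ring
    rw [hit]
    have hfinal : |f (m + 1) x - H ^ m * ((fwdDiff h)^[m] (f' 0)) x| ≤
        |f (m + 1) x - f' m x| + |f' m x - H ^ m * ((fwdDiff h)^[m] (f' 0)) x| := abs_sub_le _ _ _
    have hIH' : |f' m x - H ^ m * ((fwdDiff h)^[m] (f' 0)) x| ≤ (m : ℝ) / H * B (m + 2) := hIH
    have e3 : (((m + 1 : ℕ) : ℝ)) / H * B (m + 1 + 1) = (1 / H) * B (m + 2) + (m : ℝ) / H * B (m + 2) := by
      push_cast
      ring
    rw [e3]
    linarith

/-- Closed form of the finite difference estimate for the step. -/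
theorem St_fd (m : ℕ) (H : ℝ) (hH : 0 < H) (x : ℝ) :
    |St m x - H ^ m * ∑ k ∈ Finset.range (m + 1),
        (((-1 : ℤ) ^ (m - k) * (m.choose k : ℤ) : ℤ) : ℝ) * St 0 (x + (k : ℝ) * (1 / H))| ≤
      (m : ℝ) / H * (T (m + 1) : ℝ) := by
  have := fd_bound m St St_isTower (fun k => (T k : ℝ)) St_bound H hH x
  rw [fwdDiff_iter_eq_sum_shift] at this
  simpa [zsmul_eq_mul, nsmul_eq_mul] using this

end Crest.Agent.Lib.BF.StepB
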