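import Mathlib
import Crest.Agent.Lib.BF.StepBound

/-!
# Towers of derivatives, plateaus, separated fields and the fields of moves (helper19)
-/

open Crest.AnalysisR.BoxFlow
open scoped ContDiff

namespace Crest.Agent.Lib.BF

/-! ### Closure of towers -/

theorem isTower_St : IsTower St := StepB.St_isTower

theorem isTower_scaleT {f : ℕ → ℝ → ℝ} (hf : IsTower f) (a c : ℚ) : IsTower (scaleT f a c) := by
  intro m y
  unfold scaleT
  have h1 : HasDerivAt (fun y : ℝ => (y - (a : ℝ)) / (c : ℝ)) ((c : ℝ)⁻¹) y := by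
    have := ((hasDerivAt_id y).sub_const (a : ℝ)).div_const (c : ℝ)
    simpa [div_eq_mul_inv] using this
  have h2 : HasDerivAt (fun y : ℝ => f m ((y - (a : ℝ)) / (c : ℝ)))
      (f (m + 1) ((y - (a : ℝ)) / (c : ℝ)) * (c : ℝ)⁻¹) y := (hf m _).comp y h1
  have h3 := h2.const_mul (((c : ℝ)⁻¹) ^ m)
  refine h3.congr_deriv ?_
  rw [pow_succ]
  ring

theorem isTower_addT {f g : ℕ → ℝ → ℝ} (hf : IsTower f) (hg : IsTower g) : IsTower (addT f g) :=
  fun m y => (hf m y).add (hg m y)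

theorem isTower_subT {f g : ℕ → ℝ → ℝ} (hf : IsTower f) (hg : IsTower g) : IsTower (subT f g) :=
  fun m y => (hf m y).sub (hg m y)

theorem isTower_smulT {f : ℕ → ℝ → ℝ} (hf : IsTower f) (r : ℚ) : IsTower (smulT r f) :=
  fun m y => (hf m y).const_mul (r : ℝ)

theorem isTower_shiftT {f : ℕ → ℝ → ℝ} (hf : IsTower f) : IsTower (shiftT f) :=
  fun m y => hf (m + 1) y

theorem isTower_xmulT {f : ℕ → ℝ → ℝ} (hf : IsTower f) : IsTower (xmulT f) := by
  intro m y
  unfold xmulT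
  have h1 := (hasDerivAt_id y).mul (hf m y)
  have h2 := (hf (m - 1) y).const_mul (m : ℝ)
  refine (h1.add h2).congr_deriv ?_
  simp only [id, Pi.mul_apply]
  rcases Nat.eq_zero_or_pos m with rfl | hm
  · simp
    ring
  · have : m - 1 + 1 = m := Nat.sub_add_cancel hm
    rw [this]
    simp only [Nat.add_sub_cancel]
    push_cast
    ring

theorem isTower_zeroT : IsTower zeroT := fun _ y => hasDerivAt_const y 0

theorem isTower_plateauT (lo hi ε : ℚ) : IsTower (plateauT lo hi ε) :=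
  isTower_subT (isTower_scaleT isTower_St _ _) (isTower_scaleT isTower_St _ _)

theorem isTower_qT (α s lo hi ε : ℚ) : IsTower (qT α s lo hi ε) :=
  isTower_addT (isTower_smulT (isTower_xmulT (isTower_plateauT _ _ _)) _)
    (isTower_smulT (isTower_xmulT (isTower_xmulT (isTower_plateauT _ _ _))) _)

theorem isTower_timeT (a b : ℚ) : IsTower (timeT a b) :=
  isTower_shiftT (isTower_scaleT isTower_St _ _)

/-- The members of a tower are smooth. -/
theorem IsTower.contDiff {f : ℕ → ℝ → ℝ} (hf : IsTower f) (m : ℕ) : ContDiff ℝ ∞ (f m) := by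
  have hn : ∀ (n : ℕ) (m : ℕ), ContDiff ℝ n (f m) := by
    intro n
    induction n with
    | zero =>
      intro m
      simp only [CharP.cast_eq_zero, contDiff_zero]
      exact continuous_iff_continuousAt.2 fun y => (hf m y).continuousAt
    | succ n ih =>
      intro m
      have hd : Differentiable ℝ (f m) := fun y => (hf m y).differentiableAt
      have hde : deriv (f m) = f (m + 1) := funext fun y => (hf m y).deriv
      have : ContDiff ℝ (n + 1 : ℕ) (f m) := by
        rw [Nat.cast_add, Nat.cast_one, contDiff_succ_iff_deriv]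
        exact ⟨hd, by simp, hde ▸ ih (m + 1)⟩
      exact this
  exact contDiff_infty.2 fun n => hn n m

/-! ### Values of the step -/

lemma St_zero_of_nonpos {x : ℝ} (hx : x ≤ 0) : St 0 x = 0 := by
  simpa [St] using Real.smoothTransition.zero_of_nonpos hx

lemma St_zero_of_one_le {x : ℝ} (hx : 1 ≤ x) : St 0 x = 1 := by
  simpa [St] using Real.smoothTransition.one_of_one_le hx

lemma St_continuous (m : ℕ) : Continuous (St m) := (isTower_St.contDiff m).continuous

lemma St_succ_of_lt {m : ℕ} {x : ℝ} (hx : x < 0) : St (m + 1) x = 0 := by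
  have hev : Real.smoothTransition =ᶠ[nhds x] fun _ => (0 : ℝ) := by
    filter_upwards [Iio_mem_nhds hx] with z hz
    exact Real.smoothTransition.zero_of_nonpos (le_of_lt hz)
  unfold St
  rw [hev.iteratedDeriv_eq (m + 1)]
  simp [iteratedDeriv_const]

lemma St_succ_of_gt {m : ℕ} {x : ℝ} (hx : 1 < x) : St (m + 1) x = 0 := by
  have hev : Real.smoothTransition =ᶠ[nhds x] fun _ => (1 : ℝ) := by
    filter_upwards [Ioi_mem_nhds hx] with z hz
    exact Real.smoothTransition.one_of_one_le (le_of_lt hz)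
  unfold St
  rw [hev.iteratedDeriv_eq (m + 1)]
  simp [iteratedDeriv_const]

lemma St_succ_of_nonpos {m : ℕ} {x : ℝ} (hx : x ≤ 0) : St (m + 1) x = 0 := by
  rcases hx.lt_or_eq with hx | rfl
  · exact St_succ_of_lt hx
  · have hc : ContinuousWithinAt (St (m + 1)) (Set.Iio 0) 0 := (St_continuous _).continuousWithinAt
    have hne : (nhdsWithin (0 : ℝ) (Set.Iio 0)).NeBot := inferInstance
    have h0 : Filter.Tendsto (St (m + 1)) (nhdsWithin (0 : ℝ) (Set.Iio 0)) (nhds 0) := by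
      refine tendsto_const_nhds.congr' ?_
      filter_upwards [self_mem_nhdsWithin] with z hz
      exact (St_succ_of_lt hz).symm
    exact tendsto_nhds_unique hc h0

lemma St_succ_of_one_le {m : ℕ} {x : ℝ} (hx : 1 ≤ x) : St (m + 1) x = 0 := by
  rcases hx.lt_or_eq with hx | rfl
  · exact St_succ_of_gt hx
  · have hc : ContinuousWithinAt (St (m + 1)) (Set.Ioi 1) 1 := (St_continuous _).continuousWithinAt
    have hne : (nhdsWithin (1 : ℝ) (Set.Ioi 1)).NeBot := inferInstance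
    have h0 : Filter.Tendsto (St (m + 1)) (nhdsWithin (1 : ℝ) (Set.Ioi 1)) (nhds 0) := by
      refine tendsto_const_nhds.congr' ?_
      filter_upwards [self_mem_nhdsWithin] with z hz
      exact (St_succ_of_gt hz).symm
    exact tendsto_nhds_unique hc h0

/-! ### Plateau facts -/

section plateau
variable {lo hi ε : ℚ}

lemma plateau_zero_eq_one (hε : 0 < ε) {y : ℝ} (h1 : (lo : ℝ) ≤ y) (h2 : y ≤ (hi : ℝ)) :
    plateauT lo hi ε 0 y = 1 := by
  have hε' : (0 : ℝ) < (ε : ℝ) := by exact_mod_cast hε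
  simp only [plateauT, subT, scaleT, pow_zero, one_mul]
  rw [St_zero_of_one_le, St_zero_of_nonpos]
  · norm_num
  · apply div_nonpos_of_nonpos_of_nonneg (by linarith) hε'.le
  · rw [le_div_iff₀ hε']
    push_cast
    linarith

lemma plateau_one_eq_zero (hε : 0 < ε) {y : ℝ} (h1 : (lo : ℝ) ≤ y) (h2 : y ≤ (hi : ℝ)) :
    plateauT lo hi ε 1 y = 0 := by
  have hε' : (0 : ℝ) < (ε : ℝ) := by exact_mod_cast hε
  simp only [plateauT, subT, scaleT]
  rw [St_succ_of_one_le, St_succ_of_nonpos]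
  · simp
  · apply div_nonpos_of_nonpos_of_nonneg (by linarith) hε'.le
  · rw [le_div_iff₀ hε']
    push_cast
    linarith

lemma plateau_eq_zero_of_le (hε : 0 < ε) (hlh : lo ≤ hi) {y : ℝ} (h : y ≤ (lo : ℝ) - ε) (m : ℕ) :
    plateauT lo hi ε m y = 0 := by
  have hε' : (0 : ℝ) < (ε : ℝ) := by exact_mod_cast hε
  have hlh' : (lo : ℝ) ≤ hi := by exact_mod_cast hlh
  have a1 : (y - ((lo - ε : ℚ) : ℝ)) / (ε : ℝ) ≤ 0 := by
    apply div_nonpos_of_nonpos_of_nonneg _ hε'.le
    push_cast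
    linarith
  have a2 : (y - (hi : ℝ)) / (ε : ℝ) ≤ 0 := by
    apply div_nonpos_of_nonpos_of_nonneg _ hε'.le
    linarith
  simp only [plateauT, subT, scaleT]
  cases m with
  | zero => rw [St_zero_of_nonpos a1, St_zero_of_nonpos a2]; simp
  | succ m => rw [St_succ_of_nonpos a1, St_succ_of_nonpos a2]; simp

lemma plateau_eq_zero_of_ge (hε : 0 < ε) (hlh : lo ≤ hi) {y : ℝ} (h : (hi : ℝ) + ε ≤ y) (m : ℕ) :
    plateauT lo hi ε m y = 0 := by
  have hε' : (0 : ℝ) < (ε : ℝ) := by exact_mod_cast hε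
  have hlh' : (lo : ℝ) ≤ hi := by exact_mod_cast hlh
  have a1 : 1 ≤ (y - ((lo - ε : ℚ) : ℝ)) / (ε : ℝ) := by
    rw [le_div_iff₀ hε']
    push_cast
    linarith
  have a2 : 1 ≤ (y - (hi : ℝ)) / (ε : ℝ) := by
    rw [le_div_iff₀ hε']
    linarith
  simp only [plateauT, subT, scaleT]
  cases m with
  | zero => rw [St_zero_of_one_le a1, St_zero_of_one_le a2]; simp
  | succ m => rw [St_succ_of_one_le a1, St_succ_of_one_le a2]; simp

/-- A tower vanishing identically at `y` (all orders). -/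
lemma xmulT_eq_zero {f : ℕ → ℝ → ℝ} {y : ℝ} (h : ∀ m, f m y = 0) (m : ℕ) : xmulT f m y = 0 := by
  simp [xmulT, h]

lemma qT_eq_zero {α s : ℚ} {y : ℝ} (h : ∀ m, plateauT lo hi ε m y = 0) (m : ℕ) :
    qT α s lo hi ε m y = 0 := by
  simp only [qT, addT, smulT]
  rw [xmulT_eq_zero h, xmulT_eq_zero (xmulT_eq_zero h)]
  simp

lemma qT_one_eq (hε : 0 < ε) {α s : ℚ} {y : ℝ} (h1 : (lo : ℝ) ≤ y) (h2 : y ≤ (hi : ℝ)) :
    qT α s lo hi ε 1 y = (α : ℝ) + s * y := by
  have p0 := plateau_zero_eq_one hε h1 h2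
  have p1 := plateau_one_eq_zero hε h1 h2
  simp only [qT, addT, smulT, xmulT, p0, p1, Nat.sub_self, Nat.cast_one, Nat.cast_zero]
  push_cast
  ring

end plateau

/-! ### The time profile -/

lemma timeT_eq_zero_of_le {a b : ℚ} (hab : a < b) {t : ℝ} (ht : t ≤ (a : ℝ)) (m : ℕ) :
    timeT a b m t = 0 := by
  have hab' : (0 : ℝ) < ((b - a : ℚ) : ℝ) := by exact_mod_cast sub_pos.2 hab
  simp only [timeT, shiftT, scaleT]
  rw [St_succ_of_nonpos]
  · simp
  · exact div_nonpos_of_nonpos_of_nonneg (by linarith) hab'.le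

lemma timeT_eq_zero_of_ge {a b : ℚ} (hab : a < b) {t : ℝ} (ht : (b : ℝ) ≤ t) (m : ℕ) :
    timeT a b m t = 0 := by
  have hab' : (0 : ℝ) < ((b - a : ℚ) : ℝ) := by exact_mod_cast sub_pos.2 hab
  simp only [timeT, shiftT, scaleT]
  rw [St_succ_of_one_le]
  · simp
  · rw [le_div_iff₀ hab']
    push_cast
    linarith

/-- The primitive of the time profile. -/
theorem timeT_primitive (a b : ℚ) (t : ℝ) :
    HasDerivAt (fun t : ℝ => St 0 ((t - (a : ℝ)) / ((b - a : ℚ) : ℝ))) (timeT a b 0 t) t := by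
  have h := isTower_scaleT isTower_St a (b - a) 0 t
  have e : (fun t : ℝ => St 0 ((t - (a : ℝ)) / ((b - a : ℚ) : ℝ))) = scaleT St a (b - a) 0 := by
    funext t
    simp [scaleT]
  rw [e]
  exact h

lemma St_zero_zero : St 0 0 = 0 := St_zero_of_nonpos le_rfl
lemma St_zero_one : St 0 1 = 1 := St_zero_of_one_le le_rfl


/-! ### Separated fields -/

section sep
variable {F : Fin 3 → Fin 4 → ℕ → ℝ → ℝ}

/-- The general product with exponents `m`. -/
noncomputable def sepProd (F : Fin 3 → Fin 4 → ℕ → ℝ → ℝ) (m : Fin 4 → ℕ) : Field :=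
  fun p c => F c 0 (m 0) p.1 * F c 1 (m 1) (p.2 0) * F c 2 (m 2) (p.2 1) * F c 3 (m 3) (p.2 2)

lemma hasFDerivAt_coord (i : Fin 3) (p : ℝ × (Fin 3 → ℝ)) :
    HasFDerivAt (fun p : ℝ × (Fin 3 → ℝ) => p.2 i)
      ((ContinuousLinearMap.proj i).comp (ContinuousLinearMap.snd ℝ ℝ (Fin 3 → ℝ))) p :=
  ((ContinuousLinearMap.proj i).comp (ContinuousLinearMap.snd ℝ ℝ (Fin 3 → ℝ))).hasFDerivAt

lemma sepProd_hasFDerivAt (hF : ∀ c i, IsTower (F c i)) (m : Fin 4 → ℕ) (p : ℝ × (Fin 3 → ℝ)) (c : Fin 3) :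
    HasFDerivAt (fun p : ℝ × (Fin 3 → ℝ) => sepProd F m p c)
      ((F c 0 (m 0 + 1) p.1 * F c 1 (m 1) (p.2 0) * F c 2 (m 2) (p.2 1) * F c 3 (m 3) (p.2 2)) •
          (ContinuousLinearMap.fst ℝ ℝ (Fin 3 → ℝ)) +
       (F c 0 (m 0) p.1 * F c 1 (m 1 + 1) (p.2 0) * F c 2 (m 2) (p.2 1) * F c 3 (m 3) (p.2 2)) •
          ((ContinuousLinearMap.proj 0).comp (ContinuousLinearMap.snd ℝ ℝ (Fin 3 → ℝ))) +
       (F c 0 (m 0) p.1 * F c 1 (m 1) (p.2 0) * F c 2 (m 2 + 1) (p.2 1) * F c 3 (m 3) (p.2 2)) •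
          ((ContinuousLinearMap.proj 1).comp (ContinuousLinearMap.snd ℝ ℝ (Fin 3 → ℝ))) +
       (F c 0 (m 0) p.1 * F c 1 (m 1) (p.2 0) * F c 2 (m 2) (p.2 1) * F c 3 (m 3 + 1) (p.2 2)) •
          ((ContinuousLinearMap.proj 2).comp (ContinuousLinearMap.snd ℝ ℝ (Fin 3 → ℝ)))) p := by
  have h0 : HasFDerivAt (fun p : ℝ × (Fin 3 → ℝ) => F c 0 (m 0) p.1)
      ((F c 0 (m 0 + 1) p.1) • (ContinuousLinearMap.fst ℝ ℝ (Fin 3 → ℝ))) p :=
    (hF c 0 (m 0) p.1).comp_hasFDerivAt p (hasFDerivAt_fst)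
  have h1 : HasFDerivAt (fun p : ℝ × (Fin 3 → ℝ) => F c 1 (m 1) (p.2 0))
      ((F c 1 (m 1 + 1) (p.2 0)) • ((ContinuousLinearMap.proj 0).comp
        (ContinuousLinearMap.snd ℝ ℝ (Fin 3 → ℝ)))) p :=
    (hF c 1 (m 1) (p.2 0)).comp_hasFDerivAt p (hasFDerivAt_coord 0 p)
  have h2 : HasFDerivAt (fun p : ℝ × (Fin 3 → ℝ) => F c 2 (m 2) (p.2 1))
      ((F c 2 (m 2 + 1) (p.2 1)) • ((ContinuousLinearMap.proj 1).comp
        (ContinuousLinearMap.snd ℝ ℝ (Fin 3 → ℝ)))) p :=
    (hF c 2 (m 2) (p.2 1)).comp_hasFDerivAt p (hasFDerivAt_coord 1 p)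
  have h3 : HasFDerivAt (fun p : ℝ × (Fin 3 → ℝ) => F c 3 (m 3) (p.2 2))
      ((F c 3 (m 3 + 1) (p.2 2)) • ((ContinuousLinearMap.proj 2).comp
        (ContinuousLinearMap.snd ℝ ℝ (Fin 3 → ℝ)))) p :=
    (hF c 3 (m 3) (p.2 2)).comp_hasFDerivAt p (hasFDerivAt_coord 2 p)
  have h := ((h0.mul h1).mul h2).mul h3
  refine h.congr_fderiv ?_
  ext v <;> simp <;> ring

lemma sepProd_hasFDerivAt' (hF : ∀ c i, IsTower (F c i)) (m : Fin 4 → ℕ) (p : ℝ × (Fin 3 → ℝ)) :
    HasFDerivAt (sepProd F m) (ContinuousLinearMap.pi fun c =>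
      ((F c 0 (m 0 + 1) p.1 * F c 1 (m 1) (p.2 0) * F c 2 (m 2) (p.2 1) * F c 3 (m 3) (p.2 2)) •
          (ContinuousLinearMap.fst ℝ ℝ (Fin 3 → ℝ)) +
       (F c 0 (m 0) p.1 * F c 1 (m 1 + 1) (p.2 0) * F c 2 (m 2) (p.2 1) * F c 3 (m 3) (p.2 2)) •
          ((ContinuousLinearMap.proj 0).comp (ContinuousLinearMap.snd ℝ ℝ (Fin 3 → ℝ))) +
       (F c 0 (m 0) p.1 * F c 1 (m 1) (p.2 0) * F c 2 (m 2 + 1) (p.2 1) * F c 3 (m 3) (p.2 2)) •
          ((ContinuousLinearMap.proj 1).comp (ContinuousLinearMap.snd ℝ ℝ (Fin 3 → ℝ))) +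
       (F c 0 (m 0) p.1 * F c 1 (m 1) (p.2 0) * F c 2 (m 2) (p.2 1) * F c 3 (m 3 + 1) (p.2 2)) •
          ((ContinuousLinearMap.proj 2).comp (ContinuousLinearMap.snd ℝ ℝ (Fin 3 → ℝ))))) p :=
  hasFDerivAt_pi.2 fun c => sepProd_hasFDerivAt hF m p c

lemma direction_zero : direction 0 = ((1 : ℝ), (0 : Fin 3 → ℝ)) := by
  simp [direction]

lemma direction_succ (i : Fin 3) : direction i.succ = ((0 : ℝ), (Pi.single i 1 : Fin 3 → ℝ)) := by
  simp [direction]

/-- The derivative of the general product in a coordinate direction raises one exponent. -/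
lemma sepProd_fderiv (hF : ∀ c i, IsTower (F c i)) (m : Fin 4 → ℕ) (p : ℝ × (Fin 3 → ℝ)) (d : Fin 4) :
    fderiv ℝ (sepProd F m) p (direction d) = sepProd F (Function.update m d (m d + 1)) p := by
  rw [(sepProd_hasFDerivAt' hF m p).fderiv]
  funext c
  fin_cases d
  · simp [sepProd, direction_zero, Function.update]
  · have := direction_succ 0
    simp only [Fin.succ_zero_eq_one] at this
    simp [sepProd, this, Function.update]
  · have := direction_succ 1
    simp only [Fin.succ_one_eq_two] at this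
    simp [sepProd, this, Function.update]
  · have h3 : direction 3 = ((0 : ℝ), (Pi.single 2 1 : Fin 3 → ℝ)) := direction_succ 2
    simp [sepProd, h3, Function.update]

/-- The exponents of a list of directions. -/
def countExp (ds : List (Fin 4)) : Fin 4 → ℕ := fun i => ds.count i

lemma countExp_cons (d : Fin 4) (ds : List (Fin 4)) :
    countExp (d :: ds) = Function.update (countExp ds) d (countExp ds d + 1) := by
  funext i
  by_cases h : i = d
  · subst h
    simp [countExp]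
  · have h' : d ≠ i := fun e => h e.symm
    simp [countExp, Function.update, h, List.count_cons, h']

lemma sepProd_zero : sepProd F (countExp []) = SepField F := by
  funext p c
  simp [sepProd, SepField, countExp]

/-- The mixed derivatives of a separated field. -/
theorem mixedDeriv_sepField (hF : ∀ c i, IsTower (F c i)) (ds : List (Fin 4)) :
    mixedDeriv ds (SepField F) = sepProd F (countExp ds) := by
  induction ds with
  | nil => rw [sepProd_zero]; rfl
  | cons d ds ih =>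
    funext p
    show fderiv ℝ (mixedDeriv ds (SepField F)) p (direction d) = _
    rw [ih, sepProd_fderiv hF, countExp_cons]

/-- Pointwise form of the mixed derivative formula. -/
theorem mixedDeriv_sepField_apply (hF : ∀ c i, IsTower (F c i)) (ds : List (Fin 4))
    (p : ℝ × (Fin 3 → ℝ)) (c : Fin 3) :
    mixedDeriv ds (SepField F) p c =
      F c 0 (ds.count 0) p.1 * F c 1 (ds.count 1) (p.2 0) * F c 2 (ds.count 2) (p.2 1) *
        F c 3 (ds.count 3) (p.2 2) := by
  rw [mixedDeriv_sepField hF]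
  rfl

/-- Smoothness of a separated field. -/
theorem contDiff_sepField (hF : ∀ c i, IsTower (F c i)) : ContDiff ℝ ∞ (SepField F) := by
  rw [contDiff_pi]
  intro c
  unfold SepField
  have h0 : ContDiff ℝ ∞ (fun p : ℝ × (Fin 3 → ℝ) => F c 0 0 p.1) :=
    ((hF c 0).contDiff 0).comp contDiff_fst
  have h1 : ∀ (i : Fin 4) (r : Fin 3), ContDiff ℝ ∞ (fun p : ℝ × (Fin 3 → ℝ) => F c i 0 (p.2 r)) := by
    intro i r
    refine ((hF c i).contDiff 0).comp ?_
    exact (contDiff_apply ℝ ℝ r).comp contDiff_snd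
  exact ((h0.mul (h1 1 0)).mul (h1 2 1)).mul (h1 3 2)

end sep


/-! ### The fields of moves -/

lemma third_eq : ∀ {j l i : Fin 3}, j ≠ l → i ≠ j → i ≠ l → third j l = i := by
  decide

lemma third_ne_left : ∀ {j l : Fin 3}, j ≠ l → third j l ≠ j := by decide

lemma third_ne_right : ∀ {j l : Fin 3}, j ≠ l → third j l ≠ l := by decide

lemma fin3_cases (j : Fin 3) : j = 0 ∨ j = 1 ∨ j = 2 := by
  revert j; decide

lemma prod_three (φ : Fin 3 → ℝ) {j l : Fin 3} (h : j ≠ l) :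
    φ 0 * φ 1 * φ 2 = φ j * φ l * φ (third j l) := by
  rcases fin3_cases j with rfl | rfl | rfl <;> rcases fin3_cases l with rfl | rfl | rfl <;>
    first
      | exact absurd rfl h
      | (simp only [show third 0 1 = 2 by decide, show third 0 2 = 1 by decide,
            show third 1 0 = 2 by decide, show third 1 2 = 0 by decide,
            show third 2 0 = 1 by decide, show third 2 1 = 0 by decide] <;>
         ring)

lemma sum_three (φ : Fin 3 → ℝ) {j l : Fin 3} (h : j ≠ l) :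
    ∑ c, φ c = φ j + φ l + φ (third j l) := by
  rw [Fin.sum_univ_three]
  rcases fin3_cases j with rfl | rfl | rfl <;> rcases fin3_cases l with rfl | rfl | rfl <;>
    first
      | exact absurd rfl h
      | (simp only [show third 0 1 = 2 by decide, show third 0 2 = 1 by decide,
            show third 1 0 = 2 by decide, show third 1 2 = 0 by decide,
            show third 2 0 = 1 by decide, show third 2 1 = 0 by decide] <;>
         ring)

namespace Move

variable (mv : Move)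

theorem isTower_F (a b : ℚ) (c : Fin 3) (i : Fin 4) : IsTower (mv.F a b c i) := by
  unfold Move.F
  split_ifs
  all_goals first
    | exact isTower_timeT _ _
    | exact isTower_plateauT _ _ _
    | exact isTower_shiftT (isTower_qT _ _ _ _ _)
    | exact isTower_qT _ _ _ _ _
    | exact isTower_smulT (isTower_shiftT (isTower_plateauT _ _ _)) _
    | exact isTower_zeroT

theorem contDiff_field (a b : ℚ) : ContDiff ℝ ∞ (mv.field a b) :=
  contDiff_sepField (mv.isTower_F a b)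

/-! #### Values of the factors -/

lemma j_succ_ne_zero (i : Fin 3) : i.succ ≠ (0 : Fin 4) := Fin.succ_ne_zero i

lemma F_time (a b : ℚ) {c : Fin 3} (hc : c = mv.j ∨ c = mv.l) : mv.F a b c 0 = timeT a b := by
  unfold Move.F
  rcases hc with rfl | rfl
  · simp
  · simp [mv.hjl.symm]

lemma F_other (a b : ℚ) {c : Fin 3} (h1 : c ≠ mv.j) (h2 : c ≠ mv.l) (i : Fin 4) :
    mv.F a b c i = zeroT := by
  unfold Move.F
  simp [h1, h2]

lemma F_j_j (a b : ℚ) : mv.F a b mv.j mv.j.succ =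
    plateauT (mv.lo mv.j) (mv.hi mv.j) mv.ε := by
  unfold Move.F
  simp

lemma F_j_l (a b : ℚ) : mv.F a b mv.j mv.l.succ =
    shiftT (qT mv.α mv.s (mv.lo mv.l) (mv.hi mv.l) mv.ε) := by
  unfold Move.F
  simp [mv.hjl.symm]

lemma F_j_m (a b : ℚ) : mv.F a b mv.j (third mv.j mv.l).succ =
    plateauT (mv.lo (third mv.j mv.l)) (mv.hi (third mv.j mv.l)) mv.ε := by
  unfold Move.F
  simp [third_ne_left mv.hjl, third_ne_right mv.hjl]

lemma F_l_j (a b : ℚ) : mv.F a b mv.l mv.j.succ =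
    smulT (-1) (shiftT (plateauT (mv.lo mv.j) (mv.hi mv.j) mv.ε)) := by
  unfold Move.F
  simp [mv.hjl.symm]

lemma F_l_l (a b : ℚ) : mv.F a b mv.l mv.l.succ =
    qT mv.α mv.s (mv.lo mv.l) (mv.hi mv.l) mv.ε := by
  unfold Move.F
  simp [mv.hjl.symm]

lemma F_l_m (a b : ℚ) : mv.F a b mv.l (third mv.j mv.l).succ =
    plateauT (mv.lo (third mv.j mv.l)) (mv.hi (third mv.j mv.l)) mv.ε := by
  unfold Move.F
  simp [mv.hjl.symm, third_ne_left mv.hjl, third_ne_right mv.hjl]

/-- The field in the form of a product over the moving indices. -/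
lemma field_apply (a b : ℚ) (t : ℝ) (y : Fin 3 → ℝ) (c : Fin 3) :
    mv.field a b (t, y) c = mv.F a b c 0 0 t *
      (mv.F a b c mv.j.succ 0 (y mv.j) * mv.F a b c mv.l.succ 0 (y mv.l) *
        mv.F a b c (third mv.j mv.l).succ 0 (y (third mv.j mv.l))) := by
  have := prod_three (fun i : Fin 3 => mv.F a b c i.succ 0 (y i)) mv.hjl
  rw [← this]
  simp only [Move.field, SepField]
  simp only [Fin.succ_zero_eq_one, Fin.succ_one_eq_two]
  have h3 : (Fin.succ (2 : Fin 3) : Fin 4) = 3 := rfl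
  rw [h3]
  ring

/-- Vanishing in time. -/
lemma F_zero_time {a b : ℚ} (hab : a < b) {t : ℝ} (ht : t ≤ (a : ℝ) ∨ (b : ℝ) ≤ t) (c : Fin 3) :
    mv.F a b c 0 0 t = 0 := by
  by_cases h : c = mv.j ∨ c = mv.l
  · rw [mv.F_time a b h]
    rcases ht with ht | ht
    · exact timeT_eq_zero_of_le hab ht 0
    · exact timeT_eq_zero_of_ge hab ht 0
  · push Not at h
    rw [mv.F_other a b h.1 h.2]
    rfl

theorem field_eq_zero_of_time {a b : ℚ} (hab : a < b) {t : ℝ} (ht : t ≤ (a : ℝ) ∨ (b : ℝ) ≤ t)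
    (y : Fin 3 → ℝ) : mv.field a b (t, y) = 0 := by
  funext c
  rw [field_apply, mv.F_zero_time hab ht]
  simp

/-- The plateau tower of coordinate `i` vanishes identically at an `Outer` coordinate. -/
lemma plateau_outer {i : Fin 3} {v : ℝ}
    (hv : v ≤ (mv.lo i : ℝ) - mv.ε ∨ (mv.hi i : ℝ) + mv.ε ≤ v) (m : ℕ) :
    plateauT (mv.lo i) (mv.hi i) mv.ε m v = 0 := by
  rcases hv with hv | hv
  · exact plateau_eq_zero_of_le mv.hε (mv.hlohi i) hv m
  · exact plateau_eq_zero_of_ge mv.hε (mv.hlohi i) hv m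

lemma eq_j_or_l_or_third (i : Fin 3) : i = mv.j ∨ i = mv.l ∨ i = third mv.j mv.l := by
  by_cases h1 : i = mv.j
  · exact Or.inl h1
  by_cases h2 : i = mv.l
  · exact Or.inr (Or.inl h2)
  · exact Or.inr (Or.inr (third_eq mv.hjl h1 h2).symm)

theorem field_eq_zero_of_outer (a b : ℚ) (t : ℝ) {y : Fin 3 → ℝ} (hy : mv.Outer y) :
    mv.field a b (t, y) = 0 := by
  funext c
  rw [field_apply]
  obtain ⟨i, hi⟩ := hy
  have hzero := mv.plateau_outer hi
  by_cases hc : c = mv.j ∨ c = mv.l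
  · rcases hc with rfl | rfl
    · rcases mv.eq_j_or_l_or_third i with rfl | rfl | h
      · rw [F_j_j, hzero]; simp
      · rw [F_j_l]
        simp only [shiftT]
        rw [qT_eq_zero hzero]; simp
      · rw [h] at hi hzero
        rw [F_j_m, hzero]; simp
    · rcases mv.eq_j_or_l_or_third i with rfl | rfl | h
      · rw [F_l_j]
        simp only [smulT, shiftT]
        rw [hzero]; simp
      · rw [F_l_l, qT_eq_zero hzero]; simp
      · rw [h] at hi hzero
        rw [F_l_m, hzero]; simp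
  · push Not at hc
    rw [mv.F_other a b hc.1 hc.2]
    simp [zeroT]

theorem field_eq_of_inner (a b : ℚ) (t : ℝ) {y : Fin 3 → ℝ} (hy : mv.Inner y) :
    mv.field a b (t, y) = timeT a b 0 t • mv.V y := by
  funext c
  rw [field_apply]
  have hp0 : ∀ i, plateauT (mv.lo i) (mv.hi i) mv.ε 0 (y i) = 1 :=
    fun i => plateau_zero_eq_one mv.hε (hy i).1 (hy i).2
  have hp1 : ∀ i, plateauT (mv.lo i) (mv.hi i) mv.ε 1 (y i) = 0 :=
    fun i => plateau_one_eq_zero mv.hε (hy i).1 (hy i).2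
  by_cases hc : c = mv.j ∨ c = mv.l
  · rw [mv.F_time a b hc]
    rcases hc with rfl | rfl
    · rw [F_j_j, F_j_l, F_j_m, hp0, hp0]
      simp only [shiftT]
      rw [qT_one_eq mv.hε (hy mv.l).1 (hy mv.l).2]
      simp [Move.V]
    · rw [F_l_j]
      simp only [smulT, shiftT]
      rw [hp1]
      simp [Move.V, Function.update, mv.hjl.symm]
  · push Not at hc
    rw [mv.F_other a b hc.1 hc.2]
    simp [zeroT, Move.V, Function.update, hc.1]

/-- Compact support of the field of a move. -/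
theorem hasCompactSupport_field {a b : ℚ} (hab : a < b) : HasCompactSupport (mv.field a b) := by
  let K : Set (ℝ × (Fin 3 → ℝ)) := Set.Icc (a : ℝ) (b : ℝ) ×ˢ
    Set.Icc (fun i => (mv.lo i : ℝ) - mv.ε) (fun i => (mv.hi i : ℝ) + mv.ε)
  have hK : IsCompact K := isCompact_Icc.prod isCompact_Icc
  refine HasCompactSupport.intro hK ?_
  rintro ⟨t, y⟩ hp
  by_cases ht : t ∈ Set.Icc (a : ℝ) (b : ℝ)
  · have hy : y ∉ Set.Icc (fun i => (mv.lo i : ℝ) - mv.ε) (fun i => (mv.hi i : ℝ) + mv.ε) :=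
      fun hy => hp ⟨ht, hy⟩
    have hy' : ∃ i, y i ≤ (mv.lo i : ℝ) - mv.ε ∨ (mv.hi i : ℝ) + mv.ε ≤ y i := by
      by_contra hcon
      push Not at hcon
      exact hy ⟨fun i => (hcon i).1.le, fun i => (hcon i).2.le⟩
    exact mv.field_eq_zero_of_outer a b t hy'
  · have ht' : t ≤ (a : ℝ) ∨ (b : ℝ) ≤ t := by
      by_contra hcon
      push Not at hcon
      exact ht ⟨hcon.1.le, hcon.2.le⟩
    exact mv.field_eq_zero_of_time hab ht' y

/-- The field of a move is divergence free. -/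
theorem spaceDiv_field (a b : ℚ) (p : ℝ × (Fin 3 → ℝ)) : spaceDiv (mv.field a b) p = 0 := by
  have hT := mv.isTower_F a b
  let ψ : Fin 3 → Fin 3 → ℝ := fun c i => mv.F a b c i.succ (if i = c then 1 else 0) (p.2 i)
  have hterm : ∀ c : Fin 3, fderiv ℝ (mv.field a b) p ((0 : ℝ), Pi.single c (1 : ℝ)) c =
      mv.F a b c 0 0 p.1 * (ψ c 0 * ψ c 1 * ψ c 2) := by
    intro c
    have h := mixedDeriv_sepField_apply hT [c.succ] p c
    have h' : mixedDeriv [c.succ] (SepField (mv.F a b)) p =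
        fderiv ℝ (SepField (mv.F a b)) p ((0 : ℝ), Pi.single c (1 : ℝ)) := by
      show fderiv ℝ (mixedDeriv [] (SepField (mv.F a b))) p (direction c.succ) = _
      rw [direction_succ]
      rfl
    rw [h'] at h
    show fderiv ℝ (SepField (mv.F a b)) p ((0 : ℝ), Pi.single c (1 : ℝ)) c = _
    rw [h]
    simp only [ψ]
    rcases fin3_cases c with rfl | rfl | rfl <;> simp [List.count_cons] <;> ring
  unfold spaceDiv
  simp only [hterm]
  rw [sum_three _ mv.hjl]
  rw [prod_three (ψ mv.j) mv.hjl, prod_three (ψ mv.l) mv.hjl]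
  have hthird : mv.F a b (third mv.j mv.l) 0 = zeroT :=
    mv.F_other a b (third_ne_left mv.hjl) (third_ne_right mv.hjl) 0
  rw [hthird]
  simp only [ψ, if_true, third_ne_left mv.hjl, third_ne_right mv.hjl, mv.hjl, mv.hjl.symm, if_false]
  rw [mv.F_time a b (Or.inl rfl), mv.F_time a b (Or.inr rfl)]
  rw [F_j_j, F_j_l, F_j_m, F_l_j, F_l_l, F_l_m]
  simp only [smulT, shiftT, zeroT]
  push_cast
  ring

end Move

end Crest.Agent.Lib.BF
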