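import Crest.Agent.Lib.BF.EffField
import Crest.Agent.Lib.BF.Towers
import Crest.Agent.Lib.BF.Flow

/-!
# The fields of lists of moves are effective (helper2)
-/

open Crest.AnalysisR.BoxFlow
open scoped ContDiff

namespace Crest.Agent.Lib.BF

theorem suppT_plateau {lo hi ε : ℚ} (hε : 0 < ε) (hlh : lo ≤ hi) : SuppT (plateauT lo hi ε) := by
  refine ⟨natB (lo - ε) + natB (hi + ε), fun m y hy => ?_⟩
  have h1 := abs_le_natB (lo - ε)
  have h2 := abs_le_natB (hi + ε)
  have n1 : (0 : ℝ) ≤ (natB (lo - ε) : ℝ) := Nat.cast_nonneg _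
  have n2 : (0 : ℝ) ≤ (natB (hi + ε) : ℝ) := Nat.cast_nonneg _
  push_cast at hy h1 h2
  rcases le_abs'.1 hy with h | h
  · apply plateau_eq_zero_of_le hε hlh
    have := (abs_le.1 h1).1
    linarith
  · apply plateau_eq_zero_of_ge hε hlh
    have := (abs_le.1 h2).2
    linarith

theorem approxT_plateau (lo hi ε : ℚ) : ApproxT (plateauT lo hi ε) :=
  ApproxT.sub (ApproxT.scale _ _ approxT_St) (ApproxT.scale _ _ approxT_St)

theorem boundT_plateau (lo hi ε : ℚ) : BoundT (plateauT lo hi ε) :=
  BoundT.sub (BoundT.scale _ _ boundT_St) (BoundT.scale _ _ boundT_St)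

theorem approxT_qT (α s lo hi ε : ℚ) : ApproxT (qT α s lo hi ε) :=
  ApproxT.add (ApproxT.smul _ (ApproxT.xmul (approxT_plateau _ _ _)))
    (ApproxT.smul _ (ApproxT.xmul (ApproxT.xmul (approxT_plateau _ _ _))))

theorem boundT_qT (α s : ℚ) {lo hi ε : ℚ} (hε : 0 < ε) (hlh : lo ≤ hi) : BoundT (qT α s lo hi ε) :=
  BoundT.add (BoundT.smul _ (BoundT.xmul (boundT_plateau _ _ _) (suppT_plateau hε hlh)))
    (BoundT.smul _ (BoundT.xmul (BoundT.xmul (boundT_plateau _ _ _) (suppT_plateau hε hlh))
      (suppT_plateau hε hlh).xmul))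

theorem approxT_timeT (a b : ℚ) : ApproxT (timeT a b) :=
  ApproxT.shift (ApproxT.scale _ _ approxT_St)

theorem boundT_timeT (a b : ℚ) : BoundT (timeT a b) :=
  BoundT.shift (BoundT.scale _ _ boundT_St)

theorem Move.approxT_F (mv : Move) (a b : ℚ) (c : Fin 3) (i : Fin 4) : ApproxT (mv.F a b c i) := by
  unfold Move.F
  split_ifs
  · exact approxT_timeT _ _
  · exact approxT_plateau _ _ _
  · exact ApproxT.shift (approxT_qT _ _ _ _ _)
  · exact approxT_plateau _ _ _
  · exact approxT_timeT _ _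
  · exact ApproxT.smul _ (ApproxT.shift (approxT_plateau _ _ _))
  · exact approxT_qT _ _ _ _ _
  · exact approxT_plateau _ _ _
  · exact ApproxT.zero

theorem Move.boundT_F (mv : Move) (a b : ℚ) (c : Fin 3) (i : Fin 4) : BoundT (mv.F a b c i) := by
  unfold Move.F
  split_ifs
  · exact boundT_timeT _ _
  · exact boundT_plateau _ _ _
  · exact BoundT.shift (boundT_qT _ _ mv.hε (mv.hlohi _))
  · exact boundT_plateau _ _ _
  · exact boundT_timeT _ _
  · exact BoundT.smul _ (BoundT.shift (boundT_plateau _ _ _))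
  · exact boundT_qT _ _ mv.hε (mv.hlohi _)
  · exact boundT_plateau _ _ _
  · exact BoundT.zero

theorem Move.effective_field (mv : Move) (a b : ℚ) : Effective (mv.field a b) :=
  effective_of_formula _ (mv.F a b) (mv.approxT_F a b) (mv.boundT_F a b)
    (mixedDeriv_sepField_apply (mv.isTower_F a b))

theorem contDiff_effective_listFieldAux (N : ℕ) (L : List Move) :
    ∀ k, ContDiff ℝ ∞ (listFieldAux N k L) ∧ Effective (listFieldAux N k L) := by
  induction L with
  | nil =>
    intro k
    exact ⟨contDiff_const, effective_zero⟩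
  | cons mv L ih =>
    intro k
    obtain ⟨h1, h2⟩ := ih (k + 1)
    have hc := mv.contDiff_field (win N k) (win N (k + 1))
    exact ⟨hc.add h1, effective_add hc h1 (mv.effective_field _ _) h2⟩

theorem effective_listField (L : List Move) : Effective (listField L) :=
  (contDiff_effective_listFieldAux L.length L 0).2

end Crest.Agent.Lib.BF
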