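import Mathlib
import Crest.Agent.Lib.BF.Core

/-!
# S0170, task A: the combinatorial geometry of the moves.
-/

open Crest.AnalysisR.BoxFlow

namespace Crest.Agent.Lib.BF

namespace Geo

/-! ### Generalities on `Step` and `Trace` -/

lemma add_V (mv : Move) (y : Fin 3 → ℝ) :
    y + mv.V y = Function.update y mv.j (y mv.j + ((mv.α : ℝ) + (mv.s : ℝ) * y mv.l)) := by
  funext i
  by_cases h : i = mv.j
  · subst h
    simp [Move.V]
  · simp [Move.V, Function.update_of_ne h]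

lemma step_of_inner (mv : Move) {y : Fin 3 → ℝ} (hy : mv.Inner y) (hy' : mv.Inner (y + mv.V y)) :
    mv.Step y (y + mv.V y) := by
  refine Or.inl ⟨?_, rfl⟩
  intro σ h0 h1 i
  have h2 := hy i
  have h3 := hy' i
  simp only [Pi.add_apply, Pi.smul_apply, smul_eq_mul] at h3 ⊢
  have h4 : 0 ≤ 1 - σ := by linarith
  constructor
  · nlinarith [mul_le_mul_of_nonneg_left h2.1 h4, mul_le_mul_of_nonneg_left h3.1 h0]
  · nlinarith [mul_le_mul_of_nonneg_left h2.2 h4, mul_le_mul_of_nonneg_left h3.2 h0]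

lemma step_inv {mv : Move} {y y' : Fin 3 → ℝ} (h : mv.Step y y') : mv.inv.Step y' y := by
  rcases h with ⟨hp, rfl⟩ | ⟨ho, rfl⟩
  · left
    have hl : (y + mv.V y) mv.l = y mv.l := by
      rw [add_V, Function.update_of_ne mv.hjl.symm]
    have hV : mv.inv.V (y + mv.V y) = - mv.V y := by
      have e1 : mv.inv.j = mv.j := rfl
      have e2 : mv.inv.l = mv.l := rfl
      have e3 : mv.inv.α = -mv.α := rfl
      have e4 : mv.inv.s = -mv.s := rfl
      generalize y + mv.V y = z at hl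
      funext i
      by_cases h : i = mv.j
      · subst h
        simp only [Move.V, e1, e2, e3, e4, hl, Pi.neg_apply, Function.update_self]
        push_cast
        ring
      · simp only [Move.V, e1, Pi.neg_apply, Function.update_of_ne h, Pi.zero_apply, neg_zero]
    refine ⟨?_, ?_⟩
    · intro σ h0 h1
      rw [hV]
      have := hp (1 - σ) (by linarith) (by linarith)
      have e : (y + mv.V y + σ • (- mv.V y)) = y + (1 - σ) • mv.V y := by
        funext i
        simp only [Pi.add_apply, Pi.smul_apply, Pi.neg_apply, smul_eq_mul]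
        ring
      rw [e]
      exact this
    · rw [hV]
      simp
  · right
    exact ⟨ho, rfl⟩

lemma trace_append {L₁ L₂ : List Move} {x y z : Fin 3 → ℝ} (h₁ : Trace L₁ x y) (h₂ : Trace L₂ y z) :
    Trace (L₁ ++ L₂) x z := by
  induction h₁ with
  | nil y => exact h₂
  | cons hs _ ih => exact Trace.cons hs (ih h₂)

lemma trace_reverse {L : List Move} {x y : Fin 3 → ℝ} (h : Trace L x y) :
    Trace (L.reverse.map Move.inv) y x := by
  induction h with
  | nil y => exact Trace.nil y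
  | @cons mv L y y' y'' hs _ ih =>
    rw [List.reverse_cons, List.map_append]
    refine trace_append ih ?_
    exact Trace.cons (step_inv hs) (Trace.nil _)

/-! ### Regions -/

/-- A region: shared data of a sequence of moves. -/
structure Reg where
  lo : Fin 3 → ℚ
  hi : Fin 3 → ℚ
  ε : ℚ
  hε : 0 < ε
  hlohi : ∀ i, lo i ≤ hi i

/-- A move in the region. -/
def Reg.mv (R : Reg) (j l : Fin 3) (hjl : j ≠ l) (α s : ℚ) : Move :=
  ⟨j, l, hjl, α, s, R.lo, R.hi, R.ε, R.hε, R.hlohi⟩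

def Reg.In (R : Reg) (y : Fin 3 → ℝ) : Prop := ∀ i, (R.lo i : ℝ) ≤ y i ∧ y i ≤ (R.hi i : ℝ)

def Reg.Out (R : Reg) (y : Fin 3 → ℝ) : Prop :=
  ∃ i, y i ≤ (R.lo i : ℝ) - R.ε ∨ (R.hi i : ℝ) + R.ε ≤ y i

lemma Reg.step_out (R : Reg) {y : Fin 3 → ℝ} (h : R.Out y) (j l : Fin 3) (hjl : j ≠ l) (α s : ℚ) :
    (R.mv j l hjl α s).Step y y := Or.inr ⟨h, rfl⟩

lemma Reg.step_in (R : Reg) (j l : Fin 3) (hjl : j ≠ l) (α s : ℚ) {y : Fin 3 → ℝ} (h : R.In y)
    (h' : R.In (y + (R.mv j l hjl α s).V y)) :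
    (R.mv j l hjl α s).Step y (y + (R.mv j l hjl α s).V y) :=
  step_of_inner _ h h'

/-! ### The planar chain of four shears -/

/-- The chain realising `diag (r, 1/r)` in the coordinates `(j, l)` around the centre `c`. -/
def plane (R : Reg) (c : Fin 3 → ℚ) (j l : Fin 3) (hjl : j ≠ l) (r : ℚ) : List Move :=
  [R.mv j l hjl (-(-1 / r) * c l) (-1 / r),
   R.mv l j hjl.symm (-(r - 1) * c j) (r - 1),
   R.mv j l hjl (-1 * c l) 1,
   R.mv l j hjl.symm (-(-(r - 1) / r) * c j) (-(r - 1) / r)]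

lemma plane_out (R : Reg) (c : Fin 3 → ℚ) (j l : Fin 3) (hjl : j ≠ l) (r : ℚ) {y : Fin 3 → ℝ}
    (h : R.Out y) : Trace (plane R c j l hjl r) y y :=
  Trace.cons (R.step_out h _ _ _ _ _) (Trace.cons (R.step_out h _ _ _ _ _)
    (Trace.cons (R.step_out h _ _ _ _ _) (Trace.cons (R.step_out h _ _ _ _ _) (Trace.nil _))))

/-- The point with prescribed `j` and `l` coordinates (relative to the centre) and
with the remaining coordinate taken from `y`. -/
def Q (y : Fin 3 → ℝ) (c : Fin 3 → ℚ) (j l : Fin 3) (a b : ℝ) : Fin 3 → ℝ :=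
  fun i => if i = j then (c j : ℝ) + a else if i = l then (c l : ℝ) + b else y i

lemma Q_j (y : Fin 3 → ℝ) (c : Fin 3 → ℚ) (j l : Fin 3) (a b : ℝ) : Q y c j l a b j = c j + a := by
  simp [Q]

lemma Q_l (y : Fin 3 → ℝ) (c : Fin 3 → ℚ) {j l : Fin 3} (hjl : j ≠ l) (a b : ℝ) :
    Q y c j l a b l = c l + b := by
  simp [Q, hjl.symm]

lemma Q_other (y : Fin 3 → ℝ) (c : Fin 3 → ℚ) {j l i : Fin 3} (hj : i ≠ j) (hl : i ≠ l) (a b : ℝ) :
    Q y c j l a b i = y i := by
  simp [Q, hj, hl]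

lemma Q_self (y : Fin 3 → ℝ) (c : Fin 3 → ℚ) (j l : Fin 3) (hjl : j ≠ l) :
    Q y c j l (y j - c j) (y l - c l) = y := by
  funext i
  by_cases h1 : i = j
  · subst h1
    rw [Q_j]
    ring
  · by_cases h2 : i = l
    · subst h2
      rw [Q_l _ _ hjl]
      ring
    · rw [Q_other _ _ h1 h2]

lemma Q_add_j (R : Reg) (y : Fin 3 → ℝ) (c : Fin 3 → ℚ) {j l : Fin 3} (hjl : j ≠ l) (β : ℚ) (a b : ℝ) :
    Q y c j l a b + (R.mv j l hjl (-β * c l) β).V (Q y c j l a b) = Q y c j l (a + β * b) b := by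
  funext i
  by_cases h1 : i = j
  · subst h1
    simp only [Pi.add_apply, Move.V, Reg.mv, Function.update_self, Q_j, Q_l _ _ hjl]
    push_cast
    ring
  · simp only [Pi.add_apply, Move.V, Reg.mv, Function.update_of_ne h1, Pi.zero_apply, add_zero]
    by_cases h2 : i = l
    · subst h2
      rw [Q_l _ _ hjl, Q_l _ _ hjl]
    · rw [Q_other _ _ h1 h2, Q_other _ _ h1 h2]

lemma Q_add_l (R : Reg) (y : Fin 3 → ℝ) (c : Fin 3 → ℚ) {j l : Fin 3} (hjl : j ≠ l) (β : ℚ) (a b : ℝ) :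
    Q y c j l a b + (R.mv l j hjl.symm (-β * c j) β).V (Q y c j l a b) = Q y c j l a (b + β * a) := by
  funext i
  by_cases h1 : i = l
  · subst h1
    simp only [Pi.add_apply, Move.V, Reg.mv, Function.update_self, Q_j, Q_l _ _ hjl]
    push_cast
    ring
  · simp only [Pi.add_apply, Move.V, Reg.mv, Function.update_of_ne h1, Pi.zero_apply, add_zero]
    by_cases h2 : i = j
    · subst h2
      rw [Q_j, Q_j]
    · rw [Q_other _ _ h2 h1, Q_other _ _ h2 h1]

lemma Q_in (R : Reg) (y : Fin 3 → ℝ) (c : Fin 3 → ℚ) {W : ℝ} (j l : Fin 3)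
    (hcube : ∀ i, (R.lo i : ℝ) ≤ c i - W ∧ (c i : ℝ) + W ≤ R.hi i)
    (hy : ∀ i, |y i - c i| ≤ W) {a b : ℝ} (ha : |a| ≤ W) (hb : |b| ≤ W) :
    R.In (Q y c j l a b) := by
  intro i
  have h := hcube i
  have hy' := abs_le.1 (hy i)
  have ha' := abs_le.1 ha
  have hb' := abs_le.1 hb
  simp only [Q]
  split_ifs with h1 h2
  · subst h1
    constructor <;> linarith [h.1, h.2, ha'.1, ha'.2]
  · subst h2
    constructor <;> linarith [h.1, h.2, hb'.1, hb'.2]
  · constructor <;> linarith [h.1, h.2, hy'.1, hy'.2]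

theorem plane_trace (R : Reg) (c : Fin 3 → ℚ) {j l : Fin 3} (hjl : j ≠ l) {r : ℚ} (hr : 0 < r)
    {W m : ℝ} (hcube : ∀ i, (R.lo i : ℝ) ≤ c i - W ∧ (c i : ℝ) + W ≤ R.hi i)
    {y : Fin 3 → ℝ} (hy : ∀ i, |y i - c i| ≤ W) (hj : |y j - c j| ≤ m) (hl : |y l - c l| ≤ m)
    (hm : ((r : ℝ) + 1 + 1 / r) * m ≤ W) :
    Trace (plane R c j l hjl r) y (Q y c j l (r * (y j - c j)) ((y l - c l) / r)) := by
  have hρ : (0 : ℝ) < r := by exact_mod_cast hr
  set ρ : ℝ := (r : ℝ) with hρdef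
  have hm0 : 0 ≤ m := (abs_nonneg _).trans hj
  set ι : ℝ := 1 / ρ with hι
  have hι0 : 0 < ι := by positivity
  have hρι : ρ * ι = 1 := by
    rw [hι]
    field_simp
  set u : ℝ := y j - c j with hu
  set v : ℝ := y l - c l with hv
  have hu' := abs_le.1 hj
  have hv' := abs_le.1 hl
  -- products
  have h1 : -(m * ι) ≤ v * ι ∧ v * ι ≤ m * ι := by
    constructor
    · nlinarith [mul_le_mul_of_nonneg_right hv'.1 hι0.le]
    · exact mul_le_mul_of_nonneg_right hv'.2 hι0.le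
  have h2 : -(ρ * m) ≤ ρ * u ∧ ρ * u ≤ ρ * m := by
    constructor
    · nlinarith [mul_le_mul_of_nonneg_left hu'.1 hρ.le]
    · exact mul_le_mul_of_nonneg_left hu'.2 hρ.le
  have hm' : ρ * m + m + m * ι ≤ W := by
    have : (ρ + 1 + ι) * m = ρ * m + m + m * ι := by ring
    linarith
  have h3 : 0 ≤ ρ * m := by positivity
  have h4 : 0 ≤ m * ι := by positivity
  have hQ0 := Q_self y c j l hjl
  have hcast1 : (((-1 / r : ℚ)) : ℝ) = -ι := by
    rw [hι]
    push_cast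
    ring
  have hcast2 : (((r - 1 : ℚ)) : ℝ) = ρ - 1 := by
    push_cast
    rfl
  have hcast3 : (((-(r - 1) / r : ℚ)) : ℝ) = -(ρ - 1) * ι := by
    rw [hι]
    push_cast
    ring
  -- the stage points
  have hin0 : R.In (Q y c j l u v) := Q_in R y c j l hcube hy
    (abs_le.2 ⟨by linarith [hu'.1], by linarith [hu'.2]⟩) (abs_le.2 ⟨by linarith [hv'.1], by linarith [hv'.2]⟩)
  have ha1 : |u - v * ι| ≤ W := abs_le.2 ⟨by linarith [hu'.1, h1.2], by linarith [hu'.2, h1.1]⟩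
  have hb2 : |ρ * u - u + v * ι| ≤ W :=
    abs_le.2 ⟨by linarith [hu'.2, h1.1, h2.1], by linarith [hu'.1, h1.2, h2.2]⟩
  have ha3 : |ρ * u| ≤ W := abs_le.2 ⟨by linarith [h2.1], by linarith [h2.2]⟩
  have hb4 : |v * ι| ≤ W := abs_le.2 ⟨by linarith [h1.1], by linarith [h1.2]⟩
  have hv3 : |v| ≤ W := abs_le.2 ⟨by linarith [hv'.1], by linarith [hv'.2]⟩
  have hin1 : R.In (Q y c j l (u - v * ι) v) := Q_in R y c j l hcube hy ha1 hv3
  have hin2 : R.In (Q y c j l (u - v * ι) (ρ * u - u + v * ι)) := Q_in R y c j l hcube hy ha1 hb2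
  have hin3 : R.In (Q y c j l (ρ * u) (ρ * u - u + v * ι)) := Q_in R y c j l hcube hy ha3 hb2
  have hin4 : R.In (Q y c j l (ρ * u) (v * ι)) := Q_in R y c j l hcube hy ha3 hb4
  have e1 : Q y c j l u v + (R.mv j l hjl (-(-1 / r) * c l) (-1 / r)).V (Q y c j l u v) =
      Q y c j l (u - v * ι) v := by
    rw [Q_add_j R y c hjl, hcast1]
    congr 1
    ring
  have e2 : Q y c j l (u - v * ι) v + (R.mv l j hjl.symm (-(r - 1) * c j) (r - 1)).V (Q y c j l (u - v * ι) v) =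
      Q y c j l (u - v * ι) (ρ * u - u + v * ι) := by
    rw [Q_add_l R y c hjl, hcast2]
    congr 1
    have : ρ * (v * ι) = v := by
      calc ρ * (v * ι) = v * (ρ * ι) := by ring
        _ = v := by rw [hρι, mul_one]
    linear_combination -this
  have e3 : Q y c j l (u - v * ι) (ρ * u - u + v * ι) +
      (R.mv j l hjl (-1 * c l) 1).V (Q y c j l (u - v * ι) (ρ * u - u + v * ι)) =
      Q y c j l (ρ * u) (ρ * u - u + v * ι) := by
    have := Q_add_j R y c hjl 1 (u - v * ι) (ρ * u - u + v * ι)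
    rw [this]
    congr 1
    push_cast
    ring
  have e4 : Q y c j l (ρ * u) (ρ * u - u + v * ι) +
      (R.mv l j hjl.symm (-(-(r - 1) / r) * c j) (-(r - 1) / r)).V (Q y c j l (ρ * u) (ρ * u - u + v * ι)) =
      Q y c j l (ρ * u) (v * ι) := by
    rw [Q_add_l R y c hjl, hcast3]
    congr 1
    have : ρ * (u * ι) = u := by
      calc ρ * (u * ι) = u * (ρ * ι) := by ring
        _ = u := by rw [hρι, mul_one]
    have h5 : -(ρ - 1) * ι * (ρ * u) = -(ρ * u) + u := by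
      calc -(ρ - 1) * ι * (ρ * u) = -(ρ * u) * (ρ * ι) + ρ * (u * ι) := by ring
        _ = -(ρ * u) + u := by rw [hρι, this]; ring
    rw [h5]
    ring
  have s1 := R.step_in j l hjl (-(-1 / r) * c l) (-1 / r) hin0 (by rw [e1]; exact hin1)
  have s2 := R.step_in l j hjl.symm (-(r - 1) * c j) (r - 1) hin1 (by rw [e2]; exact hin2)
  have s3 := R.step_in j l hjl (-1 * c l) 1 hin2 (by rw [e3]; exact hin3)
  have s4 := R.step_in l j hjl.symm (-(-(r - 1) / r) * c j) (-(r - 1) / r) hin3 (by rw [e4]; exact hin4)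
  rw [e1] at s1
  rw [e2] at s2
  rw [e3] at s3
  rw [e4] at s4
  rw [hQ0] at hin0 s1
  have hfinal : (v / ρ) = v * ι := by
    rw [hι]
    ring
  rw [hfinal]
  exact Trace.cons s1 (Trace.cons s2 (Trace.cons s3 (Trace.cons s4 (Trace.nil _))))

/-! ### The trips -/

lemma forall_fin3 {p : Fin 3 → Prop} : (∀ k, p k) ↔ p 0 ∧ p 1 ∧ p 2 :=
  ⟨fun h => ⟨h 0, h 1, h 2⟩, fun ⟨h0, h1, h2⟩ k => by
    fin_cases k
    exacts [h0, h1, h2]⟩

lemma exists_fin3 {p : Fin 3 → Prop} : (∃ k, p k) ↔ p 0 ∨ p 1 ∨ p 2 :=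
  ⟨fun ⟨k, h⟩ => by
    fin_cases k
    exacts [Or.inl h, Or.inr (Or.inl h), Or.inr (Or.inr h)],
   fun h => by
    rcases h with h | h | h
    exacts [⟨0, h⟩, ⟨1, h⟩, ⟨2, h⟩]⟩

/-- The slot of the box with index `i`. -/
def slot {n : ℕ} (T : ℚ) (i : Fin n) : Fin 3 → ℚ := ![T, 0, T * (((i : ℕ) : ℚ) + 1)]

/-- All the constants. -/
structure Ctx (n : ℕ) where
  c : Fin n → Fin 3 → ℚ
  w : Fin n → Fin 3 → ℚ
  D : Fin n → Fin 3 → ℚ
  hw : ∀ i j, 0 < w i j
  hD : ∀ i j, 0 < D i j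
  hdet : ∀ i, D i 0 * D i 1 * D i 2 = 1
  ε : ℚ
  hε : 0 < ε
  hsep : ∀ i i', i ≠ i' → ∃ j, w i j + w i' j + ε ≤ |c i j - c i' j|
  T : ℚ
  W : ℚ
  M : ℚ
  hM : ∀ i k, |c i k| + w i k ≤ M
  hW1 : ∀ i, (D i 0 + 1 + 1 / D i 0) * (w i 0 + w i 1) ≤ W
  hW2 : ∀ i, (D i 0 * D i 1 + 1 + 1 / (D i 0 * D i 1)) * (w i 1 / D i 0 + w i 2) ≤ W
  hW3 : ∀ i k, w i k ≤ W
  hW4 : ∀ i k, D i k * w i k ≤ W
  hT : M + 2 * W + ε + 1 ≤ T

namespace Ctx

variable {n : ℕ} (C : Ctx n)

def s (i : Fin n) : Fin 3 → ℚ := slot C.T i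

def B : ℚ := C.T + C.M + C.W + 1

lemma W_pos (i : Fin n) : 0 < C.W := (C.hw i 0).trans_le (C.hW3 i 0)

lemma M_pos (i : Fin n) : 0 < C.M := by
  have h1 := C.hM i 0
  have h2 := C.hw i 0
  have h3 := abs_nonneg (C.c i 0)
  linarith

lemma T_pos (i : Fin n) : 0 < C.T := by
  have h1 := C.hT
  have h2 := C.M_pos i
  have h3 := C.W_pos i
  have h4 := C.hε
  linarith

lemma s_zero (i : Fin n) : C.s i 0 = C.T := rfl

lemma s_one (i : Fin n) : C.s i 1 = 0 := rfl

lemma s_two (i : Fin n) : C.s i 2 = C.T * (((i : ℕ) : ℚ) + 1) := rfl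

lemma T_le_s (i : Fin n) : C.T ≤ C.s i 2 := by
  rw [s_two]
  have h1 := C.T_pos i
  have h2 : (0 : ℚ) ≤ ((i : ℕ) : ℚ) := Nat.cast_nonneg _
  nlinarith

lemma s_lt {i q : Fin n} (h : (i : ℕ) < q) : C.s i 2 + C.T ≤ C.s q 2 := by
  rw [s_two, s_two]
  have h1 := C.T_pos i
  have h2 : ((i : ℕ) : ℚ) + 1 ≤ ((q : ℕ) : ℚ) := by exact_mod_cast h
  nlinarith

/-- The region of the high slab. -/
def R (i : Fin n) : Reg where
  lo := ![-C.B, -C.B, C.s i 2 - C.W]
  hi := ![C.B, C.B, C.s i 2 + C.W]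
  ε := C.ε
  hε := C.hε
  hlohi := by
    have h1 := C.T_pos i
    have h2 := C.M_pos i
    have h3 := C.W_pos i
    have h4 : 0 < C.B := by
      unfold B
      linarith
    rw [forall_fin3]
    refine ⟨?_, ?_, ?_⟩
    · simp only [Matrix.cons_val_zero]
      linarith
    · simp only [Matrix.cons_val_one, Matrix.cons_val_zero]
      linarith
    · simp only [Matrix.cons_val]
      linarith

/-- The lift. -/
def lift (i : Fin n) : Move where
  j := 2
  l := 0
  hjl := by decide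
  α := C.s i 2 - C.c i 2
  s := 0
  lo := fun k => C.c i k - C.w i k
  hi := ![C.c i 0 + C.w i 0, C.c i 1 + C.w i 1, C.s i 2 + C.w i 2]
  ε := C.ε
  hε := C.hε
  hlohi := by
    have hw := C.hw i
    have h1 := C.T_le_s i
    have h2 := C.hT
    have h3 := C.hM i 2
    have h4 := C.W_pos i
    have h5 := C.hε
    have h6 := le_abs_self (C.c i 2)
    rw [forall_fin3]
    refine ⟨?_, ?_, ?_⟩
    · simp only [Matrix.cons_val_zero]
      linarith [hw 0]
    · simp only [Matrix.cons_val_one, Matrix.cons_val_zero]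
      linarith [hw 1]
    · simp only [Matrix.cons_val]
      linarith [hw 2]

/-- One trip. -/
def trip (i : Fin n) : List Move :=
  C.lift i :: (C.R i).mv 0 1 (by decide) (C.T - C.c i 0) 0 :: (C.R i).mv 1 0 (by decide) (-C.c i 1) 0 ::
    (plane (C.R i) (C.s i) 0 1 (by decide) (C.D i 0) ++
      plane (C.R i) (C.s i) 1 2 (by decide) (C.D i 0 * C.D i 1))

/-- The target position. -/
noncomputable def tgt (i : Fin n) (x : Fin 3 → ℝ) : Fin 3 → ℝ :=
  fun k => (C.s i k : ℝ) + (C.D i k : ℝ) * (x k - C.c i k)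

lemma R_in_iff (i : Fin n) (y : Fin 3 → ℝ) :
    (C.R i).In y ↔ ((-(C.B : ℝ) ≤ y 0 ∧ y 0 ≤ C.B) ∧ (-(C.B : ℝ) ≤ y 1 ∧ y 1 ≤ C.B) ∧
      ((C.s i 2 : ℝ) - C.W ≤ y 2 ∧ y 2 ≤ (C.s i 2 : ℝ) + C.W)) := by
  unfold Reg.In
  rw [forall_fin3]
  simp [R]

lemma lift_inner_iff (i : Fin n) (y : Fin 3 → ℝ) :
    (C.lift i).Inner y ↔ (((C.c i 0 : ℝ) - C.w i 0 ≤ y 0 ∧ y 0 ≤ (C.c i 0 : ℝ) + C.w i 0) ∧
      ((C.c i 1 : ℝ) - C.w i 1 ≤ y 1 ∧ y 1 ≤ (C.c i 1 : ℝ) + C.w i 1) ∧
      ((C.c i 2 : ℝ) - C.w i 2 ≤ y 2 ∧ y 2 ≤ (C.s i 2 : ℝ) + C.w i 2)) := by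
  unfold Move.Inner
  rw [forall_fin3]
  simp [lift]

lemma mem_box_iff {c w : Fin 3 → ℚ} {x : Fin 3 → ℝ} :
    x ∈ box c w ↔ ∀ k, -(w k : ℝ) ≤ x k - c k ∧ x k - c k ≤ w k := by
  exact forall_congr' fun k => abs_le

/-- Real forms of the inequalities on the constants. -/
lemma hM_real (i : Fin n) (k : Fin 3) : |(C.c i k : ℝ)| + C.w i k ≤ C.M := by
  exact_mod_cast C.hM i k

lemma hw_real (i : Fin n) (k : Fin 3) : (0 : ℝ) < C.w i k := by
  exact_mod_cast C.hw i k

lemma hD_real (i : Fin n) (k : Fin 3) : (0 : ℝ) < C.D i k := by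
  exact_mod_cast C.hD i k

lemma hW3_real (i : Fin n) (k : Fin 3) : (C.w i k : ℝ) ≤ C.W := by
  exact_mod_cast C.hW3 i k

lemma hW4_real (i : Fin n) (k : Fin 3) : (C.D i k : ℝ) * C.w i k ≤ C.W := by
  exact_mod_cast C.hW4 i k

lemma hT_real : (C.M : ℝ) + 2 * C.W + C.ε + 1 ≤ C.T := by
  exact_mod_cast C.hT

lemma hε_real : (0 : ℝ) < C.ε := by
  exact_mod_cast C.hε

lemma W_pos_real (i : Fin n) : (0 : ℝ) < C.W := by
  exact_mod_cast C.W_pos i

lemma M_pos_real (i : Fin n) : (0 : ℝ) < C.M := by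
  exact_mod_cast C.M_pos i

lemma T_le_s_real (i : Fin n) : (C.T : ℝ) ≤ C.s i 2 := by
  exact_mod_cast C.T_le_s i

lemma s_lt_real {i q : Fin n} (h : (i : ℕ) < q) : (C.s i 2 : ℝ) + C.T ≤ C.s q 2 := by
  exact_mod_cast C.s_lt h

lemma B_real : (C.B : ℝ) = C.T + C.M + C.W + 1 := by
  unfold B
  push_cast
  rfl

lemma cube (i : Fin n) (k : Fin 3) :
    ((C.R i).lo k : ℝ) ≤ C.s i k - C.W ∧ (C.s i k : ℝ) + C.W ≤ (C.R i).hi k := by
  have h1 := C.W_pos_real i
  have h2 := C.M_pos_real i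
  have h3 := C.hT_real
  have h4 := C.hε_real
  have h5 := C.B_real
  revert k
  rw [forall_fin3]
  refine ⟨?_, ?_, ?_⟩
  · simp [R, s_zero]
    constructor <;> linarith
  · simp [R, s_one]
    have h6 := C.T_pos i
    have h7 := C.M_pos i
    unfold B
    linarith
  · simp [R]

/-- Every point leaves along the trip from its box to its slot. -/
theorem trip_pushes (i : Fin n) {x : Fin 3 → ℝ} (hx : x ∈ box (C.c i) (C.w i)) :
    Trace (C.trip i) x (C.tgt i x) := by
  rw [mem_box_iff] at hx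
  have hW := C.W_pos_real i
  have hMp := C.M_pos_real i
  have hT := C.hT_real
  have hε := C.hε_real
  have hB := C.B_real
  have hs := C.T_le_s_real i
  have hw := C.hw_real i
  have hWw := C.hW3_real i
  have hM := C.hM_real i
  have hx0 := hx 0
  have hx1 := hx 1
  have hx2 := hx 2
  have ha0 := abs_le.1 (le_refl |(C.c i 0 : ℝ)|)
  have ha1 := abs_le.1 (le_refl |(C.c i 1 : ℝ)|)
  have ha2 := abs_le.1 (le_refl |(C.c i 2 : ℝ)|)
  have hM0 := hM 0
  have hM1 := hM 1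
  have hM2 := hM 2
  have hW0 := hWw 0
  have hW1 := hWw 1
  have hW2 := hWw 2
  have hw0 := hw 0
  have hw1 := hw 1
  have hw2 := hw 2
  set u0 : ℝ := x 0 - C.c i 0 with hu0
  set u1 : ℝ := x 1 - C.c i 1 with hu1
  set u2 : ℝ := x 2 - C.c i 2 with hu2
  -- the stage points
  let P1 : Fin 3 → ℝ := ![x 0, x 1, (C.s i 2 : ℝ) + u2]
  let P2 : Fin 3 → ℝ := ![(C.T : ℝ) + u0, x 1, (C.s i 2 : ℝ) + u2]
  let P3 : Fin 3 → ℝ := ![(C.T : ℝ) + u0, u1, (C.s i 2 : ℝ) + u2]
  -- the lift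
  have e1 : x + (C.lift i).V x = P1 := by
    rw [add_V]
    funext k
    revert k
    rw [forall_fin3]
    refine ⟨?_, ?_, ?_⟩
    · simp [lift, P1]
    · simp [lift, P1]
    · simp [lift, P1, hu2]
      ring
  have s1 : (C.lift i).Step x P1 := by
    rw [← e1]
    apply step_of_inner
    · rw [lift_inner_iff]
      refine ⟨⟨?_, ?_⟩, ⟨?_, ?_⟩, ⟨?_, ?_⟩⟩ <;> linarith
    · rw [e1, lift_inner_iff]
      simp only [P1, Matrix.cons_val]
      refine ⟨⟨?_, ?_⟩, ⟨?_, ?_⟩, ⟨?_, ?_⟩⟩ <;> linarith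
  have e2 : P1 + ((C.R i).mv 0 1 (by decide) (C.T - C.c i 0) 0).V P1 = P2 := by
    rw [add_V]
    funext k
    revert k
    rw [forall_fin3]
    refine ⟨?_, ?_, ?_⟩
    · simp [Reg.mv, P1, P2, hu0]
      ring
    · simp [Reg.mv, P1, P2]
    · simp [Reg.mv, P1, P2]
  have s2 : ((C.R i).mv 0 1 (by decide) (C.T - C.c i 0) 0).Step P1 P2 := by
    rw [← e2]
    apply Reg.step_in
    · rw [R_in_iff]
      simp only [P1, Matrix.cons_val]
      refine ⟨⟨?_, ?_⟩, ⟨?_, ?_⟩, ⟨?_, ?_⟩⟩ <;> linarith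
    · rw [e2, R_in_iff]
      simp only [P2, Matrix.cons_val]
      refine ⟨⟨?_, ?_⟩, ⟨?_, ?_⟩, ⟨?_, ?_⟩⟩ <;> linarith
  have e3 : P2 + ((C.R i).mv 1 0 (by decide) (-C.c i 1) 0).V P2 = P3 := by
    rw [add_V]
    funext k
    revert k
    rw [forall_fin3]
    refine ⟨?_, ?_, ?_⟩
    · simp [Reg.mv, P2, P3]
    · simp [Reg.mv, P2, P3, hu1]
      ring
    · simp [Reg.mv, P2, P3]
  have s3 : ((C.R i).mv 1 0 (by decide) (-C.c i 1) 0).Step P2 P3 := by
    rw [← e3]
    apply Reg.step_in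
    · rw [R_in_iff]
      simp only [P2, Matrix.cons_val]
      refine ⟨⟨?_, ?_⟩, ⟨?_, ?_⟩, ⟨?_, ?_⟩⟩ <;> linarith
    · rw [e3, R_in_iff]
      simp only [P3, Matrix.cons_val]
      refine ⟨⟨?_, ?_⟩, ⟨?_, ?_⟩, ⟨?_, ?_⟩⟩ <;> linarith
  -- the chains
  have hD0 := C.hD_real i 0
  have hD1 := C.hD_real i 1
  have hD2 := C.hD_real i 2
  have hcube := fun k => C.cube i k
  have hP3 : ∀ k, |P3 k - C.s i k| ≤ C.W := by
    rw [forall_fin3]
    refine ⟨?_, ?_, ?_⟩
    · simp only [P3, Matrix.cons_val, s_zero]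
      rw [abs_le]
      constructor <;> linarith
    · simp only [P3, Matrix.cons_val, s_one]
      rw [abs_le]
      push_cast
      constructor <;> linarith
    · simp only [P3, Matrix.cons_val]
      rw [abs_le]
      constructor <;> linarith
  have hP30 : P3 0 - C.s i 0 = u0 := by
    simp only [P3, Matrix.cons_val, s_zero]
    ring
  have hP31 : P3 1 - C.s i 1 = u1 := by
    simp only [P3, Matrix.cons_val, s_one]
    push_cast
    ring
  have hP32 : P3 2 - C.s i 2 = u2 := by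
    simp only [P3, Matrix.cons_val]
    ring
  have hm1 : (((C.D i 0 : ℚ) : ℝ) + 1 + 1 / (C.D i 0 : ℚ)) * ((C.w i 0 : ℝ) + C.w i 1) ≤ C.W := by
    exact_mod_cast C.hW1 i
  have t1 := plane_trace (C.R i) (C.s i) (j := 0) (l := 1) (by decide) (C.hD i 0) hcube hP3
    (m := (C.w i 0 : ℝ) + C.w i 1)
    (by rw [hP30, abs_le]; constructor <;> linarith)
    (by rw [hP31, abs_le]; constructor <;> linarith) hm1
  rw [hP30, hP31] at t1
  set P4 := Q P3 (C.s i) 0 1 ((C.D i 0 : ℝ) * u0) (u1 / (C.D i 0 : ℝ)) with hP4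
  have hP40 : P4 0 - C.s i 0 = (C.D i 0 : ℝ) * u0 := by
    rw [hP4, Q_j]
    ring
  have hP41 : P4 1 - C.s i 1 = u1 / (C.D i 0 : ℝ) := by
    rw [hP4, Q_l _ _ (by decide)]
    ring
  have hP42 : P4 2 - C.s i 2 = u2 := by
    rw [hP4, Q_other _ _ (by decide) (by decide), hP32]
  have hu0' : |(C.D i 0 : ℝ) * u0| ≤ C.W := by
    have h4 := C.hW4_real i 0
    rw [abs_le]
    constructor <;> nlinarith [mul_le_mul_of_nonneg_left hx0.1 hD0.le, mul_le_mul_of_nonneg_left hx0.2 hD0.le]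
  have hιD : 0 < 1 / (C.D i 0 : ℝ) := by positivity
  have hu1' : -((C.w i 1 : ℝ) / C.D i 0) ≤ u1 / (C.D i 0 : ℝ) ∧ u1 / (C.D i 0 : ℝ) ≤ (C.w i 1 : ℝ) / C.D i 0 := by
    constructor
    · rw [← neg_div]
      exact div_le_div_of_nonneg_right hx1.1 hD0.le
    · exact div_le_div_of_nonneg_right hx1.2 hD0.le
  have hq : 0 < C.D i 0 * C.D i 1 := mul_pos (C.hD i 0) (C.hD i 1)
  have hqr : (0:ℝ) < (C.D i 0 : ℝ) * (C.D i 1 : ℝ) := mul_pos hD0 hD1
  have hm2 : (((C.D i 0 * C.D i 1 : ℚ) : ℝ) + 1 + 1 / ((C.D i 0 * C.D i 1 : ℚ) : ℝ)) *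
      ((C.w i 1 : ℝ) / C.D i 0 + C.w i 2) ≤ C.W := by
    exact_mod_cast C.hW2 i
  have hm2' : (C.w i 1 : ℝ) / C.D i 0 + C.w i 2 ≤ C.W := by
    have h7 : 0 ≤ (C.w i 1 : ℝ) / C.D i 0 + C.w i 2 := by positivity
    have h8 : 0 ≤ ((C.D i 0 * C.D i 1 : ℚ) : ℝ) + 1 / ((C.D i 0 * C.D i 1 : ℚ) : ℝ) := by
      push_cast
      positivity
    nlinarith
  have hw1D : 0 < (C.w i 1 : ℝ) / C.D i 0 := by positivity
  have hP4b : ∀ k, |P4 k - C.s i k| ≤ C.W := by
    rw [forall_fin3]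
    refine ⟨?_, ?_, ?_⟩
    · rw [hP40]
      exact hu0'
    · rw [hP41, abs_le]
      constructor <;> linarith [hu1'.1, hu1'.2]
    · rw [hP42, abs_le]
      constructor <;> linarith
  have t2 := plane_trace (C.R i) (C.s i) (j := 1) (l := 2) (by decide) hq hcube hP4b
    (m := (C.w i 1 : ℝ) / C.D i 0 + C.w i 2)
    (by rw [hP41, abs_le]; constructor <;> linarith [hu1'.1, hu1'.2])
    (by rw [hP42, abs_le]; constructor <;> linarith) hm2
  rw [hP41, hP42] at t2
  have hfinal : Q P4 (C.s i) 1 2 (((C.D i 0 * C.D i 1 : ℚ) : ℝ) * (u1 / (C.D i 0 : ℝ)))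
      (u2 / ((C.D i 0 * C.D i 1 : ℚ) : ℝ)) = C.tgt i x := by
    have hdet : (C.D i 0 : ℝ) * C.D i 1 * C.D i 2 = 1 := by
      exact_mod_cast C.hdet i
    funext k
    revert k
    rw [forall_fin3]
    refine ⟨?_, ?_, ?_⟩
    · rw [Q_other _ _ (by decide) (by decide), hP4, Q_j]
      simp only [tgt]
      rw [hu0]
    · rw [Q_j]
      simp only [tgt]
      push_cast
      rw [hu1]
      field_simp
    · rw [Q_l _ _ (by decide)]
      simp only [tgt]
      push_cast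
      have : (C.D i 2 : ℝ) = 1 / ((C.D i 0 : ℝ) * C.D i 1) := by
        field_simp
        linarith
      rw [this, hu2]
      ring
  rw [hfinal] at t2
  exact Trace.cons s1 (Trace.cons s2 (Trace.cons s3 (trace_append t1 t2)))

lemma trip_of_out (i : Fin n) {y : Fin 3 → ℝ} (h1 : (C.lift i).Outer y) (h2 : (C.R i).Out y) :
    Trace (C.trip i) y y :=
  Trace.cons (Or.inr ⟨h1, rfl⟩) (Trace.cons ((C.R i).step_out h2 _ _ _ _ _)
    (Trace.cons ((C.R i).step_out h2 _ _ _ _ _)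
      (trace_append (plane_out _ _ _ _ _ _ h2) (plane_out _ _ _ _ _ _ h2))))

theorem trip_fix_crowd (i q : Fin n) (hne : i ≠ q)
    (htop : C.c q 2 + C.w q 2 ≤ C.c i 2 + C.w i 2) {y : Fin 3 → ℝ} (hy : y ∈ box (C.c q) (C.w q)) :
    Trace (C.trip i) y y := by
  rw [mem_box_iff] at hy
  have hW := C.W_pos_real i
  have hMp := C.M_pos_real i
  have hT := C.hT_real
  have hε := C.hε_real
  have hs := C.T_le_s_real i
  have hsep := C.hsep i q hne
  rw [exists_fin3] at hsep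
  have htop' : (C.c q 2 : ℝ) + C.w q 2 ≤ C.c i 2 + C.w i 2 := by exact_mod_cast htop
  have hwq2 := C.hw_real q 2
  have hwi2 := C.hw_real i 2
  apply C.trip_of_out
  · unfold Move.Outer
    simp only [lift]
    rcases hsep with h | h | h
    · have h' : ((C.w i 0 : ℝ) + C.w q 0 + C.ε) ≤ |(C.c i 0 : ℝ) - C.c q 0| := by exact_mod_cast h
      have hy0 := hy 0
      refine ⟨0, ?_⟩
      simp only [Matrix.cons_val_zero]
      rcases le_abs.1 h' with h2 | h2
      · left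
        push_cast
        linarith [hy0.2]
      · right
        push_cast
        linarith [hy0.1]
    · have h' : ((C.w i 1 : ℝ) + C.w q 1 + C.ε) ≤ |(C.c i 1 : ℝ) - C.c q 1| := by exact_mod_cast h
      have hy0 := hy 1
      refine ⟨1, ?_⟩
      simp only [Matrix.cons_val_one, Matrix.cons_val_zero]
      rcases le_abs.1 h' with h2 | h2
      · left
        push_cast
        linarith [hy0.2]
      · right
        push_cast
        linarith [hy0.1]
    · have h' : ((C.w i 2 : ℝ) + C.w q 2 + C.ε) ≤ |(C.c i 2 : ℝ) - C.c q 2| := by exact_mod_cast h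
      have hy0 := hy 2
      refine ⟨2, ?_⟩
      rcases le_abs.1 h' with h2 | h2
      · left
        push_cast
        linarith [hy0.2]
      · exfalso
        linarith
  · refine ⟨2, Or.inl ?_⟩
    have h1 := hy 2
    have h2 := C.hM_real q 2
    have h3 := le_abs_self (C.c q 2 : ℝ)
    simp only [R, Matrix.cons_val]
    push_cast
    linarith [h1.2]

theorem trip_fix_done (i q : Fin n) (hne : i ≠ q) {x : Fin 3 → ℝ} (hx : x ∈ box (C.c q) (C.w q)) :
    Trace (C.trip i) (C.tgt q x) (C.tgt q x) := by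
  rw [mem_box_iff] at hx
  have hW := C.W_pos_real i
  have hMp := C.M_pos_real i
  have hT := C.hT_real
  have hε := C.hε_real
  have hs := C.T_le_s_real i
  have hD := C.hD_real q
  have hb : ∀ k, -(C.W : ℝ) ≤ (C.D q k : ℝ) * (x k - C.c q k) ∧ (C.D q k : ℝ) * (x k - C.c q k) ≤ C.W := by
    intro k
    have h4 := C.hW4_real q k
    have h5 := hx k
    constructor <;> nlinarith [mul_le_mul_of_nonneg_left h5.1 (hD k).le, mul_le_mul_of_nonneg_left h5.2 (hD k).le]
  apply C.trip_of_out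
  · refine ⟨0, Or.inr ?_⟩
    have h1 := hb 0
    have h2 := C.hM_real i 0
    have h3 := le_abs_self (C.c i 0 : ℝ)
    simp only [lift, tgt, Matrix.cons_val_zero, s_zero]
    push_cast
    linarith [h1.1]
  · have h1 := hb 2
    rcases lt_or_gt_of_ne (Fin.val_ne_of_ne hne) with h | h
    · refine ⟨2, Or.inr ?_⟩
      have h2 := C.s_lt_real h
      simp only [R, tgt, Matrix.cons_val]
      push_cast
      linarith [h1.1]
    · refine ⟨2, Or.inl ?_⟩
      have h2 := C.s_lt_real h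
      simp only [R, tgt, Matrix.cons_val]
      push_cast
      linarith [h1.2]

/-- The concatenation of the trips. -/
def run : List (Fin n) → List Move
  | [] => []
  | p :: rest => C.trip p ++ run rest

theorem run_trace (rem : List (Fin n)) (hnd : rem.Nodup)
    (hp : rem.Pairwise (fun p q => C.c q 2 + C.w q 2 ≤ C.c p 2 + C.w p 2)) :
    (∀ i ∈ rem, ∀ x ∈ box (C.c i) (C.w i), Trace (C.run rem) x (C.tgt i x)) ∧
    (∀ r, r ∉ rem → ∀ x ∈ box (C.c r) (C.w r), Trace (C.run rem) (C.tgt r x) (C.tgt r x)) := by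
  induction rem with
  | nil =>
    refine ⟨fun i hi => by simp at hi, fun r _ x _ => Trace.nil _⟩
  | cons p rest ih =>
    obtain ⟨ih1, ih2⟩ := ih (List.nodup_cons.1 hnd).2 (List.pairwise_cons.1 hp).2
    have hpnot := (List.nodup_cons.1 hnd).1
    refine ⟨?_, ?_⟩
    · intro i hi x hx
      rcases List.mem_cons.1 hi with rfl | hi'
      · exact trace_append (C.trip_pushes i hx) (ih2 i hpnot x hx)
      · have hne : p ≠ i := fun h => hpnot (h ▸ hi')
        exact trace_append (C.trip_fix_crowd p i hne ((List.pairwise_cons.1 hp).1 i hi') hx) (ih1 i hi' x hx)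
    · intro r hr x hx
      have hne : p ≠ r := fun h => hr (h ▸ List.mem_cons_self)
      have hr' : r ∉ rest := fun h => hr (List.mem_cons_of_mem _ h)
      exact trace_append (C.trip_fix_done p r hne hx) (ih2 r hr' x hx)

end Ctx

lemma exists_bound {ι : Type*} [Fintype ι] (f : ι → ℚ) : ∃ B : ℚ, 0 < B ∧ ∀ i, f i ≤ B := by
  refine ⟨∑ i, |f i| + 1, ?_, fun i => ?_⟩
  · have : 0 ≤ ∑ i, |f i| := Finset.sum_nonneg fun i _ => abs_nonneg _
    linarith
  · have h1 : |f i| ≤ ∑ i, |f i| :=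
      Finset.single_le_sum (f := fun i => |f i|) (fun i _ => abs_nonneg _) (Finset.mem_univ i)
    have h2 := le_abs_self (f i)
    linarith

/-- The family theorem. -/
theorem family {n : ℕ} (c w D : Fin n → Fin 3 → ℚ) (hw : ∀ i j, 0 < w i j) (hD : ∀ i j, 0 < D i j)
    (hdet : ∀ i, D i 0 * D i 1 * D i 2 = 1) {ε : ℚ} (hε : 0 < ε)
    (hsep : ∀ i i', i ≠ i' → ∃ j, w i j + w i' j + ε ≤ |c i j - c i' j|) :
    ∃ T0 : ℚ, ∀ T, T0 ≤ T → ∃ L : List Move, ∀ i, ∀ x ∈ box (c i) (w i),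
      Trace L x (fun k => (slot T i k : ℝ) + (D i k : ℝ) * (x k - c i k)) := by
  obtain ⟨M, _, hM⟩ := exists_bound (fun z : Fin n × Fin 3 => |c z.1 z.2| + w z.1 z.2)
  obtain ⟨W1, _, hW1⟩ := exists_bound (fun i : Fin n => (D i 0 + 1 + 1 / D i 0) * (w i 0 + w i 1))
  obtain ⟨W2, _, hW2⟩ := exists_bound (fun i : Fin n =>
    (D i 0 * D i 1 + 1 + 1 / (D i 0 * D i 1)) * (w i 1 / D i 0 + w i 2))
  obtain ⟨W3, _, hW3⟩ := exists_bound (fun z : Fin n × Fin 3 => w z.1 z.2)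
  obtain ⟨W4, _, hW4⟩ := exists_bound (fun z : Fin n × Fin 3 => D z.1 z.2 * w z.1 z.2)
  set W := W1 + W2 + W3 + W4 with hWdef
  refine ⟨M + 2 * W + ε + 1, fun T hT => ?_⟩
  let C : Ctx n :=
    { c := c, w := w, D := D, hw := hw, hD := hD, hdet := hdet, ε := ε, hε := hε, hsep := hsep,
      T := T, W := W, M := M,
      hM := fun i k => hM (i, k)
      hW1 := fun i => by have := hW1 i; linarith
      hW2 := fun i => by have := hW2 i; linarith
      hW3 := fun i k => by have := hW3 (i, k); simp only at this; linarith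
      hW4 := fun i k => by have := hW4 (i, k); simp only at this; linarith
      hT := hT }
  let top : Fin n → ℚ := fun i => c i 2 + w i 2
  let r : Fin n → Fin n → Prop := fun p q => top q ≤ top p
  have : DecidableRel r := fun p q => inferInstanceAs (Decidable (top q ≤ top p))
  have : Std.Total r := ⟨fun p q => le_total (top q) (top p)⟩
  have : IsTrans (Fin n) r := ⟨fun _ _ _ h1 h2 => le_trans h2 h1⟩
  let order := (List.finRange n).insertionSort r
  have hperm : order.Perm (List.finRange n) := List.perm_insertionSort r _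
  have hnd : order.Nodup := hperm.nodup_iff.2 (List.nodup_finRange n)
  have hpw : order.Pairwise r := List.pairwise_insertionSort r _
  have hmem : ∀ i, i ∈ order := fun i => hperm.mem_iff.2 (List.mem_finRange i)
  refine ⟨C.run order, fun i x hx => ?_⟩
  exact (C.run_trace order hnd hpw).1 i (hmem i) x hx

/-- Thickening: a uniform margin for disjoint boxes. -/
lemma exists_margin {n : ℕ} (a h : Fin n → Fin 3 → ℚ)
    (hh : ∀ i j, 0 < h i j)
    (ha : Pairwise fun i i' => Disjoint (box (a i) (h i)) (box (a i') (h i'))) :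
    ∃ δ0 : ℚ, 0 < δ0 ∧ ∃ ε : ℚ, 0 < ε ∧ ∀ δ, 0 < δ → δ ≤ δ0 → ∀ i i', i ≠ i' →
      ∃ j, (1 + δ) * h i j + (1 + δ) * h i' j + ε ≤ |a i j - a i' j| := by
  -- separation of each pair
  have h1 : ∀ i i', i ≠ i' → ∃ j, h i j + h i' j < |a i j - a i' j| := by
    intro i i' hne
    by_contra hcon
    push Not at hcon
    have hd : Disjoint (box (a i) (h i)) (box (a i') (h i')) := ha hne
    rw [Set.disjoint_left] at hd
    -- the common point
    let x : Fin 3 → ℝ := fun j => max ((a i j : ℝ) - h i j) ((a i' j : ℝ) - h i' j)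
    have hcon' : ∀ j, |(a i j : ℝ) - a i' j| ≤ (h i j : ℝ) + h i' j := by
      intro j
      exact_mod_cast hcon j
    have hpos : ∀ (i : Fin n) j, (0 : ℝ) < h i j := by
      intro i j
      exact_mod_cast hh i j
    have hx1 : x ∈ box (a i) (h i) := by
      intro j
      have h3 := abs_le.1 (hcon' j)
      have h4 := hpos i j
      have h5 := hpos i' j
      rw [abs_le]
      simp only [x]
      constructor
      · have := le_max_left ((a i j : ℝ) - h i j) ((a i' j : ℝ) - h i' j)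
        linarith
      · have : max ((a i j : ℝ) - h i j) ((a i' j : ℝ) - h i' j) ≤ (a i j : ℝ) + h i j :=
          max_le (by linarith) (by linarith [h3.1])
        linarith
    have hx2 : x ∈ box (a i') (h i') := by
      intro j
      have h3 := abs_le.1 (hcon' j)
      have h4 := hpos i j
      have h5 := hpos i' j
      rw [abs_le]
      simp only [x]
      constructor
      · have := le_max_right ((a i j : ℝ) - h i j) ((a i' j : ℝ) - h i' j)
        linarith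
      · have : max ((a i j : ℝ) - h i j) ((a i' j : ℝ) - h i' j) ≤ (a i' j : ℝ) + h i' j :=
          max_le (by linarith [h3.2]) (by linarith)
        linarith
    exact hd hx1 hx2
  -- the gap as a function
  classical
  let gap : Fin n × Fin n → ℚ := fun z =>
    if hz : z.1 ≠ z.2 then
      |a z.1 (h1 z.1 z.2 hz).choose - a z.2 (h1 z.1 z.2 hz).choose| -
        (h z.1 (h1 z.1 z.2 hz).choose + h z.2 (h1 z.1 z.2 hz).choose)
    else 1
  have hgap : ∀ z, 0 < gap z := by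
    intro z
    simp only [gap]
    split_ifs with hz
    · have := (h1 z.1 z.2 hz).choose_spec
      linarith
    · exact one_pos
  -- the minimal gap
  obtain ⟨τ, hτ, hτle⟩ : ∃ τ : ℚ, 0 < τ ∧ ∀ z, τ ≤ gap z := by
    obtain ⟨B, hB, hBle⟩ := exists_bound (fun z => 1 / gap z)
    refine ⟨1 / B, by positivity, fun z => ?_⟩
    have h2 := hgap z
    have h3 : 1 / gap z ≤ B := hBle z
    rw [div_le_iff₀ hB]
    rw [div_le_iff₀ h2] at h3
    linarith
  obtain ⟨H, hH, hHle⟩ := exists_bound (fun z : Fin n × Fin n × Fin 3 => h z.1 z.2.2 + h z.2.1 z.2.2)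
  refine ⟨τ / (2 * H), by positivity, τ / 2, by positivity, fun δ hδ hδ0 i i' hne => ?_⟩
  refine ⟨(h1 i i' hne).choose, ?_⟩
  set j := (h1 i i' hne).choose with hj
  have h2 := hτle (i, i')
  simp only [gap, dif_pos hne] at h2
  rw [← hj] at h2
  have h3 : h i j + h i' j ≤ H := hHle (i, i', j)
  have h4 : δ * (h i j + h i' j) ≤ τ / 2 := by
    have h5 : δ * (h i j + h i' j) ≤ τ / (2 * H) * H := by
      apply mul_le_mul hδ0 h3
      · linarith [hh i j, hh i' j]
      · positivity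
    have h6 : τ / (2 * H) * H = τ / 2 := by
      field_simp
    linarith
  linarith

end Geo

/-- The main theorem of this file. -/
theorem exists_moves (n : ℕ) (a b h k : Fin n → Fin 3 → ℚ) (hh : ∀ i j, 0 < h i j)
    (hk : ∀ i j, 0 < k i j)
    (ha : Pairwise fun i i' => Disjoint (box (a i) (h i)) (box (a i') (h i')))
    (hb : Pairwise fun i i' => Disjoint (box (b i) (k i)) (box (b i') (k i')))
    (hvol : ∀ i, ∏ j : Fin 3, k i j / h i j = 1) :
    ∃ L : List Move, ∀ i : Fin n, ∃ O : Set (Fin 3 → ℝ), IsOpen O ∧ box (a i) (h i) ⊆ O ∧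
      ∀ x ∈ O, Trace L x (fun j => (b i j : ℝ) + ((k i j / h i j : ℚ) : ℝ) * (x j - (a i j : ℝ))) := by
  obtain ⟨δa, hδa, εa, hεa, hsa⟩ := Geo.exists_margin a h hh ha
  obtain ⟨δb, hδb, εb, hεb, hsb⟩ := Geo.exists_margin b k hk hb
  set δ := min δa δb with hδdef
  have hδ : 0 < δ := lt_min hδa hδb
  have hδ1 : (0 : ℚ) < 1 + δ := by linarith
  have hwa : ∀ i j, 0 < (1 + δ) * h i j := fun i j => mul_pos hδ1 (hh i j)
  have hwb : ∀ i j, 0 < (1 + δ) * k i j := fun i j => mul_pos hδ1 (hk i j)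
  have hDa : ∀ i j, 0 < k i j / h i j := fun i j => div_pos (hk i j) (hh i j)
  have hdet : ∀ i, k i 0 / h i 0 * (k i 1 / h i 1) * (k i 2 / h i 2) = 1 := by
    intro i
    have := hvol i
    rwa [Fin.prod_univ_three] at this
  obtain ⟨Ta, hTa⟩ := Geo.family a (fun i j => (1 + δ) * h i j) (fun i j => k i j / h i j) hwa hDa hdet
    hεa (hsa δ hδ (min_le_left _ _))
  obtain ⟨Tb, hTb⟩ := Geo.family b (fun i j => (1 + δ) * k i j) (fun _ _ => 1) hwb (fun _ _ => one_pos)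
    (fun _ => by norm_num) hεb (hsb δ hδ (min_le_right _ _))
  obtain ⟨La, hLa⟩ := hTa (max Ta Tb) (le_max_left _ _)
  obtain ⟨Lb, hLb⟩ := hTb (max Ta Tb) (le_max_right _ _)
  refine ⟨La ++ Lb.reverse.map Move.inv, fun i => ?_⟩
  refine ⟨{x | ∀ j, |x j - (a i j : ℝ)| < (((1 + δ) * h i j : ℚ) : ℝ)}, ?_, ?_, ?_⟩
  · rw [Set.ofPred_forall]
    exact isOpen_iInter_of_finite fun j => isOpen_lt (by fun_prop) continuous_const
  · intro x hx j
    have h1 : (0 : ℝ) < h i j := by exact_mod_cast hh i j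
    have h2 : (0 : ℝ) < δ := by exact_mod_cast hδ
    have h3 := hx j
    push_cast
    nlinarith
  · intro x hx
    have hxa : x ∈ box (a i) (fun j => (1 + δ) * h i j) := fun j => (hx j).le
    have t1 := hLa i x hxa
    set y : Fin 3 → ℝ := fun j => (b i j : ℝ) + ((k i j / h i j : ℚ) : ℝ) * (x j - (a i j : ℝ)) with hy
    have hyb : y ∈ box (b i) (fun j => (1 + δ) * k i j) := by
      intro j
      have h1 : (0 : ℝ) < h i j := by exact_mod_cast hh i j
      have h2 : (0 : ℝ) < k i j := by exact_mod_cast hk i j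
      have h3 := (hx j).le
      simp only [hy, add_sub_cancel_left]
      rw [abs_mul, abs_of_pos (by exact_mod_cast hDa i j)]
      push_cast at h3 ⊢
      calc (k i j : ℝ) / h i j * |x j - a i j| ≤ (k i j : ℝ) / h i j * ((1 + δ) * h i j) :=
            mul_le_mul_of_nonneg_left h3 (by positivity)
        _ = (1 + δ) * k i j := by
            field_simp
    have t2 := Geo.trace_reverse (hLb i y hyb)
    have e : (fun l => (Geo.slot (max Ta Tb) i l : ℝ) + ((1 : ℚ) : ℝ) * (y l - b i l)) =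
        (fun l => (Geo.slot (max Ta Tb) i l : ℝ) + ((k i l / h i l : ℚ) : ℝ) * (x l - a i l)) := by
      funext l
      simp only [hy]
      push_cast
      ring
    rw [e] at t2
    exact Geo.trace_append t1 t2

end Crest.Agent.Lib.BF
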