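import Crest.Agent.Lib.BF.Core

/-!
# Primitive-recursive rational arithmetic (helper2)

`Qt = Bool × ℕ × ℕ` : (negative?, numerator, denominator - 1), value `± num / (d + 1)`.
All operations are `Primrec`.
-/

namespace Crest.Agent.Lib.BF

/-- Internal rationals: sign (true = negative), numerator, denominator minus one. -/
abbrev Qt := Bool × ℕ × ℕ

/-- The value of an internal rational. -/
def Qt.val (q : Qt) : ℚ := (if q.1 then -(q.2.1 : ℚ) else (q.2.1 : ℚ)) / ((q.2.2 : ℚ) + 1)

/-- A rational as an internal rational. -/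
def ofRat (q : ℚ) : Qt := (decide (q < 0), q.num.natAbs, q.den - 1)

@[simp] theorem Qt.val_ofRat (q : ℚ) : (ofRat q).val = q := by
  simp only [ofRat, Qt.val]
  have hd : ((q.den - 1 : ℕ) : ℚ) + 1 = (q.den : ℚ) := by
    have : q.den - 1 + 1 = q.den := Nat.sub_add_cancel q.den_pos
    exact_mod_cast this
  rw [hd]
  by_cases h : q < 0
  · have h' : q.num < 0 := Rat.num_neg.mpr h
    have e : ((q.num.natAbs : ℕ) : ℚ) = -(q.num : ℚ) := by
      rw [Nat.cast_natAbs, abs_of_neg h']; push_cast; ring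
    simp only [h, decide_true, if_true, e, neg_neg]
    exact Rat.num_div_den q
  · have h' : 0 ≤ q.num := by
      rw [Rat.num_nonneg]; linarith [not_lt.mp h]
    have e : ((q.num.natAbs : ℕ) : ℚ) = (q.num : ℚ) := by
      rw [Nat.cast_natAbs, abs_of_nonneg h']
    simp only [h, decide_false, Bool.false_eq_true, if_false, e]
    exact Rat.num_div_den q

/-- Code of a natural number. -/
def Qt.ofNat (n : ℕ) : Qt := (false, n, 0)

def Qt.neg (q : Qt) : Qt := (!q.1, q.2.1, q.2.2)

/-- `|q|`. -/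
def Qt.abs (q : Qt) : Qt := (false, q.2.1, q.2.2)

def Qt.mul (p q : Qt) : Qt :=
  (xor p.1 q.1, p.2.1 * q.2.1, (p.2.2 + 1) * (q.2.2 + 1) - 1)

/-- `1 / q` (with `1/0 = 0`) -/
def Qt.inv (q : Qt) : Qt :=
  bif q.2.1 == 0 then (false, 0, 0) else (q.1, q.2.2 + 1, q.2.1 - 1)

/-- Addition. -/
def Qt.add (p q : Qt) : Qt :=
  bif p.1 == q.1 then
    (p.1, p.2.1 * (q.2.2 + 1) + q.2.1 * (p.2.2 + 1), (p.2.2 + 1) * (q.2.2 + 1) - 1)
  else bif (q.2.1 * (p.2.2 + 1)).ble (p.2.1 * (q.2.2 + 1)) then
    (p.1, p.2.1 * (q.2.2 + 1) - q.2.1 * (p.2.2 + 1), (p.2.2 + 1) * (q.2.2 + 1) - 1)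
  else
    (q.1, q.2.1 * (p.2.2 + 1) - p.2.1 * (q.2.2 + 1), (p.2.2 + 1) * (q.2.2 + 1) - 1)

def Qt.sub (p q : Qt) : Qt := Qt.add p q.neg

/-- `p ≤ q` tested on values. -/
def Qt.lt (p q : Qt) : Bool :=
  -- `p < q` iff `q - p` is positive iff the numerator of the difference is nonzero and its sign +
  let r := Qt.sub q p
  (!r.1) && !(r.2.1 == 0)

theorem Qt.val_ofNat (n : ℕ) : (Qt.ofNat n).val = n := by
  simp [Qt.ofNat, Qt.val]

theorem Qt.val_neg (q : Qt) : q.neg.val = -q.val := by
  rcases q with ⟨s, a, b⟩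
  cases s <;> simp [Qt.neg, Qt.val, neg_div]

private theorem den_ne (d : ℕ) : ((d : ℚ) + 1) ≠ 0 := by positivity

private theorem den_mul (d e : ℕ) : (((d + 1) * (e + 1) - 1 : ℕ) : ℚ) + 1 = ((d : ℚ) + 1) * ((e : ℚ) + 1) := by
  have h : 1 ≤ (d + 1) * (e + 1) := Nat.succ_le_of_lt (Nat.mul_pos (Nat.succ_pos d) (Nat.succ_pos e))
  rw [Nat.cast_sub h]; push_cast; ring

theorem Qt.val_abs (q : Qt) : q.abs.val = |q.val| := by
  rcases q with ⟨s, a, b⟩
  have h : |((b : ℚ) + 1)| = (b : ℚ) + 1 := abs_of_pos (by positivity)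
  cases s <;> simp [Qt.abs, Qt.val, neg_div, abs_div, abs_neg, h]

theorem Qt.val_mul (p q : Qt) : (p.mul q).val = p.val * q.val := by
  rcases p with ⟨s, a, b⟩
  rcases q with ⟨t, c, d⟩
  simp only [Qt.mul, Qt.val, den_mul]
  cases s <;> cases t <;> simp <;> field_simp

theorem Qt.val_inv (q : Qt) : q.inv.val = q.val⁻¹ := by
  rcases q with ⟨s, a, b⟩
  by_cases ha : a = 0
  · subst ha
    simp [Qt.inv, Qt.val]
  · have ha' : a - 1 + 1 = a := Nat.sub_add_cancel (Nat.pos_of_ne_zero ha)
    have hq : ((a - 1 : ℕ) : ℚ) + 1 = (a : ℚ) := by exact_mod_cast ha'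
    have ha0 : (a : ℚ) ≠ 0 := by exact_mod_cast ha
    have hb0 : ((b : ℚ) + 1) ≠ 0 := by positivity
    have hbeq : (a == 0) = false := by simpa using ha
    simp only [Qt.inv, hbeq, cond_false, Qt.val, hq]
    cases s
    · simp only [Bool.false_eq_true, if_false, inv_div]; push_cast; rfl
    · simp only [if_true, inv_div, neg_div, inv_neg]
      push_cast
      rfl

theorem Qt.val_add (p q : Qt) : (p.add q).val = p.val + q.val := by
  rcases p with ⟨s, a, b⟩
  rcases q with ⟨t, c, d⟩
  have hb : ((b : ℚ) + 1) ≠ 0 := by positivity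
  have hd : ((d : ℚ) + 1) ≠ 0 := by positivity
  simp only [Qt.add, Qt.val]
  cases s <;> cases t
  · simp [den_mul]; field_simp
  · by_cases h : c * (b + 1) ≤ a * (d + 1)
    · have h' : Nat.ble (c * (b + 1)) (a * (d + 1)) = true := Nat.ble_eq.mpr h
      simp only [h', den_mul]
      simp [Nat.cast_sub h]
      field_simp
      ring
    · have h' : Nat.ble (c * (b + 1)) (a * (d + 1)) = false := by
        rw [← Bool.not_eq_true, Nat.ble_eq]; exact h
      have h2 : a * (d + 1) ≤ c * (b + 1) := by omega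
      simp only [h', den_mul]
      simp [Nat.cast_sub h2]
      field_simp
      ring
  · by_cases h : c * (b + 1) ≤ a * (d + 1)
    · have h' : Nat.ble (c * (b + 1)) (a * (d + 1)) = true := Nat.ble_eq.mpr h
      simp only [h', den_mul]
      simp [Nat.cast_sub h]
      field_simp
      ring
    · have h' : Nat.ble (c * (b + 1)) (a * (d + 1)) = false := by
        rw [← Bool.not_eq_true, Nat.ble_eq]; exact h
      have h2 : a * (d + 1) ≤ c * (b + 1) := by omega
      simp only [h', den_mul]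
      simp [Nat.cast_sub h2]
      field_simp
      ring
  · simp [den_mul]; field_simp; ring

theorem Qt.val_sub (p q : Qt) : (p.sub q).val = p.val - q.val := by
  simp [Qt.sub, Qt.val_add, Qt.val_neg, sub_eq_add_neg]

theorem Qt.pos_iff (r : Qt) : ((!r.1) && !(r.2.1 == 0)) = true ↔ 0 < r.val := by
  rcases r with ⟨s, a, b⟩
  have hb : (0:ℚ) < (b : ℚ) + 1 := by positivity
  simp only [Qt.val]
  cases s
  · by_cases ha : a = 0
    · subst ha; simp
    · have ha' : (0:ℚ) < (a:ℚ) := by exact_mod_cast Nat.pos_of_ne_zero ha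
      have : (a == 0) = false := by simpa using ha
      simp only [this]
      simp [div_pos ha' hb]
  · simp only [Bool.not_true, Bool.false_and, if_true, Bool.false_eq_true, false_iff, not_lt]
    apply div_nonpos_of_nonpos_of_nonneg
    · simp
    · positivity

theorem Qt.lt_iff (p q : Qt) : Qt.lt p q = true ↔ p.val < q.val := by
  have h := Qt.val_sub q p
  have hlt : p.val < q.val ↔ 0 < (Qt.sub q p).val := by rw [h]; simp
  rw [hlt]
  exact Qt.pos_iff (Qt.sub q p)

/-! ### Primitive recursiveness -/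

section primrec
open Primrec

theorem primrec_sgn : Primrec (fun q : Qt => q.1) := Primrec.fst
theorem primrec_nm : Primrec (fun q : Qt => q.2.1) := Primrec.fst.comp Primrec.snd
theorem primrec_dn : Primrec (fun q : Qt => q.2.2) := Primrec.snd.comp Primrec.snd

theorem primrec_ofNat : Primrec Qt.ofNat :=
  Primrec.pair (Primrec.const false) (Primrec.pair Primrec.id (Primrec.const 0))

theorem primrec_neg : Primrec Qt.neg :=
  Primrec.pair (Primrec.not.comp primrec_sgn) (Primrec.snd)

theorem primrec_abs : Primrec Qt.abs :=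
  Primrec.pair (Primrec.const false) (Primrec.snd)

private theorem primrec_dsucc {α} [Primcodable α] {f : α → Qt} (hf : Primrec f) :
    Primrec (fun a => (f a).2.2 + 1) :=
  Primrec.succ.comp (primrec_dn.comp hf)

private theorem primrec_dmul {α} [Primcodable α] {f g : α → Qt} (hf : Primrec f) (hg : Primrec g) :
    Primrec (fun a => ((f a).2.2 + 1) * ((g a).2.2 + 1) - 1) :=
  Primrec.nat_sub.comp (Primrec.nat_mul.comp (primrec_dsucc hf) (primrec_dsucc hg)) (Primrec.const 1)

theorem primrec_mul : Primrec₂ Qt.mul := by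
  refine Primrec.pair ?_ (Primrec.pair ?_ ?_)
  · exact (Primrec.dom_bool₂ xor).comp (primrec_sgn.comp Primrec.fst) (primrec_sgn.comp Primrec.snd)
  · exact Primrec.nat_mul.comp (primrec_nm.comp Primrec.fst) (primrec_nm.comp Primrec.snd)
  · exact primrec_dmul Primrec.fst Primrec.snd

theorem primrec_inv : Primrec Qt.inv := by
  refine Primrec.cond (Primrec.beq.comp primrec_nm (Primrec.const 0)) (Primrec.const _) ?_
  exact Primrec.pair primrec_sgn (Primrec.pair (primrec_dsucc Primrec.id)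
    (Primrec.nat_sub.comp primrec_nm (Primrec.const 1)))

theorem primrec_add : Primrec₂ Qt.add := by
  have ha : Primrec (fun x : Qt × Qt => x.1.2.1 * (x.2.2.2 + 1)) :=
    Primrec.nat_mul.comp (primrec_nm.comp Primrec.fst) (primrec_dsucc Primrec.snd)
  have hb : Primrec (fun x : Qt × Qt => x.2.2.1 * (x.1.2.2 + 1)) :=
    Primrec.nat_mul.comp (primrec_nm.comp Primrec.snd) (primrec_dsucc Primrec.fst)
  have hd := primrec_dmul (α := Qt × Qt) Primrec.fst Primrec.snd
  refine Primrec.cond (Primrec.beq.comp (primrec_sgn.comp Primrec.fst) (primrec_sgn.comp Primrec.snd))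
    (Primrec.pair (primrec_sgn.comp Primrec.fst) (Primrec.pair (Primrec.nat_add.comp ha hb) hd)) ?_
  refine Primrec.cond ?_
    (Primrec.pair (primrec_sgn.comp Primrec.fst) (Primrec.pair (Primrec.nat_sub.comp ha hb) hd))
    (Primrec.pair (primrec_sgn.comp Primrec.snd) (Primrec.pair (Primrec.nat_sub.comp hb ha) hd))
  have hle : PrimrecRel (fun a b : ℕ => a ≤ b) := Primrec.nat_le
  have := hle.comp hb ha
  refine (this.decide).of_eq ?_
  intro x
  by_cases h : x.2.2.1 * (x.1.2.2 + 1) ≤ x.1.2.1 * (x.2.2.2 + 1)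
  · simp [h, Nat.ble_eq.mpr h]
  · have : Nat.ble (x.2.2.1 * (x.1.2.2 + 1)) (x.1.2.1 * (x.2.2.2 + 1)) = false := by
      rw [← Bool.not_eq_true, Nat.ble_eq]; exact h
    simp [h, this]

theorem primrec_sub : Primrec₂ Qt.sub :=
  primrec_add.comp Primrec.fst (primrec_neg.comp Primrec.snd)

theorem primrec_lt : Primrec₂ Qt.lt := by
  have hr : Primrec (fun x : Qt × Qt => Qt.sub x.2 x.1) :=
    primrec_sub.comp Primrec.snd Primrec.fst
  refine Primrec.and.comp (Primrec.not.comp (primrec_sgn.comp hr))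
    (Primrec.not.comp (Primrec.beq.comp (primrec_nm.comp hr) (Primrec.const 0)))

end primrec

end Crest.Agent.Lib.BF
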