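import Crest.Agent.Lib.BF.Qt

/-!
# Computability of the conversions between `ℚ` and `Qt` (helper2)
-/

namespace Crest.Agent.Lib.BF

open Encodable Denumerable

/-- Bounded-free search: if `p a n` is a computable decidable predicate with witnesses for all `a`,
the least witness is computable. -/
theorem computable_find {α : Type*} [Primcodable α] (p : α → ℕ → Bool)
    (hp : Computable₂ p) (hex : ∀ a, ∃ n, p a n = true) :
    Computable fun a => Nat.find (hex a) := by
  have h : Partrec fun a => Nat.rfind (fun n => Part.some (p a n)) :=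
    Partrec.rfind (p := fun a n => Part.some (p a n)) hp.partrec₂
  refine h.of_eq_tot ?_
  intro a
  refine Nat.mem_rfind.2 ⟨?_, ?_⟩
  · simpa using Nat.find_spec (hex a)
  · intro m hm
    have := Nat.find_min (hex a) hm
    simpa using this

/-- The raw encoding of rationals. -/
def rawE (q : ℚ) : ℕ := @encode ℚ Rat.instEncodable q

theorem rawE_eq (q : ℚ) : rawE q = Nat.pair (@encode ℤ Int.encodable q.num) q.den := by
  cases q; rfl

/-- Absolute value from the integer code. -/
def codeAbs (a : ℕ) : ℕ := bif a.bodd then a.div2 + 1 else a.div2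

theorem encode_int (n : ℤ) : @encode ℤ Int.encodable n = Equiv.intEquivNat n := rfl

theorem encode_int_ofNat (n : ℕ) : @encode ℤ Int.encodable (Int.ofNat n) = 2 * n := rfl

theorem encode_int_negSucc (n : ℕ) : @encode ℤ Int.encodable (Int.negSucc n) = 2 * n + 1 := rfl

theorem codeAbs_encode (n : ℤ) : codeAbs (@encode ℤ Int.encodable n) = n.natAbs := by
  cases n with
  | ofNat k =>
    rw [encode_int_ofNat]
    simp [codeAbs, Nat.bodd_mul, Nat.div2_val]
  | negSucc k =>
    rw [encode_int_negSucc]
    have h1 : (2 * k + 1).bodd = true := by simp [Nat.bodd_add, Nat.bodd_mul]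
    have h2 : (2 * k + 1).div2 = k := by rw [Nat.div2_val]; omega
    simp [codeAbs, h1, h2, Int.natAbs_negSucc]

theorem bodd_encode (n : ℤ) : (@encode ℤ Int.encodable n).bodd = decide (n < 0) := by
  cases n with
  | ofNat k =>
    rw [encode_int_ofNat]
    simp [Nat.bodd_mul]
  | negSucc k =>
    rw [encode_int_negSucc]
    have h1 : (2 * k + 1).bodd = true := by simp [Nat.bodd_add, Nat.bodd_mul]
    rw [h1]
    simp [Int.negSucc_lt_zero]

/-- The (propositional) validity test of a raw code. -/
def ValidCode (c : ℕ) : Prop := 0 < c.unpair.2 ∧ Nat.Coprime (codeAbs c.unpair.1) c.unpair.2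

theorem mem_range_rawE (c : ℕ) : c ∈ Set.range rawE ↔ ValidCode c := by
  constructor
  · rintro ⟨q, rfl⟩
    rw [rawE_eq, ValidCode, Nat.unpair_pair]
    refine ⟨q.den_pos, ?_⟩
    simp only [codeAbs_encode]
    exact q.reduced
  · rintro ⟨h0, h1⟩
    set n : ℤ := Equiv.intEquivNat.symm c.unpair.1 with hn
    have hen : @encode ℤ Int.encodable n = c.unpair.1 := by
      rw [encode_int, hn]; simp
    have hc : n.natAbs.Coprime c.unpair.2 := by
      rw [← codeAbs_encode, hen]; exact h1
    refine ⟨⟨n, c.unpair.2, h0.ne', hc⟩, ?_⟩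
    rw [rawE_eq]
    simp only [hen, Nat.pair_unpair]

theorem coprime_iff (x d : ℕ) (hd : 0 < d) :
    Nat.Coprime x d ↔ ∀ k < d + 1, 2 ≤ k → ¬ (x % k = 0 ∧ d % k = 0) := by
  constructor
  · intro h k _ hk ⟨h1, h2⟩
    have : k ∣ Nat.gcd x d := Nat.dvd_gcd (Nat.dvd_of_mod_eq_zero h1) (Nat.dvd_of_mod_eq_zero h2)
    rw [Nat.Coprime] at h
    rw [h] at this
    have := Nat.le_of_dvd Nat.one_pos this
    omega
  · intro h
    by_contra hne
    have hg : Nat.gcd x d ≠ 1 := hne
    have hpos : 0 < Nat.gcd x d := Nat.gcd_pos_of_pos_right _ hd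
    have hle : Nat.gcd x d ≤ d := Nat.le_of_dvd hd (Nat.gcd_dvd_right x d)
    refine h (Nat.gcd x d) (by omega) (by omega) ⟨?_, ?_⟩
    · exact Nat.mod_eq_zero_of_dvd (Nat.gcd_dvd_left x d)
    · exact Nat.mod_eq_zero_of_dvd (Nat.gcd_dvd_right x d)

theorem primrec_codeAbs : Primrec codeAbs := by
  have h : Primrec fun a : ℕ => bif a.bodd then a.div2 + 1 else a.div2 :=
    Primrec.cond Primrec.nat_bodd (Primrec.succ.comp Primrec.nat_div2) Primrec.nat_div2
  exact h

theorem primrecPred_validCode : PrimrecPred ValidCode := by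
  have hR : PrimrecRel fun (k y : ℕ) =>
      ¬ (2 ≤ k ∧ (y.unpair.1 % k = 0 ∧ y.unpair.2 % k = 0)) := by
    have h1 : PrimrecPred fun p : ℕ × ℕ => 2 ≤ p.1 :=
      Primrec.nat_le.comp (Primrec.const 2) Primrec.fst
    have h2 : PrimrecPred fun p : ℕ × ℕ => p.2.unpair.1 % p.1 = 0 :=
      Primrec.eq.comp (Primrec.nat_mod.comp (Primrec.fst.comp (Primrec.unpair.comp Primrec.snd))
        Primrec.fst) (Primrec.const 0)
    have h3 : PrimrecPred fun p : ℕ × ℕ => p.2.unpair.2 % p.1 = 0 :=
      Primrec.eq.comp (Primrec.nat_mod.comp (Primrec.snd.comp (Primrec.unpair.comp Primrec.snd))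
        Primrec.fst) (Primrec.const 0)
    exact (h1.and (h2.and h3)).not
  have hF := hR.forall_lt
  have h4 : PrimrecPred fun c : ℕ => ∀ k < c.unpair.2 + 1,
      ¬ (2 ≤ k ∧ ((Nat.pair (codeAbs c.unpair.1) c.unpair.2).unpair.1 % k = 0 ∧
        (Nat.pair (codeAbs c.unpair.1) c.unpair.2).unpair.2 % k = 0)) :=
    hF.comp (Primrec.succ.comp (Primrec.snd.comp Primrec.unpair))
      (Primrec₂.natPair.comp (primrec_codeAbs.comp (Primrec.fst.comp Primrec.unpair))
        (Primrec.snd.comp Primrec.unpair))
  have h5 : PrimrecPred fun c : ℕ => 0 < c.unpair.2 :=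
    Primrec.nat_lt.comp (Primrec.const 0) (Primrec.snd.comp Primrec.unpair)
  refine (h5.and h4).of_eq ?_
  intro c
  simp only [Nat.unpair_pair, ValidCode]
  constructor
  · rintro ⟨h0, h1⟩
    refine ⟨h0, (coprime_iff _ _ h0).2 ?_⟩
    intro k hk h2 h3
    exact h1 k hk ⟨h2, h3⟩
  · rintro ⟨h0, h1⟩
    refine ⟨h0, ?_⟩
    intro k hk ⟨h2, h3⟩
    exact (coprime_iff _ _ h0).1 h1 k hk h2 h3


instance : DecidablePred ValidCode := fun _ => inferInstanceAs (Decidable (_ ∧ _))

theorem exists_next (c : ℕ) : ∃ m, ValidCode (c + m + 1) := by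
  have h : ValidCode (rawE ((c + 1 : ℕ) : ℚ)) := (mem_range_rawE _).1 ⟨_, rfl⟩
  have hle : c + 1 ≤ rawE ((c + 1 : ℕ) : ℚ) := by
    rw [rawE_eq]
    have h1 := Nat.left_le_pair (@encode ℤ Int.encodable ((c + 1 : ℕ) : ℚ).num) ((c + 1 : ℕ) : ℚ).den
    have h2 : ((c + 1 : ℕ) : ℚ).num = Int.ofNat (c + 1) := by rw [Rat.num_natCast]; rfl
    rw [h2, encode_int_ofNat] at h1
    rw [h2, encode_int_ofNat]
    omega
  refine ⟨rawE ((c + 1 : ℕ) : ℚ) - c - 1, ?_⟩
  have : c + (rawE ((c + 1 : ℕ) : ℚ) - c - 1) + 1 = rawE ((c + 1 : ℕ) : ℚ) := by omega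
  rwa [this]

/-- The next valid code. -/
noncomputable def nextCode (c : ℕ) : ℕ := c + Nat.find (exists_next c) + 1

theorem computable_nextCode : Computable nextCode := by
  have h1 : Computable fun c => Nat.find (exists_next c) := by
    classical
    have := computable_find (α := ℕ) (fun c m => decide (ValidCode (c + m + 1)))
      (by
        have h := primrecPred_validCode.decide
        exact (h.comp (Primrec.succ.comp (Primrec.nat_add.comp Primrec.fst Primrec.snd))).to_comp)
      (by simpa using exists_next)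
    refine this.of_eq ?_
    intro c
    apply Nat.find_congr'
    simp
  exact (Primrec.succ.comp Primrec.nat_add).to_comp.comp (Computable.id.pair h1)

/-- The `n`-th valid code. -/
noncomputable def codeAt : ℕ → ℕ
  | 0 => rawE (Denumerable.ofNat ℚ 0)
  | n + 1 => nextCode (codeAt n)

theorem computable_codeAt : Computable codeAt := by
  have h : Computable fun n : ℕ =>
      Nat.rec (motive := fun _ => ℕ) (rawE (Denumerable.ofNat ℚ 0)) (fun _ ih => nextCode ih) n :=
    Computable.nat_rec Computable.id (Computable.const _)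
      (computable_nextCode.comp (Computable.snd.comp Computable.snd)).to₂
  refine h.of_eq ?_
  intro n
  induction n with
  | zero => rfl
  | succ n ih =>
    change nextCode (Nat.rec (motive := fun _ => ℕ) (rawE (Denumerable.ofNat ℚ 0))
      (fun _ ih => nextCode ih) n) = nextCode (codeAt n)
    rw [ih]

theorem rawE_ofNat_eq (n : ℕ) :
    rawE (Denumerable.ofNat ℚ n) =
      (@Nat.Subtype.ofNat (Set.range (@encode ℚ Rat.instEncodable))
        (decidableRangeEncode ℚ) (Infinite.of_injective _ (Equiv.ofInjective _ encode_injective).injective) n : ℕ) := by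
  let := @decidableRangeEncode ℚ Rat.instEncodable
  let : Infinite (Set.range (@encode ℚ Rat.instEncodable)) :=
    Infinite.of_injective _ (Equiv.ofInjective _ encode_injective).injective
  let := Nat.Subtype.denumerable (Set.range (@encode ℚ Rat.instEncodable))
  have h1 : Denumerable.ofNat ℚ n = (@equivRangeEncode ℚ Rat.instEncodable).symm
      (Denumerable.ofNat (Set.range (@encode ℚ Rat.instEncodable)) n) :=
    Denumerable.ofEquiv_ofNat (Set.range (@encode ℚ Rat.instEncodable)) (@equivRangeEncode ℚ Rat.instEncodable) n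
  have h2 : Denumerable.ofNat (Set.range (@encode ℚ Rat.instEncodable)) n =
      Nat.Subtype.ofNat (Set.range (@encode ℚ Rat.instEncodable)) n := rfl
  rw [h1, h2]
  have h3 := (@equivRangeEncode ℚ Rat.instEncodable).apply_symm_apply
      (Nat.Subtype.ofNat (Set.range (@encode ℚ Rat.instEncodable)) n)
  exact congrArg Subtype.val h3


theorem valid_rawE_ofNat (n : ℕ) : ValidCode (rawE (Denumerable.ofNat ℚ n)) :=
  (mem_range_rawE _).1 ⟨_, rfl⟩

theorem codeAt_eq (n : ℕ) : codeAt n = rawE (Denumerable.ofNat ℚ n) := by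
  induction n with
  | zero => rfl
  | succ n ih =>
    rw [codeAt, ih, rawE_ofNat_eq (n + 1), rawE_ofNat_eq n]
    let := @decidableRangeEncode ℚ Rat.instEncodable
    let : Infinite (Set.range (@encode ℚ Rat.instEncodable)) :=
      Infinite.of_injective _ (Equiv.ofInjective _ encode_injective).injective
    change nextCode _ = ((Nat.Subtype.succ (Nat.Subtype.ofNat (Set.range (@encode ℚ Rat.instEncodable)) n)) : ℕ)
    unfold nextCode Nat.Subtype.succ
    dsimp only
    congr 2
    apply Nat.find_congr'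
    intro m
    exact (mem_range_rawE _).symm

/-- Decoding a raw code. -/
def decodeC (c : ℕ) : Qt := (c.unpair.1.bodd, codeAbs c.unpair.1, c.unpair.2 - 1)

theorem primrec_decodeC : Primrec decodeC :=
  (Primrec.nat_bodd.comp (Primrec.fst.comp Primrec.unpair)).pair
    ((primrec_codeAbs.comp (Primrec.fst.comp Primrec.unpair)).pair
      (Primrec.nat_sub.comp (Primrec.snd.comp Primrec.unpair) (Primrec.const 1)))

theorem decodeC_rawE (q : ℚ) : decodeC (rawE q) = ofRat q := by
  rw [rawE_eq, decodeC, ofRat]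
  simp only [Nat.unpair_pair, bodd_encode, codeAbs_encode]
  congr 1
  simp [Rat.num_neg]

/-- The `n`-th rational, as an internal rational. -/
theorem computable_ofRat_ofNat : Computable fun n => ofRat (Denumerable.ofNat ℚ n) := by
  refine (primrec_decodeC.to_comp.comp computable_codeAt).of_eq ?_
  intro n
  simp only [codeAt_eq, decodeC_rawE]

theorem computable_ofRat : Computable ofRat := by
  refine (computable_ofRat_ofNat.comp Computable.encode).of_eq ?_
  intro q
  rw [Denumerable.ofNat_encode]

/-- Is `p.val = q.val`? -/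
def Qt.eqv (p q : Qt) : Bool := !(Qt.lt p q) && !(Qt.lt q p)

theorem Qt.eqv_iff (p q : Qt) : Qt.eqv p q = true ↔ p.val = q.val := by
  simp only [Qt.eqv, Bool.and_eq_true, Bool.not_eq_true', ← Bool.not_eq_true, Qt.lt_iff]
  constructor
  · rintro ⟨h1, h2⟩
    exact le_antisymm (not_lt.1 h2) (not_lt.1 h1)
  · intro h
    rw [h]
    simp

theorem primrec_eqv : Primrec₂ Qt.eqv :=
  Primrec.and.comp (Primrec.not.comp primrec_lt) (Primrec.not.comp primrec_lt.swap)

theorem computable_val : Computable Qt.val := by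
  have hex : ∀ q : Qt, ∃ n, Qt.eqv (ofRat (Denumerable.ofNat ℚ n)) q = true := by
    intro q
    refine ⟨@encode ℚ Denumerable.toEncodable q.val, ?_⟩
    rw [Qt.eqv_iff, Denumerable.ofNat_encode, Qt.val_ofRat]
  have h1 := computable_find (α := Qt) (fun q n => Qt.eqv (ofRat (Denumerable.ofNat ℚ n)) q)
    (primrec_eqv.to_comp.comp (computable_ofRat_ofNat.comp Computable.snd) Computable.fst) hex
  refine ((Computable.ofNat ℚ).comp h1).of_eq ?_
  intro q
  have h2 := Nat.find_spec (hex q)
  rw [Qt.eqv_iff, Qt.val_ofRat] at h2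
  exact h2

end Crest.Agent.Lib.BF
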