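import Crest.Agent.Lib.BF.Eff
import Crest.Agent.Lib.BF.StepBound

/-!
# Computable approximation of the smooth step (helper2)
-/

open Crest.AnalysisR.BoxFlow Finset

namespace Crest.Agent.Lib.BF

/-! ### Real analysis -/

theorem pow_div_fact_le (P : ℕ) (hP : 1 ≤ P) (X : ℝ) (hX : 0 ≤ X) (hXP : X ≤ P) (L : ℕ) :
    X ^ (2 * P + L) / ((2 * P + L).factorial : ℝ) ≤ (P : ℝ) ^ (2 * P) * (1 / 2) ^ L := by
  induction L with
  | zero =>
    simp only [add_zero, pow_zero, mul_one]
    have h1 : (1 : ℝ) ≤ ((2 * P).factorial : ℝ) := by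
      exact_mod_cast Nat.one_le_iff_ne_zero.2 (Nat.factorial_ne_zero _)
    calc X ^ (2 * P) / ((2 * P).factorial : ℝ) ≤ X ^ (2 * P) := div_le_self (by positivity) h1
      _ ≤ (P : ℝ) ^ (2 * P) := pow_le_pow_left₀ hX hXP _
  | succ L ih =>
    have e : 2 * P + (L + 1) = (2 * P + L) + 1 := by ring
    rw [e, pow_succ X, Nat.factorial_succ, pow_succ ((1 : ℝ) / 2), ← mul_assoc]
    have hf : (0 : ℝ) < ((2 * P + L).factorial : ℝ) := by exact_mod_cast Nat.factorial_pos _
    have hn : (0 : ℝ) < ((2 * P + L + 1 : ℕ) : ℝ) := by positivity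
    have hP' : (1 : ℝ) ≤ P := by exact_mod_cast hP
    have hrat : X / ((2 * P + L + 1 : ℕ) : ℝ) ≤ 1 / 2 := by
      rw [div_le_div_iff₀ hn (by norm_num)]
      push_cast
      have hL : (0 : ℝ) ≤ L := Nat.cast_nonneg L
      linarith
    have e2 : X ^ (2 * P + L) * X / (((2 * P + L + 1 : ℕ) * (2 * P + L).factorial : ℕ) : ℝ) =
        (X ^ (2 * P + L) / ((2 * P + L).factorial : ℝ)) * (X / ((2 * P + L + 1 : ℕ) : ℝ)) := by
      push_cast
      field_simp
    rw [e2]
    exact mul_le_mul ih hrat (by positivity) (by positivity)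

theorem exp_partial_bound (P : ℕ) (hP : 1 ≤ P) (X : ℝ) (hX : 0 ≤ X) (hXP : X ≤ P) (L : ℕ) :
    |Real.exp X - ∑ i ∈ range (2 * P + L), X ^ i / (i.factorial : ℝ)| ≤
      2 * ((P : ℝ) ^ (2 * P) * (1 / 2) ^ L) := by
  have hP' : (1 : ℝ) ≤ P := by exact_mod_cast hP
  have hb : ‖(X : ℂ)‖ / ((2 * P + L).succ : ℝ) ≤ 1 / 2 := by
    rw [Complex.norm_real, Real.norm_of_nonneg hX, div_le_div_iff₀ (by positivity) (by norm_num)]
    push_cast
    have hL : (0 : ℝ) ≤ L := Nat.cast_nonneg L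
    linarith
  have h := Complex.exp_bound' hb
  have e : Complex.exp (X : ℂ) - ∑ m ∈ range (2 * P + L), (X : ℂ) ^ m / (m.factorial : ℂ) =
      ((Real.exp X - ∑ i ∈ range (2 * P + L), X ^ i / (i.factorial : ℝ) : ℝ) : ℂ) := by
    push_cast
    rfl
  rw [e, Complex.norm_real, Real.norm_eq_abs, Complex.norm_real, Real.norm_of_nonneg hX] at h
  refine h.trans ?_
  have := pow_div_fact_le P hP X hX hXP L
  linarith

/-- `1 / (1 + e) ` is `1`-Lipschitz for `e ≥ 0`. -/
theorem one_div_one_add_lip {e e' : ℝ} (he : 0 ≤ e) (he' : 0 ≤ e') :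
    |1 / (1 + e) - 1 / (1 + e')| ≤ |e - e'| := by
  have h1 : 0 < 1 + e := by linarith
  have h2 : 0 < 1 + e' := by linarith
  have e1 : 1 / (1 + e) - 1 / (1 + e') = (e' - e) / ((1 + e) * (1 + e')) := by
    field_simp
    ring
  rw [e1, abs_div, abs_of_pos (mul_pos h1 h2), abs_sub_comm e' e]
  apply div_le_self (abs_nonneg _)
  nlinarith

theorem smoothTransition_eq {y : ℝ} (h0 : 0 < y) (h1 : y < 1) :
    Real.smoothTransition y = 1 / (1 + Real.exp (y⁻¹ - (1 - y)⁻¹)) := by
  have h1' : 0 < 1 - y := by linarith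
  have e1 : expNegInvGlue y = Real.exp (-y⁻¹) := by
    rw [expNegInvGlue, if_neg (not_le.2 h0)]
  have e2 : expNegInvGlue (1 - y) = Real.exp (-(1 - y)⁻¹) := by
    rw [expNegInvGlue, if_neg (not_le.2 h1')]
  rw [Real.smoothTransition, e1, e2]
  have e3 : Real.exp (y⁻¹ - (1 - y)⁻¹) = Real.exp (-(1 - y)⁻¹) / Real.exp (-y⁻¹) := by
    rw [← Real.exp_sub]
    congr 1
    ring
  rw [e3]
  have := Real.exp_pos (-y⁻¹)
  have := Real.exp_pos (-(1 - y)⁻¹)
  field_simp

theorem one_div_one_add_exp_neg (x : ℝ) :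
    1 / (1 + Real.exp (-x)) = 1 - 1 / (1 + Real.exp x) := by
  have h := Real.exp_pos x
  rw [Real.exp_neg]
  field_simp
  ring

/-! ### Exponential partial sums in `Qt` -/

/-- State `(term, sum)` of the exponential series. -/
def expState (X : Qt) : ℕ → Qt × Qt
  | 0 => (Qt.ofNat 1, Qt.ofNat 0)
  | k + 1 => (Qt.mul (expState X k).1 (Qt.mul X (Qt.inv (Qt.ofNat (k + 1)))),
      Qt.add (expState X k).2 (expState X k).1)

theorem expState_fst (X : Qt) (k : ℕ) :
    (expState X k).1.val = X.val ^ k / (k.factorial : ℚ) := by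
  induction k with
  | zero => simp [expState, Qt.val_ofNat]
  | succ k ih =>
    simp only [expState, Qt.val_mul, ih, Qt.val_inv, Qt.val_ofNat]
    rw [Nat.factorial_succ, pow_succ]
    have h1 : ((k + 1 : ℕ) : ℚ) ≠ 0 := by positivity
    have h2 : (k.factorial : ℚ) ≠ 0 := by exact_mod_cast Nat.factorial_ne_zero k
    push_cast at h1 ⊢
    field_simp

theorem expState_snd (X : Qt) (k : ℕ) :
    (expState X k).2.val = ∑ i ∈ range k, X.val ^ i / (i.factorial : ℚ) := by
  induction k with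
  | zero => simp [expState, Qt.val_ofNat]
  | succ k ih =>
    simp only [expState, Qt.val_add, ih, expState_fst]
    rw [Finset.sum_range_succ]

theorem primrec_expState : Primrec₂ expState := by
  have h : Primrec₂ (fun (X : Qt) (k : ℕ) =>
      Nat.rec (motive := fun _ => Qt × Qt) (Qt.ofNat 1, Qt.ofNat 0)
        (fun k s => (Qt.mul s.1 (Qt.mul X (Qt.inv (Qt.ofNat (k + 1)))), Qt.add s.2 s.1)) k) := by
    refine Primrec.nat_rec' (f := fun p : Qt × ℕ => p.2) (g := fun _ => (Qt.ofNat 1, Qt.ofNat 0))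
      (h := fun p (s : ℕ × (Qt × Qt)) =>
        (Qt.mul s.2.1 (Qt.mul p.1 (Qt.inv (Qt.ofNat (s.1 + 1)))), Qt.add s.2.2 s.2.1))
      Primrec.snd (Primrec.const _) ?_
    refine Primrec.pair ?_ ?_
    · refine primrec_mul.comp (Primrec.fst.comp (Primrec.snd.comp Primrec.snd)) ?_
      refine primrec_mul.comp (Primrec.fst.comp Primrec.fst) ?_
      exact primrec_inv.comp (primrec_ofNat.comp (Primrec.succ.comp (Primrec.fst.comp Primrec.snd)))
    · exact primrec_add.comp (Primrec.snd.comp (Primrec.snd.comp Primrec.snd))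
        (Primrec.fst.comp (Primrec.snd.comp Primrec.snd))
  refine h.of_eq ?_
  intro X k
  induction k with
  | zero => rfl
  | succ k ih => simp only [expState, ← ih]

/-- Number of terms. -/
def expTerms (P N : ℕ) : ℕ := 2 * P + 2 * P ^ (2 * P) * (N + 1)

/-- Approximation of `1 / (1 + exp X)`, for `X ≥ 0`. -/
def sApprox (X : Qt) (N : ℕ) : Qt :=
  Qt.inv (Qt.add (Qt.ofNat 1) (expState X (expTerms X.natB N)).2)

theorem sApprox_spec (X : Qt) (hX : 0 ≤ X.val) (N : ℕ) :
    |1 / (1 + Real.exp (X.val : ℝ)) - (((sApprox X N).val : ℚ) : ℝ)| ≤ 1 / ((N : ℝ) + 1) := by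
  set P := X.natB with hP
  have hP1 : 1 ≤ P := X.natB_pos
  have hXr : (0 : ℝ) ≤ (X.val : ℝ) := by exact_mod_cast hX
  have hXP : (X.val : ℝ) ≤ P := by
    have := X.abs_val_le
    exact (le_abs_self _).trans this
  set L := 2 * P ^ (2 * P) * (N + 1) with hL
  have hb := exp_partial_bound P hP1 X.val hXr hXP L
  set e : ℝ := ∑ i ∈ range (2 * P + L), ((X.val : ℝ)) ^ i / (i.factorial : ℝ) with he
  have he0 : 0 ≤ e := Finset.sum_nonneg fun i _ => by positivity
  have hval : (((sApprox X N).val : ℚ) : ℝ) = 1 / (1 + e) := by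
    simp only [sApprox, Qt.val_inv, Qt.val_add, Qt.val_ofNat, expState_snd, expTerms]
    push_cast
    rw [he, ← hP, ← hL, one_div]
  rw [hval]
  refine (one_div_one_add_lip (Real.exp_pos _).le he0).trans (hb.trans ?_)
  -- `2 * P^(2P) * (1/2)^L ≤ 1/(N+1)`
  have hLpos : 0 < L := by
    rw [hL]; positivity
  have h2L : (L : ℝ) ≤ 2 ^ L := by exact_mod_cast (Nat.lt_two_pow_self (n := L)).le
  have hPP : (0 : ℝ) < (P : ℝ) ^ (2 * P) := by
    have : (0 : ℝ) < P := by exact_mod_cast hP1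
    positivity
  have hLr : (L : ℝ) = 2 * (P : ℝ) ^ (2 * P) * ((N : ℝ) + 1) := by
    rw [hL]; push_cast; ring
  have hN : (0 : ℝ) < (N : ℝ) + 1 := by positivity
  rw [one_div_pow, show (2 : ℝ) * ((P : ℝ) ^ (2 * P) * (1 / 2 ^ L)) = (2 * (P : ℝ) ^ (2 * P)) / 2 ^ L by ring]
  rw [div_le_div_iff₀ (by positivity) hN]
  nlinarith

/-- The approximation of the step at a rational point. -/
def st0Approx (q : Qt) (N : ℕ) : Qt :=
  bif (Qt.lt (Qt.ofNat 0) q && Qt.lt q (Qt.ofNat 1)) then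
    (bif Qt.lt (Qt.sub (Qt.inv q) (Qt.inv (Qt.sub (Qt.ofNat 1) q))) (Qt.ofNat 0) then
      Qt.sub (Qt.ofNat 1) (sApprox (Qt.abs (Qt.sub (Qt.inv q) (Qt.inv (Qt.sub (Qt.ofNat 1) q)))) N)
    else sApprox (Qt.abs (Qt.sub (Qt.inv q) (Qt.inv (Qt.sub (Qt.ofNat 1) q)))) N)
  else bif Qt.lt q (Qt.ofNat 1) then Qt.ofNat 0 else Qt.ofNat 1

theorem St_zero (y : ℝ) : St 0 y = Real.smoothTransition y := rfl

theorem st0Approx_spec (q : Qt) (N : ℕ) :
    |St 0 ((q.val : ℚ) : ℝ) - (((st0Approx q N).val : ℚ) : ℝ)| ≤ 1 / ((N : ℝ) + 1) := by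
  have hN : (0 : ℝ) ≤ 1 / ((N : ℝ) + 1) := by positivity
  rw [St_zero, st0Approx]
  by_cases h0 : 0 < q.val
  · by_cases h1 : q.val < 1
    · have h0' : Qt.lt (Qt.ofNat 0) q = true := by
        rw [Qt.lt_iff, Qt.val_ofNat]; simpa using h0
      have h1' : Qt.lt q (Qt.ofNat 1) = true := by
        rw [Qt.lt_iff, Qt.val_ofNat]; simpa using h1
      simp only [h0', h1', Bool.and_self, cond_true]
      set x := Qt.sub (Qt.inv q) (Qt.inv (Qt.sub (Qt.ofNat 1) q)) with hx
      have hxv : x.val = q.val⁻¹ - (1 - q.val)⁻¹ := by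
        rw [hx, Qt.val_sub, Qt.val_inv, Qt.val_inv, Qt.val_sub, Qt.val_ofNat]
        simp
      have h0r : (0 : ℝ) < (q.val : ℝ) := by exact_mod_cast h0
      have h1r : ((q.val : ℚ) : ℝ) < 1 := by exact_mod_cast h1
      rw [smoothTransition_eq h0r h1r]
      have hxr : (x.val : ℝ) = ((q.val : ℝ))⁻¹ - (1 - (q.val : ℝ))⁻¹ := by
        rw [hxv]; push_cast; rfl
      rw [← hxr]
      have habs : (Qt.abs x).val = |x.val| := Qt.val_abs x
      by_cases hneg : x.val < 0
      · have hlt : Qt.lt x (Qt.ofNat 0) = true := by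
          rw [Qt.lt_iff, Qt.val_ofNat]; simpa using hneg
        simp only [hlt, cond_true]
        have hspec := sApprox_spec (Qt.abs x) (by rw [habs]; exact abs_nonneg _) N
        rw [habs, abs_of_neg hneg] at hspec
        have hv : (Qt.sub (Qt.ofNat 1) (sApprox (Qt.abs x) N)).val = 1 - (sApprox (Qt.abs x) N).val := by
          rw [Qt.val_sub, Qt.val_ofNat]; simp
        rw [hv]
        have e1 := one_div_one_add_exp_neg (-(x.val : ℝ))
        rw [neg_neg] at e1
        rw [e1]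
        push_cast at hspec ⊢
        have e2 : (1 - 1 / (1 + Real.exp (-(x.val : ℝ)))) - (1 - ((sApprox (Qt.abs x) N).val : ℝ)) =
            -(1 / (1 + Real.exp (-(x.val : ℝ))) - ((sApprox (Qt.abs x) N).val : ℝ)) := by ring
        rw [e2, abs_neg]
        exact hspec
      · have hlt : Qt.lt x (Qt.ofNat 0) = false := by
          rw [← Bool.not_eq_true, Qt.lt_iff, Qt.val_ofNat]; simpa using hneg
        simp only [hlt, cond_false]
        have hspec := sApprox_spec (Qt.abs x) (by rw [habs]; exact abs_nonneg _) N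
        rw [habs, abs_of_nonneg (not_lt.1 hneg)] at hspec
        exact hspec
    · have h0' : Qt.lt q (Qt.ofNat 1) = false := by
        rw [← Bool.not_eq_true, Qt.lt_iff, Qt.val_ofNat]; simpa using h1
      simp only [h0', Bool.and_false, cond_false, Qt.val_ofNat]
      have : (1 : ℝ) ≤ ((q.val : ℚ) : ℝ) := by
        exact_mod_cast not_lt.1 h1
      rw [Real.smoothTransition.one_of_one_le this]
      simpa using hN
  · have hq : ((q.val : ℚ) : ℝ) ≤ 0 := by exact_mod_cast not_lt.1 h0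
    have h0' : Qt.lt (Qt.ofNat 0) q = false := by
      rw [← Bool.not_eq_true, Qt.lt_iff, Qt.val_ofNat]; simpa using h0
    have h1' : Qt.lt q (Qt.ofNat 1) = true := by
      rw [Qt.lt_iff, Qt.val_ofNat]
      have := not_lt.1 h0
      simp only [Nat.cast_one]
      linarith
    simp only [h0', h1', Bool.false_and, cond_false, cond_true, Qt.val_ofNat]
    rw [Real.smoothTransition.zero_of_nonpos hq]
    simpa using hN

theorem primrec_expTerms : Primrec₂ expTerms := by
  have hP : Primrec (fun p : ℕ × ℕ => 2 * p.1) := Primrec.nat_mul.comp (Primrec.const 2) Primrec.fst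
  refine Primrec.nat_add.comp hP (Primrec.nat_mul.comp ?_ (Primrec.succ.comp Primrec.snd))
  exact Primrec.nat_mul.comp (Primrec.const 2) (primrec_natPow.comp Primrec.fst hP)

theorem primrec_sApprox : Primrec₂ sApprox := by
  refine primrec_inv.comp (primrec_add.comp (Primrec.const _) ?_)
  refine Primrec.snd.comp (primrec_expState.comp Primrec.fst ?_)
  exact primrec_expTerms.comp (primrec_natB.comp Primrec.fst) Primrec.snd

theorem primrec_st0Approx : Primrec₂ st0Approx := by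
  have hq : Primrec (fun p : Qt × ℕ => p.1) := Primrec.fst
  have hx : Primrec (fun p : Qt × ℕ =>
      Qt.sub (Qt.inv p.1) (Qt.inv (Qt.sub (Qt.ofNat 1) p.1))) :=
    primrec_sub.comp (primrec_inv.comp hq)
      (primrec_inv.comp (primrec_sub.comp (Primrec.const _) hq))
  have hs : Primrec (fun p : Qt × ℕ =>
      sApprox (Qt.abs (Qt.sub (Qt.inv p.1) (Qt.inv (Qt.sub (Qt.ofNat 1) p.1)))) p.2) :=
    primrec_sApprox.comp (primrec_abs.comp hx) Primrec.snd
  refine Primrec.cond (Primrec.and.comp (primrec_lt.comp (Primrec.const _) hq)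
    (primrec_lt.comp hq (Primrec.const _))) ?_ ?_
  · exact Primrec.cond (primrec_lt.comp hx (Primrec.const _))
      (primrec_sub.comp (Primrec.const _) hs) hs
  · exact Primrec.cond (primrec_lt.comp hq (Primrec.const _)) (Primrec.const _) (Primrec.const _)

/-! ### Finite sums -/

/-- Finite sums in `Qt`. -/
def Qt.sumRange (f : ℕ → Qt) : ℕ → Qt
  | 0 => Qt.ofNat 0
  | k + 1 => Qt.add (Qt.sumRange f k) (f k)

theorem Qt.val_sumRange (f : ℕ → Qt) (n : ℕ) :
    (Qt.sumRange f n).val = ∑ k ∈ range n, (f k).val := by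
  induction n with
  | zero => simp [Qt.sumRange, Qt.val_ofNat]
  | succ n ih => simp only [Qt.sumRange, Qt.val_add, ih, Finset.sum_range_succ]

theorem computable_sumRange {α : Type*} [Primcodable α] {f : α → ℕ → Qt} {n : α → ℕ}
    (hf : Computable₂ f) (hn : Computable n) : Computable fun a => Qt.sumRange (f a) (n a) := by
  have h : Computable fun a => Nat.rec (motive := fun _ => Qt) (Qt.ofNat 0)
      (fun y IH => Qt.add IH (f a y)) (n a) :=
    Computable.nat_rec (g := fun _ => Qt.ofNat 0) (h := fun a (s : ℕ × Qt) => Qt.add s.2 (f a s.1))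
      hn (Computable.const _)
      (primrec_add.to_comp.comp (Computable.snd.comp Computable.snd)
        (hf.comp Computable.fst (Computable.fst.comp Computable.snd))).to₂
  refine h.of_eq ?_
  intro a
  generalize n a = k
  induction k with
  | zero => rfl
  | succ k ih =>
    change Qt.add (Nat.rec (motive := fun _ => Qt) (Qt.ofNat 0)
      (fun y IH => Qt.add IH (f a y)) k) (f a k) = _
    rw [ih]
    rfl

/-! ### Computable bound of the step -/

theorem primrec_factorial : Primrec Nat.factorial := by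
  have h : Primrec (fun m : ℕ => Nat.rec (motive := fun _ => ℕ) 1 (fun k ih => (k + 1) * ih) m) :=
    Primrec.nat_rec' (f := fun m : ℕ => m) (g := fun _ => 1)
      (h := fun _ (s : ℕ × ℕ) => (s.1 + 1) * s.2) Primrec.id (Primrec.const 1)
      (Primrec.nat_mul.comp (Primrec.succ.comp (Primrec.fst.comp Primrec.snd))
        (Primrec.snd.comp Primrec.snd)).to₂
  refine h.of_eq ?_
  intro m
  induction m with
  | zero => rfl
  | succ m ih => simp only [Nat.factorial_succ, ← ih]

theorem primrec_stT : Primrec StepB.T := by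
  unfold StepB.T
  refine Primrec.nat_mul.comp ?_ ?_
  · exact primrec_natPow.comp (Primrec.const _) Primrec.succ
  · exact primrec_natPow.comp primrec_factorial (Primrec.const _)

theorem boundT_St : BoundT St := ⟨StepB.T, primrec_stT.to_comp, StepB.St_bound⟩

/-! ### Approximating all derivatives of the step -/

/-- The coefficient `(-1)^(m-k) * C(m,k)` (for `k ≤ m`). -/
def coefQ (m k : ℕ) : Qt :=
  ((m - k).bodd, m.factorial / (k.factorial * (m - k).factorial), 0)

theorem neg_one_pow_bodd (n : ℕ) : ((-1 : ℚ) ^ n) = if n.bodd = true then -1 else 1 := by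
  induction n with
  | zero => simp
  | succ n ih =>
    rw [pow_succ, ih, Nat.bodd_succ]
    cases n.bodd <;> simp

theorem coefQ_val {m k : ℕ} (hk : k ≤ m) :
    (coefQ m k).val = (((-1 : ℤ) ^ (m - k) * (m.choose k : ℤ) : ℤ) : ℚ) := by
  rw [Qt.val, coefQ]
  dsimp only
  rw [← Nat.choose_eq_factorial_div_factorial hk]
  push_cast
  rw [neg_one_pow_bodd]
  split_ifs <;> simp

theorem primrec_coefQ : Primrec₂ coefQ := by
  have hsub : Primrec (fun p : ℕ × ℕ => p.1 - p.2) := Primrec.nat_sub.comp Primrec.fst Primrec.snd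
  refine Primrec.pair (Primrec.nat_bodd.comp hsub) (Primrec.pair ?_ (Primrec.const 0))
  refine Primrec.nat_div.comp (primrec_factorial.comp Primrec.fst) ?_
  exact Primrec.nat_mul.comp (primrec_factorial.comp Primrec.snd) (primrec_factorial.comp hsub)

/-- The scale of the finite differences. -/
def fdH (m N : ℕ) : ℕ := (2 * N + 1 + 1) * (m * StepB.T (m + 1) + 1)

/-- The precision for the evaluation of the step in the finite difference. -/
def fdN (m N : ℕ) : ℕ := fdH m N ^ m * 2 ^ m * (2 * N + 1 + 1)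

/-- The approximation of all derivatives of the step. -/
def stApprox (p : ℕ × Qt × ℕ) : Qt :=
  Qt.mul (Qt.ofNat (fdH p.1 p.2.2 ^ p.1))
    (Qt.sumRange (fun k => Qt.mul (coefQ p.1 k)
      (st0Approx (Qt.add p.2.1 (Qt.mul (Qt.ofNat k) (Qt.inv (Qt.ofNat (fdH p.1 p.2.2)))))
        (fdN p.1 p.2.2))) (p.1 + 1))

theorem primrec_fdH : Primrec₂ fdH := by
  refine Primrec.nat_mul.comp ?_ ?_
  · exact Primrec.succ.comp (Primrec.succ.comp
      (Primrec.nat_mul.comp (Primrec.const 2) Primrec.snd))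
  · exact Primrec.succ.comp (Primrec.nat_mul.comp Primrec.fst
      (primrec_stT.comp (Primrec.succ.comp Primrec.fst)))

theorem primrec_fdN : Primrec₂ fdN := by
  refine Primrec.nat_mul.comp (Primrec.nat_mul.comp ?_ ?_) ?_
  · exact primrec_natPow.comp primrec_fdH Primrec.fst
  · exact primrec_natPow.comp (Primrec.const 2) Primrec.fst
  · exact Primrec.succ.comp (Primrec.succ.comp
      (Primrec.nat_mul.comp (Primrec.const 2) Primrec.snd))

theorem computable_stApprox : Computable stApprox := by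
  have hm : Primrec (fun p : ℕ × Qt × ℕ => p.1) := Primrec.fst
  have hq : Primrec (fun p : ℕ × Qt × ℕ => p.2.1) := Primrec.fst.comp Primrec.snd
  have hN : Primrec (fun p : ℕ × Qt × ℕ => p.2.2) := Primrec.snd.comp Primrec.snd
  have hH : Primrec (fun p : ℕ × Qt × ℕ => fdH p.1 p.2.2) := primrec_fdH.comp hm hN
  have hNN : Primrec (fun p : ℕ × Qt × ℕ => fdN p.1 p.2.2) := primrec_fdN.comp hm hN
  have hterm : Primrec₂ (fun (p : ℕ × Qt × ℕ) (k : ℕ) => Qt.mul (coefQ p.1 k)
      (st0Approx (Qt.add p.2.1 (Qt.mul (Qt.ofNat k) (Qt.inv (Qt.ofNat (fdH p.1 p.2.2)))))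
        (fdN p.1 p.2.2))) := by
    refine primrec_mul.comp (primrec_coefQ.comp (hm.comp Primrec.fst) Primrec.snd) ?_
    refine primrec_st0Approx.comp (primrec_add.comp (hq.comp Primrec.fst) ?_) (hNN.comp Primrec.fst)
    exact primrec_mul.comp (primrec_ofNat.comp Primrec.snd)
      (primrec_inv.comp (primrec_ofNat.comp (hH.comp Primrec.fst)))
  exact primrec_mul.to_comp.comp (primrec_ofNat.comp (primrec_natPow.comp hH hm)).to_comp
    (computable_sumRange hterm.to_comp (Primrec.succ.comp hm).to_comp)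

theorem stApprox_spec (m : ℕ) (q : Qt) (N : ℕ) :
    |St m ((q.val : ℚ) : ℝ) - (((stApprox (m, q, N)).val : ℚ) : ℝ)| ≤ 1 / ((N : ℝ) + 1) := by
  set H := fdH m N with hH
  set N2 := fdN m N with hN2
  have hHpos : 0 < H := by
    rw [hH, fdH]; positivity
  have hHr : (0 : ℝ) < (H : ℝ) := by exact_mod_cast hHpos
  have hfd := StepB.St_fd m (H : ℝ) hHr ((q.val : ℚ) : ℝ)
  -- notation for coefficients and points
  let c : ℕ → ℝ := fun k => (((-1 : ℤ) ^ (m - k) * (m.choose k : ℤ) : ℤ) : ℝ)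
  let Q : ℕ → Qt := fun k => Qt.add q (Qt.mul (Qt.ofNat k) (Qt.inv (Qt.ofNat H)))
  have hQ : ∀ k : ℕ, ((q.val : ℚ) : ℝ) + (k : ℝ) * (1 / (H : ℝ)) = (((Q k).val : ℚ) : ℝ) := by
    intro k
    simp only [Q, Qt.val_add, Qt.val_mul, Qt.val_ofNat, Qt.val_inv]
    push_cast
    rw [one_div]
  have hval : (((stApprox (m, q, N)).val : ℚ) : ℝ) =
      (H : ℝ) ^ m * ∑ k ∈ range (m + 1), c k * (((st0Approx (Q k) N2).val : ℚ) : ℝ) := by
    simp only [stApprox, Qt.val_mul, Qt.val_ofNat, Qt.val_sumRange]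
    push_cast
    congr 1
    refine Finset.sum_congr rfl ?_
    intro k hk
    have hk' : k ≤ m := Nat.lt_succ_iff.1 (Finset.mem_range.1 hk)
    rw [coefQ_val hk']
    simp only [c, Q]
    push_cast
    simp [Qt.val_add, Qt.val_mul, Qt.val_ofNat, Qt.val_inv, hH, hN2]
  rw [hval]
  simp only [hQ] at hfd
  set S1 : ℝ := ∑ k ∈ range (m + 1), c k * St 0 (((Q k).val : ℚ) : ℝ) with hS1
  set S2 : ℝ := ∑ k ∈ range (m + 1), c k * (((st0Approx (Q k) N2).val : ℚ) : ℝ) with hS2
  have hfd' : |St m ((q.val : ℚ) : ℝ) - (H : ℝ) ^ m * S1| ≤ (m : ℝ) / H * (StepB.T (m + 1) : ℝ) := hfd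
  have hN0 : (0 : ℝ) < (N : ℝ) + 1 := by positivity
  have hHeq : (H : ℝ) = (2 * ((N : ℝ) + 1)) * ((m : ℝ) * (StepB.T (m + 1) : ℝ) + 1) := by
    rw [hH, fdH]; push_cast; ring
  have hT0 : (0 : ℝ) ≤ (m : ℝ) * (StepB.T (m + 1) : ℝ) := by positivity
  have hA : (m : ℝ) / H * (StepB.T (m + 1) : ℝ) ≤ (1 / ((N : ℝ) + 1)) / 2 := by
    rw [div_mul_eq_mul_div, hHeq, div_div, div_le_div_iff₀ (by positivity) (by positivity)]
    nlinarith
  -- the approximation of the sum
  have hS : |S1 - S2| ≤ (2 : ℝ) ^ m * (1 / ((N2 : ℝ) + 1)) := by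
    rw [hS1, hS2, ← Finset.sum_sub_distrib]
    refine (Finset.abs_sum_le_sum_abs _ _).trans ?_
    have hsum : ∑ k ∈ range (m + 1), ((m.choose k : ℕ) : ℝ) = (2 : ℝ) ^ m := by
      exact_mod_cast Nat.sum_range_choose m
    rw [← hsum, Finset.sum_mul]
    refine Finset.sum_le_sum ?_
    intro k _
    rw [← mul_sub, abs_mul]
    have hc : |c k| = ((m.choose k : ℕ) : ℝ) := by
      simp only [c]
      push_cast
      rw [abs_mul, abs_pow, abs_neg, abs_one, one_pow, one_mul, abs_of_nonneg (Nat.cast_nonneg _)]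
    rw [hc]
    exact mul_le_mul_of_nonneg_left (st0Approx_spec (Q k) N2) (Nat.cast_nonneg _)
  have hB : (H : ℝ) ^ m * |S1 - S2| ≤ (1 / ((N : ℝ) + 1)) / 2 := by
    have hN2r : (N2 : ℝ) = (H : ℝ) ^ m * 2 ^ m * (2 * ((N : ℝ) + 1)) := by
      rw [hN2, fdN, ← hH]; push_cast; ring
    have hHm : (0 : ℝ) < (H : ℝ) ^ m := by positivity
    have h2m : (0 : ℝ) < (2 : ℝ) ^ m := by positivity
    calc (H : ℝ) ^ m * |S1 - S2| ≤ (H : ℝ) ^ m * ((2 : ℝ) ^ m * (1 / ((N2 : ℝ) + 1))) :=
          mul_le_mul_of_nonneg_left hS hHm.le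
      _ ≤ (1 / ((N : ℝ) + 1)) / 2 := by
          have e : (H : ℝ) ^ m * ((2 : ℝ) ^ m * (1 / ((N2 : ℝ) + 1))) =
              ((H : ℝ) ^ m * 2 ^ m) / ((N2 : ℝ) + 1) := by ring
          rw [e, div_div, div_le_div_iff₀ (by positivity) (by positivity), hN2r]
          nlinarith [mul_pos hHm h2m]
  have hsplit : St m ((q.val : ℚ) : ℝ) - (H : ℝ) ^ m * S2 =
      (St m ((q.val : ℚ) : ℝ) - (H : ℝ) ^ m * S1) + (H : ℝ) ^ m * (S1 - S2) := by ring
  rw [hsplit]
  refine (abs_add_le _ _).trans ?_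
  rw [abs_mul, abs_of_nonneg (by positivity : (0 : ℝ) ≤ (H : ℝ) ^ m)]
  linarith

theorem approxT_St : ApproxT St := ⟨stApprox, computable_stApprox, stApprox_spec⟩

end Crest.Agent.Lib.BF
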