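import Crest.Agent.Lib.BF.StepBound

/-! `T` from `StepBound` is primitive recursive (helper19). -/

namespace Crest.Agent.Lib.BF.StepB

lemma primrec_pow_const (c : ℕ) : Primrec (fun n : ℕ => c ^ n) := by
  have h : Primrec (Nat.rec 1 (fun _ IH => IH * c) : ℕ → ℕ) :=
    Primrec.nat_rec₁ 1 (Primrec.nat_mul.comp Primrec.snd (Primrec.const c) |>.to₂)
  refine h.of_eq ?_
  intro n
  induction n with
  | zero => rfl
  | succ n ih => simp only [pow_succ, ← ih]

lemma primrec_factorial : Primrec Nat.factorial := by
  have h : Primrec (Nat.rec 1 (fun y IH => (y + 1) * IH) : ℕ → ℕ) :=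
    Primrec.nat_rec₁ 1 (Primrec.nat_mul.comp (Primrec.succ.comp Primrec.fst) Primrec.snd |>.to₂)
  refine h.of_eq ?_
  intro n
  induction n with
  | zero => rfl
  | succ n ih => simp only [Nat.factorial_succ, ← ih]

theorem primrec_T : Primrec T := by
  unfold T
  have h1 : Primrec (fun m : ℕ => 1000 ^ (m + 1)) := (primrec_pow_const 1000).comp Primrec.succ
  have h2 : Primrec (fun m : ℕ => m.factorial ^ 3) := by
    have : Primrec (fun m : ℕ => m.factorial * m.factorial * m.factorial) :=
      Primrec.nat_mul.comp (Primrec.nat_mul.comp primrec_factorial primrec_factorial) primrec_factorial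
    refine this.of_eq ?_
    intro m
    ring
  exact Primrec.nat_mul.comp h1 h2

theorem computable_T : Computable T := primrec_T.to_comp

end Crest.Agent.Lib.BF.StepB
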